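import Vale.Agent.P153.A.Stmt
import Vale.Agent.P153.BK.Out

/-!
Step (11): Burton–Keane.
-/

namespace Vale.Agent.P153.A

open MeasureTheory Filter Topology Relation
open scoped ENNReal

theorem adj_iff_st {x y : ℤ × ℤ} : Adj x y ↔ Step x y := by
  obtain ⟨x1, x2⟩ := x; obtain ⟨y1, y2⟩ := y
  simp only [Adj, Step, Set.mem_insert_iff, Set.mem_singleton_iff, Prod.mk.injEq]
  constructor <;> intro h <;> omega

theorem bich_iff_con (S : Set Pt) (τ : Sp) (x y : Pt) : Bich S τ x y ↔ BK.Con τ S x y := by
  unfold Bich BK.Con BK.Bi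
  simp only [adj_iff_st, and_assoc]

/-- (11) -/
theorem s_bk : S_bk := by
  classical
  intro μ hμ hinv hmix hflip
  have h : BK.Hyp μ := by
    refine BK.hyp_of_flip hμ (fun c => hinv c) (C := 64) (by simp) (fun x E hE => ?_)
      ⟨fun k => ((k : ℤ), 0), fun B A A' hA hA' => ?_⟩
    · exact hflip x E hE
    · have hloc : ∀ E : Set Sp, BK.Loc B E → Loc B (fun τ : Sp => E.indicator (fun _ => (1 : ℝ)) τ) := by
        intro E hE τ τ' hττ
        by_cases hτ : τ ∈ E
        · simp only [Set.indicator_of_mem hτ, Set.indicator_of_mem ((hE τ τ' hττ).1 hτ)]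
        · simp only [Set.indicator_of_notMem hτ,
            Set.indicator_of_notMem (fun h => hτ ((hE τ τ' hττ).2 h))]
      have h1 := hmix B _ _ (hloc A hA) (hloc A' hA')
      have hinj : Tendsto (fun k : ℕ => ((k : ℤ), (0 : ℤ))) atTop cofinite := by
        rw [← Nat.cofinite_eq_atTop]
        exact Function.Injective.tendsto_cofinite (fun a b hab => by simpa using hab)
      have h2 := h1.comp hinj
      have e1 : ∀ E : Set Sp, BK.Loc B E → ∫ τ, E.indicator (fun _ => (1 : ℝ)) τ ∂μ = μ.real E :=
        fun E hE => integral_indicator_one hE.meas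
      have e2 : ∀ z : Pt, ∫ τ, A.indicator (fun _ => (1 : ℝ)) τ *
          A'.indicator (fun _ => (1 : ℝ)) (tr z τ) ∂μ = μ.real (A ∩ BK.sh z ⁻¹' A') := by
        intro z
        rw [← integral_indicator_one (hA.meas.inter (BK.measurable_sh z hA'.meas))]
        congr 1
        funext τ
        by_cases h1 : τ ∈ A
        · by_cases h2 : tr z τ ∈ A'
          · rw [Set.indicator_of_mem h1, Set.indicator_of_mem h2,
              Set.indicator_of_mem (show τ ∈ A ∩ BK.sh z ⁻¹' A' from ⟨h1, h2⟩)]
            simp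
          · rw [Set.indicator_of_notMem h2,
              Set.indicator_of_notMem (show τ ∉ A ∩ BK.sh z ⁻¹' A' from fun h => h2 h.2)]
            simp
        · rw [Set.indicator_of_notMem h1,
              Set.indicator_of_notMem (show τ ∉ A ∩ BK.sh z ⁻¹' A' from fun h => h1 h.1)]
          simp
      rw [e1 A hA, e1 A' hA'] at h2
      have h3 : Tendsto (fun k : ℕ => μ.real (A ∩ BK.sh ((k : ℤ), (0 : ℤ)) ⁻¹' A')) atTop
          (𝓝 (μ.real A * μ.real A')) := h2.congr (fun k => e2 _)
      have h4 := ENNReal.tendsto_ofReal h3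
      rw [ENNReal.ofReal_mul measureReal_nonneg] at h4
      simpa only [Measure.real, ENNReal.ofReal_toReal (measure_ne_top μ _)] using h4
  have h0 := BK.E2_null h
  refine measure_mono_null ?_ h0
  rintro τ ⟨x, y, hx, hy, hxy⟩
  refine ⟨x, y, ?_, ?_, fun hc => hxy ((bich_iff_con _ _ _ _).2 hc)⟩
  · unfold BK.Inf
    simpa only [bich_iff_con] using hx
  · unfold BK.Inf
    simpa only [bich_iff_con] using hy

end Vale.Agent.P153.A
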