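import Vale.Agent.P153.A.Stmt
import Vale.Agent.P153.Topo.Circuit

/-!
P153, block A3, step (22): the domains (hexagons and rectangles) have connected complements and
exhaust the lattice.
-/

namespace Vale.Agent.P153.A

open Vale.Agent.P153.GFF (hexa)
open Vale.Agent.P153.Topo (Conn)

namespace Cc22

lemma mem_hexa {n : ℕ} {x : ℤ × ℤ} :
    x ∈ hexa n ↔ (-(n : ℤ) ≤ x.1 ∧ x.1 ≤ n) ∧ (-(n : ℤ) ≤ x.2 ∧ x.2 ≤ n) ∧ |x.1 + x.2| ≤ n := by
  simp only [hexa, Finset.mem_filter, Finset.mem_product, Finset.mem_Icc]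
  tauto

/-- If from every vertex outside `D` one of the two horizontal rays avoids `D`, and `D` is in a
box, then the complement of `D` is connected. -/
lemma cc_of_rays {D : Finset (ℤ × ℤ)} (N : ℤ)
    (hN : ∀ x : ℤ × ℤ, N ≤ |x.1| ∨ N ≤ |x.2| → x ∉ D)
    (h : ∀ x : ℤ × ℤ, x ∉ D → (∀ i, x.1 ≤ i → (i, x.2) ∉ D) ∨ ∀ i, i ≤ x.1 → (i, x.2) ∉ D) :
    Cc D := by
  have key : ∀ x : ℤ × ℤ, x ∉ D → Conn ((D : Set (ℤ × ℤ))ᶜ) x (N, 0) := by
    rintro ⟨a, b⟩ hx
    have hS : ∀ x : ℤ × ℤ, N ≤ |x.1| ∨ N ≤ |x.2| → x ∈ ((D : Set (ℤ × ℤ))ᶜ) := fun x hx =>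
      by simpa using hN x hx
    rcases h _ hx with h | h
    · have e1 : Conn ((D : Set (ℤ × ℤ))ᶜ) (a, b) (max a N, b) :=
        Topo.conn_row fun i h1 _ => by
          have := h i (by simpa using h1)
          simpa using this
      refine e1.trans (Topo.conn_compl_box hS (Or.inl ?_) le_rfl)
      exact (le_max_right a N).trans (le_abs_self _)
    · have e1 : Conn ((D : Set (ℤ × ℤ))ᶜ) (a, b) (min a (-N), b) :=
        Topo.conn_row fun i _ h1 => by
          have := h i (by simpa using h1)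
          simpa using this
      refine e1.trans (Topo.conn_compl_box hS (Or.inl ?_) le_rfl)
      have h2 : min a (-N) ≤ -N := min_le_right _ _
      have h3 := neg_abs_le (min a (-N))
      show N ≤ |min a (-N)|
      omega
  intro x y hx hy
  exact (key x hx).trans (key y hy).symm

lemma cc_hexa (n : ℕ) : Cc (hexa n) := by
  refine cc_of_rays (n + 1) (fun x hx hx' => ?_) fun x hx => ?_
  · rw [mem_hexa] at hx'
    rcases hx with hx | hx
    · have := abs_le.2 hx'.1
      omega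
    · have := abs_le.2 hx'.2.1
      omega
  · simp only [mem_hexa, abs_le] at hx ⊢
    by_cases h : (x.2 < -(n : ℤ) ∨ (n : ℤ) < x.2) ∨ (n : ℤ) < x.1 ∨ (n : ℤ) < x.1 + x.2
    · left
      intro i hi
      omega
    · right
      intro i hi
      omega

lemma cc_rect (N H H' : ℕ) : Cc (Fv.rect N H H') := by
  refine cc_of_rays (N + H + H' + 1) (fun x hx hx' => ?_) fun x hx => ?_
  · rw [Fv.mem_rect, abs_le] at hx'
    rcases hx with hx | hx
    · rcases abs_cases x.1 with h | h <;> omega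
    · rcases abs_cases x.2 with h | h <;> omega
  · simp only [Fv.mem_rect, abs_le] at hx ⊢
    by_cases h : (x.2 < -(H : ℤ) ∨ (H' : ℤ) < x.2) ∨ (2 * (N : ℤ)) < 2 * x.1 + x.2
    · left
      intro i hi
      omega
    · right
      intro i hi
      omega

end Cc22

open Cc22 in
theorem s_cc : S_cc := by
  refine ⟨cc_hexa, cc_rect, fun B => ?_⟩
  obtain ⟨n, hn⟩ := (B.image (fun x : ℤ × ℤ => (|x.1| + |x.2|).toNat)).bddAbove
  have hB : ∀ x ∈ B, |x.1| + |x.2| ≤ n := fun x hx => by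
    have := hn (Finset.mem_coe.mpr (Finset.mem_image_of_mem _ hx))
    have h0 : 0 ≤ |x.1| + |x.2| := by positivity
    omega
  refine ⟨n, fun m hm x hx => ?_, fun N H H' h1 h2 h3 x hx => ?_⟩
  · have := hB x hx
    have h4 : (n : ℤ) ≤ m := by exact_mod_cast hm
    rw [mem_hexa, abs_le]
    rcases abs_cases x.1 with h | h <;> rcases abs_cases x.2 with h' | h' <;> omega
  · have := hB x hx
    have h4 : (n : ℤ) ≤ N := by exact_mod_cast h1
    have h5 : (n : ℤ) ≤ H := by exact_mod_cast h2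
    have h6 : (n : ℤ) ≤ H' := by exact_mod_cast h3
    rw [Fv.mem_rect, abs_le]
    rcases abs_cases x.1 with h | h <;> rcases abs_cases x.2 with h' | h' <;> omega

end Vale.Agent.P153.A
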