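import Vale.Agent.P153.A.Stmt

/-!
P153, block A3 (13): given tau, the spin sigma is given by fair coins on the bichromatic clusters.
-/

namespace Vale.Agent.P153.A

open MeasureTheory Filter Topology Relation Finset
open Vale.Agent.P153.GFF (Adj)

/-- average over a finite group through a surjective homomorphism -/
theorem avg_hom {G H : Type*} [AddCommGroup G] [AddCommGroup H] [Fintype G] [Fintype H]
    (f : G →+ H) (hf : Function.Surjective f) (φ : H → ℝ) :
    (∑ g, φ (f g)) / Fintype.card G = (∑ h, φ h) / Fintype.card H := by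
  classical
  have hc : ∀ h : H, #{g : G | f g = h} = #{g : G | f g = 0} := fun h =>
    AddMonoidHom.card_fiber_eq_of_mem_range f (hf h) (hf 0)
  have h0 : 0 < #{g : G | f g = 0} := by
    rw [card_pos]
    exact ⟨0, by simp⟩
  have e1 : ∑ g, φ (f g) = #{g : G | f g = 0} * ∑ h, φ h := by
    rw [← sum_fiberwise (s := (univ : Finset G)) (g := f), mul_sum]
    refine sum_congr rfl fun h _ => ?_
    rw [sum_congr rfl (g := fun _ => φ h) (fun g hg => by rw [(mem_filter.1 hg).2]), sum_const,
      nsmul_eq_mul, hc h]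
  have e2 : (Fintype.card G : ℝ) = #{g : G | f g = 0} * Fintype.card H := by
    have := sum_fiberwise (s := (univ : Finset G)) (g := f) (f := fun _ => (1 : ℝ))
    simp only [sum_const, card_univ, nsmul_eq_mul, mul_one] at this
    rw [← this, sum_congr rfl (fun h _ => by rw [hc h]), sum_const, card_univ, nsmul_eq_mul]
    ring
  have h0' : (0 : ℝ) < #{g : G | f g = 0} := by exact_mod_cast h0
  rw [e1, e2, mul_div_mul_left _ _ h0'.ne']

theorem adj_symm {x y : Pt} (h : Adj x y) : Adj y x := Fv.adj_comm'.1 h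

theorem Bich.symm {S : Set Pt} {τ : Sp} {x y : Pt} (h : Bich S τ x y) : Bich S τ y x := by
  unfold Bich at *
  induction h with
  | refl => exact ReflTransGen.refl
  | tail _ h2 ih =>
    exact ReflTransGen.head ⟨adj_symm h2.1, h2.2.1.symm, h2.2.2.2, h2.2.2.1⟩ ih

theorem Bich.trans' {S : Set Pt} {τ : Sp} {x y z : Pt} (h : Bich S τ x y) (h' : Bich S τ y z) :
    Bich S τ x z := ReflTransGen.trans h h'

theorem Bich.one {τ : Sp} {x y : Pt} (h : Adj x y) (h' : τ x ≠ τ y) : Bich Set.univ τ x y :=
  ReflTransGen.single ⟨h, h', trivial, trivial⟩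

/-- a vertex off `D` is isolated -/
theorem bich_off {D : Finset Pt} {τ : Sp} (hτ : τ ∈ Adm D) {x y : Pt} (hx : x ∉ D)
    (h : Bich Set.univ τ x y) : y = x := by
  rcases ReflTransGen.cases_head h with h1 | ⟨u, ⟨h1, h2, -, -⟩, -⟩
  · exact h1.symm
  · exfalso
    have h3 : τ x = true := hτ x fun h4 => hx h4.1
    have h4 : u ∈ inn D := by
      by_contra h5
      exact h2 (h3.trans (hτ u h5).symm)
    exact hx (h4.2 x (adj_symm h1))

theorem finite_supp (D : Finset Pt) : {s : Sp | ∀ x, x ∉ D → s x = false}.Finite := by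
  classical
  apply Set.Finite.of_finite_image (f := fun h : Sp => fun x : D => h x)
  · exact Set.toFinite _
  · intro h hh g hg hhg
    funext x
    by_cases hx : x ∈ D
    · exact congrFun hhg ⟨x, hx⟩
    · rw [hh x hx, hg x hx]

theorem finite_G (D : Finset Pt) (τ : Sp) : (G D τ : Set Sp).Finite :=
  (finite_supp D).subset fun _ hs => hs.1

/-- the functions on `B` which are constant on the classes of `r` -/
def TT (B : Finset Pt) (r : Pt → Pt → Prop) : AddSubgroup Sp where
  carrier := {t : Sp | (∀ x, x ∉ B → t x = false) ∧ ∀ x ∈ B, ∀ y ∈ B, r x y → t x = t y}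
  add_mem' := by
    rintro a b ⟨ha, ha'⟩ ⟨hb, hb'⟩
    refine ⟨fun x hx => ?_, fun x hx y hy h => ?_⟩
    · show xor (a x) (b x) = false
      rw [ha x hx, hb x hx]; rfl
    · show xor (a x) (b x) = xor (a y) (b y)
      rw [ha' x hx y hy h, hb' x hx y hy h]
  zero_mem' := ⟨fun _ _ => rfl, fun _ _ _ _ _ => rfl⟩
  neg_mem' := fun {a} ha => ha

theorem finite_TT (B : Finset Pt) (r : Pt → Pt → Prop) : (TT B r : Set Sp).Finite :=
  (finite_supp B).subset fun _ hs => hs.1

open Classical in
/-- restriction to `B` -/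
noncomputable def res (B : Finset Pt) (s : Sp) : Sp := fun x => if x ∈ B then s x else false

theorem G_bich {D : Finset Pt} {τ s : Sp} (hs : s ∈ G D τ) {x y : Pt}
    (h : Bich Set.univ τ x y) : s x = s y := by
  induction h with
  | refl => rfl
  | tail _ h2 ih => exact ih.trans (hs.2 _ _ h2.1 h2.2.1)

open Classical in
/-- extension of a function on `B` to the clusters -/
noncomputable def ext (B : Finset Pt) (τ t : Sp) : Sp := fun x =>
  if h : ∃ b ∈ B, Bich Set.univ τ x b then t h.choose else false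

theorem ext_eq {B : Finset Pt} {τ t : Sp} (ht : t ∈ TT B (Bich Set.univ τ)) {x b : Pt} (hb : b ∈ B)
    (h : Bich Set.univ τ x b) : ext B τ t x = t b := by
  have h1 : ∃ b ∈ B, Bich Set.univ τ x b := ⟨b, hb, h⟩
  have h2 := h1.choose_spec
  rw [ext, dif_pos h1]
  exact ht.2 _ h2.1 _ hb (h2.2.symm.trans' h)

theorem ext_mem {D B : Finset Pt} {τ t : Sp} (hB : B ⊆ D) (hτ : τ ∈ Adm D)
    (ht : t ∈ TT B (Bich Set.univ τ)) : ext B τ t ∈ G D τ := by
  refine ⟨fun x hx => ?_, fun x y hxy h => ?_⟩
  · rw [ext, dif_neg]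
    rintro ⟨b, hb, h⟩
    have := bich_off hτ hx h
    exact hx (this ▸ hB hb)
  · by_cases h1 : ∃ b ∈ B, Bich Set.univ τ x b
    · obtain ⟨b, hb, h2⟩ := h1
      rw [ext_eq ht hb h2, ext_eq ht hb ((Bich.one hxy h).symm.trans' h2)]
    · have h3 : ¬ ∃ b ∈ B, Bich Set.univ τ y b := by
        rintro ⟨b, hb, h2⟩
        exact h1 ⟨b, hb, (Bich.one hxy h).trans' h2⟩
      rw [ext, dif_neg h1, ext, dif_neg h3]

theorem s_coin : S_coin := by
  classical
  intro D B F τ hB hF hτ
  have : Finite (G D τ) := (finite_G D τ).to_subtype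
  have : Finite (TT B (Bich Set.univ τ)) := (finite_TT B _).to_subtype
  let _ := Fintype.ofFinite (G D τ)
  let _ := Fintype.ofFinite (TT B (Bich Set.univ τ))
  let f : G D τ →+ TT B (Bich Set.univ τ) :=
    { toFun := fun s => ⟨res B s.1, fun x hx => by simp [res, hx], fun x hx y hy h => by
        simp only [res, hx, hy, if_true]
        exact G_bich s.2 h⟩
      map_zero' := by
        apply Subtype.ext
        funext x
        show (if x ∈ B then false else false) = false
        split_ifs <;> rfl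
      map_add' := fun a b => by
        apply Subtype.ext
        funext x
        show (if x ∈ B then xor (a.1 x) (b.1 x) else false) =
          xor (if x ∈ B then a.1 x else false) (if x ∈ B then b.1 x else false)
        split_ifs <;> simp }
  have hf : Function.Surjective f := by
    rintro ⟨t, ht⟩
    refine ⟨⟨ext B τ t, ext_mem hB hτ ht⟩, ?_⟩
    apply Subtype.ext
    funext x
    show (if x ∈ B then ext B τ t x else false) = t x
    split_ifs with hx
    · exact ext_eq ht hx ReflTransGen.refl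
    · exact (ht.1 x hx).symm
  have key := avg_hom f hf fun t => F (pr τ t.1)
  have e1 : ∀ s : G D τ, F (pr τ (f s).1) = F (pr τ s.1) := by
    intro s
    refine hF _ _ fun x hx => ?_
    show (τ x, if x ∈ B then s.1 x else false) = (τ x, s.1 x)
    rw [if_pos hx]
  simp only [e1] at key
  unfold coin w
  rw [← finsum_set_coe_eq_finsum_mem (G D τ : Set Sp),
    ← finsum_set_coe_eq_finsum_mem {t : Sp | (∀ x, x ∉ B → t x = false) ∧
      ∀ x ∈ B, ∀ y ∈ B, Bich Set.univ τ x y → t x = t y}]
  have e2 : (∑ᶠ s : (G D τ : Set Sp), F (pr τ s.1)) = ∑ s : G D τ, F (pr τ s.1) :=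
    finsum_eq_sum_of_fintype (fun s : G D τ => F (pr τ s.1))
  have e3 : (∑ᶠ s : {t : Sp | (∀ x, x ∉ B → t x = false) ∧
      ∀ x ∈ B, ∀ y ∈ B, Bich Set.univ τ x y → t x = t y}, F (pr τ s.1)) =
      ∑ s : TT B (Bich Set.univ τ), F (pr τ s.1) :=
    finsum_eq_sum_of_fintype (fun s : TT B (Bich Set.univ τ) => F (pr τ s.1))
  rw [e2, e3, Nat.card_eq_fintype_card, key]
  congr 1
  rw [← Nat.card_coe_set_eq, ← Nat.card_eq_fintype_card]
  rfl

end Vale.Agent.P153.A
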