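import Vale.Agent.P153.A.Bk

/-!
Step (14): localisation of the coin average.
-/

namespace Vale.Agent.P153.A

open MeasureTheory Filter Topology Relation

theorem coin_congr {B : Finset Pt} {r r' : Pt → Pt → Prop} {F : Om → ℝ} {τ τ' : Sp}
    (h : ∀ x ∈ B, ∀ y ∈ B, (r x y ↔ r' x y)) (hF : ∀ t : Sp, F (pr τ t) = F (pr τ' t)) :
    coin B r F τ = coin B r' F τ' := by
  have hs : {t : Sp | (∀ x, x ∉ B → t x = false) ∧ ∀ x ∈ B, ∀ y ∈ B, r x y → t x = t y} =
      {t : Sp | (∀ x, x ∉ B → t x = false) ∧ ∀ x ∈ B, ∀ y ∈ B, r' x y → t x = t y} := by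
    ext t
    constructor
    · rintro ⟨h1, h2⟩
      exact ⟨h1, fun x hx y hy hr => h2 x hx y hy ((h x hx y hy).2 hr)⟩
    · rintro ⟨h1, h2⟩
      exact ⟨h1, fun x hx y hy hr => h2 x hx y hy ((h x hx y hy).1 hr)⟩
  unfold coin
  rw [hs]
  simp only [hF]

theorem bx_mono {R : ℕ} : (bx R : Set Pt) ⊆ (bx (R + 1) : Set Pt) := by
  intro x hx
  simp only [bx, Finset.coe_product, Finset.coe_Icc, Set.mem_prod, Set.mem_Icc] at hx ⊢
  push_cast; omega

theorem bx_step {R : ℕ} {x y : Pt} (hx : x ∈ (bx R : Set Pt)) (h : Step x y) :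
    y ∈ (bx (R + 1) : Set Pt) := by
  simp only [bx, Finset.coe_product, Finset.coe_Icc, Set.mem_prod, Set.mem_Icc] at hx ⊢
  unfold Step at h
  push_cast; omega

theorem bich_out {R : ℕ} {τ : Sp} {x y : Pt} (hx : x ∈ bx R) (h : Bich Set.univ τ x y)
    (hn : ¬ Bich (bx (R + 1)) τ x y) : ∃ u, u ∉ bx R ∧ Bich (bx (R + 1)) τ x u := by
  rw [bich_iff_con] at h hn
  have hx' : x ∈ (bx R : Set Pt) := hx
  rcases h.exit (B := (bx R : Set Pt)) hx' with h1 | ⟨u, v, h1, h2, h3, h4, -, -⟩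
  · exact absurd (h1.mono (fun z hz => bx_mono hz.2)) hn
  · refine ⟨v, fun hv => h4 hv, ?_⟩
    rw [bich_iff_con]
    exact (h1.mono (fun z hz => bx_mono hz.2)).trans
      (BK.Con.single h3 (bx_mono h2) (bx_step h2 h3.1))

/-- (14) -/
theorem s_coin2 : S_coin2 := by
  intro R B F hB hF
  refine ⟨fun τ τ' h => ?_, fun τ hfar => ?_⟩
  · refine coin_congr (fun x _ y _ => ?_) (fun t => hF _ _ (fun x hx => ?_))
    · rw [bich_iff_con, bich_iff_con]
      exact BK.con_congr (fun z hz => h z hz) x y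
    · have : τ x = τ' x := h x (Finset.mem_coe.1 (bx_mono (Finset.mem_coe.2 (hB hx))))
      simp only [pr, this]
  · refine coin_congr (fun x hx y hy => ⟨fun hc => ?_, fun hc => ?_⟩) (fun t => rfl)
    · by_contra hn
      refine hfar x hx y hy ⟨hn, bich_out (hB hx) hc hn, bich_out (y := x) (hB hy) ?_ ?_⟩
      · rw [bich_iff_con] at hc ⊢; exact hc.symm
      · rw [bich_iff_con] at hn ⊢; exact fun h => hn h.symm
    · rw [bich_iff_con] at hc ⊢
      exact hc.mono (Set.subset_univ _)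

end Vale.Agent.P153.A
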