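import Vale.Agent.P153.A.Coin
import Vale.Agent.P153.A.Coin2

/-!
P153, block A3 (16): the coin average of a product of two distant even functions factorises.
-/

namespace Vale.Agent.P153.A

open MeasureTheory Filter Topology Relation Finset
open Vale.Agent.P153.GFF (Adj)

/-- the coin average is a finite average -/
theorem coin_eq_avg (B : Finset Pt) (r : Pt → Pt → Prop) (F : Om → ℝ) (τ : Sp)
    [Fintype (TT B r)] :
    coin B r F τ = (∑ t : TT B r, F (pr τ t.1)) / Fintype.card (TT B r) := by
  unfold coin
  rw [← finsum_set_coe_eq_finsum_mem {t : Sp | (∀ x, x ∉ B → t x = false) ∧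
      ∀ x ∈ B, ∀ y ∈ B, r x y → t x = t y}]
  have e3 : (∑ᶠ s : {t : Sp | (∀ x, x ∉ B → t x = false) ∧
      ∀ x ∈ B, ∀ y ∈ B, r x y → t x = t y}, F (pr τ s.1)) =
      ∑ s : TT B r, F (pr τ s.1) :=
    finsum_eq_sum_of_fintype (fun s : TT B r => F (pr τ s.1))
  rw [e3]
  congr 1
  rw [← Nat.card_coe_set_eq, ← Nat.card_eq_fintype_card]
  rfl

theorem adj_add {x y : Pt} (z : Pt) : Adj (x + z) (y + z) ↔ Adj x y := by
  simp only [adj_iff_st, Step, Prod.fst_add, Prod.snd_add]
  constructor <;> intro h <;> omega

theorem bich_tr {τ : Sp} (z : Pt) {x y : Pt} (h : Bich Set.univ (tr z τ) x y) :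
    Bich Set.univ τ (x + z) (y + z) := by
  unfold Bich at *
  refine ReflTransGen.lift (fun u => u + z) ?_ _ _ h
  rintro u v ⟨h1, h2, -, -⟩
  exact ⟨(adj_add z).2 h1, h2, trivial, trivial⟩

theorem bich_tr' {τ : Sp} (z : Pt) {x y : Pt} (h : Bich Set.univ τ (x + z) (y + z)) :
    Bich Set.univ (tr z τ) x y := by
  have h1 : Bich Set.univ (tr (-z) (tr z τ)) (x + z) (y + z) := by
    have : tr (-z) (tr z τ) = τ := by
      funext u
      simp [tr]
    rw [this]; exact h
  have h2 := bich_tr (-z) h1
  simpa using h2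

theorem mem_bx {R : ℕ} {x : Pt} (h : x ∈ bx R) : |x.1| ≤ R ∧ |x.2| ≤ R := by
  unfold bx at h
  rw [Finset.mem_product, Finset.mem_Icc, Finset.mem_Icc] at h
  rw [abs_le, abs_le]
  exact h

theorem far_sep {R : ℕ} {z : Pt} (hz : 2 * (R : ℤ) + 4 < |z.1| ∨ 2 * (R : ℤ) + 4 < |z.2|)
    {x y : Pt} (hx : x ∈ bx R) (hy : y ∈ bx R) : x ≠ y + z := by
  rintro rfl
  obtain ⟨h1, h2⟩ := mem_bx hx
  obtain ⟨h3, h4⟩ := mem_bx hy
  simp only [Prod.fst_add, Prod.snd_add] at h1 h2
  rw [abs_le] at h1 h2 h3 h4
  rcases hz with hz | hz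
  · rcases lt_abs.1 hz with h | h <;> omega
  · rcases lt_abs.1 hz with h | h <;> omega

/-- a vertex of `B` which is joined to a vertex off `bx R` reaches the outside inside
`bx (R + 1)`. -/
theorem reach_out {R : ℕ} {τ : Sp} {x y : Pt} (hx : x ∈ bx R) (hy : y ∉ bx R)
    (h : Bich Set.univ τ x y) : ∃ u, u ∉ bx R ∧ Bich (bx (R + 1)) τ x u := by
  by_cases h1 : Bich (bx (R + 1)) τ x y
  · exact ⟨y, hy, h1⟩
  · exact bich_out hx h h1

theorem bich_univ {S : Set Pt} {τ : Sp} {x y : Pt} (h : Bich S τ x y) : Bich Set.univ τ x y := by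
  unfold Bich at *
  exact ReflTransGen.mono (fun u v h => ⟨h.1, h.2.1, trivial, trivial⟩) _ _ h

theorem coin_far {R : ℕ} {B : Finset Pt} {F F' : Om → ℝ} (hB : B ⊆ bx R) (hF : Loc B F)
    (hF' : Loc B F') (hFn : ∀ ω, F (neg ω) = F ω) {z : Pt}
    (hz : 2 * (R : ℤ) + 4 < |z.1| ∨ 2 * (R : ℤ) + 4 < |z.2|) (τ : Sp)
    (hfar : ∀ x ∈ B, ∀ y ∈ B, τ ∉ Far R x y) :
    coin (B ∪ B.image (· + z)) (Bich Set.univ τ) (fun ω => F ω * F' (tr z ω)) τ =
      coin B (Bich Set.univ τ) F τ * coin B (Bich Set.univ (tr z τ)) F' (tr z τ) := by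
  classical
  set C := B ∪ B.image (· + z) with hC
  set r := Bich Set.univ τ with hr
  set r' := Bich Set.univ (tr z τ) with hr'
  have : Finite (TT C r) := (finite_TT C r).to_subtype
  have : Finite (TT B r) := (finite_TT B r).to_subtype
  have : Finite (TT B r') := (finite_TT B r').to_subtype
  let _ := Fintype.ofFinite (TT C r)
  let _ := Fintype.ofFinite (TT B r)
  let _ := Fintype.ofFinite (TT B r')
  have hBC : ∀ x ∈ B, x ∈ C := fun x hx => Finset.mem_union_left _ hx
  have hBC' : ∀ x ∈ B, x + z ∈ C := fun x hx =>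
    Finset.mem_union_right _ (Finset.mem_image_of_mem _ hx)
  have hout : ∀ y ∈ B, y + z ∉ bx R := fun y hy h => far_sep hz h (hB hy) rfl
  -- all points of `B` joined to the other box are joined
  have hcross : ∀ x ∈ B, ∀ y ∈ B, ∀ x' ∈ B, ∀ y' ∈ B, r x (y + z) → r x' (y' + z) → r x x' := by
    intro x hx y hy x' hx' y' hy' h h'
    by_contra hn
    exact hfar x hx x' hx' ⟨fun h1 => hn (bich_univ h1), reach_out (hB hx) (hout y hy) h,
      reach_out (hB hx') (hout y' hy') h'⟩
  let f : TT C r × Bool →+ TT B r × TT B r' :=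
    { toFun := fun p =>
        (⟨fun x => if x ∈ B then xor (p.1.1 x) p.2 else false, fun x hx => by simp [hx],
          fun x hx y hy h => by
            simp only [hx, hy, if_true]
            rw [p.1.2.2 x (hBC x hx) y (hBC y hy) h]⟩,
         ⟨fun x => if x ∈ B then p.1.1 (x + z) else false, fun x hx => by simp [hx],
          fun x hx y hy h => by
            simp only [hx, hy, if_true]
            exact p.1.2.2 _ (hBC' x hx) _ (hBC' y hy) (bich_tr z h)⟩)
      map_zero' := by
        apply Prod.ext
        · apply Subtype.ext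
          funext x
          show (if x ∈ B then xor false false else false) = false
          split_ifs <;> rfl
        · apply Subtype.ext
          funext x
          show (if x ∈ B then false else false) = false
          split_ifs <;> rfl
      map_add' := fun a b => by
        apply Prod.ext
        · apply Subtype.ext
          funext x
          show (if x ∈ B then xor (xor (a.1.1 x) (b.1.1 x)) (xor a.2 b.2) else false) =
            xor (if x ∈ B then xor (a.1.1 x) a.2 else false)
              (if x ∈ B then xor (b.1.1 x) b.2 else false)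
          split_ifs
          · cases a.1.1 x <;> cases b.1.1 x <;> cases a.2 <;> cases b.2 <;> rfl
          · rfl
        · apply Subtype.ext
          funext x
          show (if x ∈ B then xor (a.1.1 (x + z)) (b.1.1 (x + z)) else false) =
            xor (if x ∈ B then a.1.1 (x + z) else false) (if x ∈ B then b.1.1 (x + z) else false)
          split_ifs <;> simp }
  -- gluing
  have glue : ∀ a ∈ TT B r, ∀ b ∈ TT B r', (∀ x ∈ B, ∀ y ∈ B, r x (y + z) → a x = b y) →
      ∃ t : TT C r, (∀ x ∈ B, t.1 x = a x) ∧ ∀ x ∈ B, t.1 (x + z) = b x := by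
    intro a ha b hb hab
    let t : Sp := fun x => if x ∈ B then a x else if x - z ∈ B then b (x - z) else false
    have t1 : ∀ x ∈ B, t x = a x := fun x hx => by simp only [t, hx, if_true]
    have t2 : ∀ x ∈ B, t (x + z) = b x := fun x hx => by
      have hn : x + z ∉ B := fun h => hout x hx (hB h)
      have hz' : x + z - z = x := by abel
      simp only [t, hn, if_false, hz', hx, if_true]
    refine ⟨⟨t, fun x hx => ?_, fun x hx y hy h => ?_⟩, t1, t2⟩
    · have h1 : x ∉ B := fun h => hx (hBC x h)
      have h2 : x - z ∉ B := fun h => hx (by simpa using hBC' _ h)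
      simp only [t, h1, h2, if_false]
    · rw [hC, Finset.mem_union, Finset.mem_image] at hx hy
      rcases hx with hx | ⟨x', hx', rfl⟩ <;> rcases hy with hy | ⟨y', hy', rfl⟩
      · rw [t1 x hx, t1 y hy]; exact ha.2 x hx y hy h
      · rw [t1 x hx]
        show a x = t (y' + z)
        rw [t2 y' hy']; exact hab x hx y' hy' h
      · rw [t1 y hy]
        show t (x' + z) = a y
        rw [t2 x' hx']; exact (hab y hy x' hx' h.symm).symm
      · show t (x' + z) = t (y' + z)
        rw [t2 x' hx', t2 y' hy']
        exact hb.2 x' hx' y' hy' (bich_tr' z h)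
  have hf : Function.Surjective f := by
    rintro ⟨⟨a, ha⟩, ⟨b, hb⟩⟩
    by_cases hab : ∀ x ∈ B, ∀ y ∈ B, r x (y + z) → a x = b y
    · obtain ⟨t, h1, h2⟩ := glue a ha b hb hab
      refine ⟨(t, false), ?_⟩
      apply Prod.ext
      · apply Subtype.ext
        funext x
        show (if x ∈ B then xor (t.1 x) false else false) = a x
        split_ifs with hx
        · rw [h1 x hx, Bool.xor_false]
        · exact (ha.1 x hx).symm
      · apply Subtype.ext
        funext x
        show (if x ∈ B then t.1 (x + z) else false) = b x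
        split_ifs with hx
        · exact h2 x hx
        · exact (hb.1 x hx).symm
    · push Not at hab
      obtain ⟨x0, hx0, y0, hy0, h0, hne⟩ := hab
      let a' : Sp := fun x => if x ∈ B then !(a x) else false
      have ha' : a' ∈ TT B r := ⟨fun x hx => by simp [a', hx], fun x hx y hy h => by
        simp only [a', hx, hy, if_true]
        rw [ha.2 x hx y hy h]⟩
      have hab' : ∀ x ∈ B, ∀ y ∈ B, r x (y + z) → a' x = b y := by
        intro x hx y hy h
        have e1 : a x = a x0 := ha.2 x hx x0 hx0 (hcross x hx y hy x0 hx0 y0 hy0 h h0)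
        have e2 : b y = b y0 := by
          refine hb.2 y hy y0 hy0 (bich_tr' z ?_)
          exact (h.symm.trans' (hcross x hx y hy x0 hx0 y0 hy0 h h0)).trans' h0
        simp only [a', hx, if_true]
        rw [e1, e2]
        revert hne
        cases a x0 <;> cases b y0 <;> simp
      obtain ⟨t, h1, h2⟩ := glue a' ha' b hb hab'
      refine ⟨(t, true), ?_⟩
      apply Prod.ext
      · apply Subtype.ext
        funext x
        show (if x ∈ B then xor (t.1 x) true else false) = a x
        split_ifs with hx
        · rw [h1 x hx]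
          simp only [a', hx, if_true]
          cases a x <;> rfl
        · exact (ha.1 x hx).symm
      · apply Subtype.ext
        funext x
        show (if x ∈ B then t.1 (x + z) else false) = b x
        split_ifs with hx
        · exact h2 x hx
        · exact (hb.1 x hx).symm
  have key := avg_hom f hf fun p => F (pr τ p.1.1) * F' (pr (tr z τ) p.2.1)
  have e1 : ∀ p : TT C r × Bool, F (pr τ (f p).1.1) * F' (pr (tr z τ) (f p).2.1) =
      F (pr τ p.1.1) * F' (tr z (pr τ p.1.1)) := by
    rintro ⟨t, ε⟩
    congr 1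
    · cases ε
      · refine hF _ _ fun x hx => ?_
        show (τ x, if x ∈ B then xor (t.1 x) false else false) = (τ x, t.1 x)
        rw [if_pos hx, Bool.xor_false]
      · rw [← hFn (pr τ t.1)]
        refine hF _ _ fun x hx => ?_
        show (τ x, if x ∈ B then xor (t.1 x) true else false) = (τ x, !(t.1 x))
        rw [if_pos hx, Bool.xor_true]
    · refine hF' _ _ fun x hx => ?_
      show (τ (x + z), if x ∈ B then t.1 (x + z) else false) = (τ (x + z), t.1 (x + z))
      rw [if_pos hx]
  simp only [e1] at key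
  rw [Fintype.sum_prod_type, Fintype.sum_prod_type, Fintype.card_prod, Fintype.card_prod,
    Fintype.card_bool] at key
  simp only [Finset.sum_const, Finset.card_univ, Fintype.card_bool] at key
  rw [coin_eq_avg, coin_eq_avg, coin_eq_avg]
  have hc : (Fintype.card (TT C r) : ℝ) ≠ 0 := by
    exact_mod_cast (Fintype.card_pos (α := TT C r)).ne'
  calc (∑ t : TT C r, F (pr τ t.1) * F' (tr z (pr τ t.1))) / (Fintype.card (TT C r) : ℝ)
      = (∑ t : TT C r, 2 • (F (pr τ t.1) * F' (tr z (pr τ t.1)))) /
          ((Fintype.card (TT C r) * 2 : ℕ) : ℝ) := by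
        rw [← Finset.smul_sum, nsmul_eq_mul]
        push_cast
        field_simp
    _ = (∑ a : TT B r, ∑ b : TT B r', F (pr τ a.1) * F' (pr (tr z τ) b.1)) /
          ((Fintype.card (TT B r) * Fintype.card (TT B r') : ℕ) : ℝ) := key
    _ = _ := by
        rw [div_mul_div_comm, Finset.sum_mul_sum]
        push_cast
        rfl

/-- (16) two distant even functions: the coin average factorises. -/
theorem s_coin3 : S_coin3 := by
  intro R B F F' hB hF hF' hFn _ z hz τ h1 h2
  rw [coin_far hB hF hF' hFn hz τ h1, (s_coin2 R B F hB hF).2 τ h1,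
    (s_coin2 R B F' hB hF').2 (tr z τ) h2]

end Vale.Agent.P153.A
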