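import Vale.Agent.P153.A.QLim
import Mathlib.MeasureTheory.Measure.Prokhorov

/-!
P153, block A3 (6): local limits are measures (compactness of the space of probability measures).
-/

namespace Vale.Agent.P153.A

open MeasureTheory Filter Topology

theorem loc_cont {X : Type} [Finite X] [TopologicalSpace X] [DiscreteTopology X] {B : Finset Pt}
    {F : (Pt → X) → ℝ} (h : Loc B F) : Continuous F := by
  obtain ⟨g, rfl⟩ := QLim.loc_factor h
  exact (continuous_of_discreteTopology (f := g)).comp
    (continuous_pi fun b => continuous_apply b.1)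

/-- (6) -/
theorem s_comp : S_comp := by
  intro X _ _ _ _ _ ν hν hlim
  have : SecondCountableTopology X := inferInstance
  let P : Finset Pt → ProbabilityMeasure (Pt → X) := fun D => ⟨ν D, hν D⟩
  let U : Ultrafilter (Finset Pt) := Ultrafilter.of atTop
  have hU : (U : Filter (Finset Pt)) ≤ atTop := Ultrafilter.of_le atTop
  obtain ⟨μ, -, hμ⟩ := isCompact_univ.ultrafilter_le_nhds (U.map P) (by simp)
  have hμ' : Tendsto P U (𝓝 μ) := hμ
  refine ⟨μ, inferInstance, fun B F hF => ?_⟩
  obtain ⟨l, hl⟩ := hlim B F hF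
  have hc := loc_cont hF
  have t1 := ProbabilityMeasure.tendsto_iff_forall_integral_tendsto.1 hμ'
    (BoundedContinuousFunction.mkOfCompact ⟨F, hc⟩)
  have t2 : Tendsto (fun D => ∫ ω, F ω ∂(ν D)) U (𝓝 (∫ ω, F ω ∂(μ : Measure (Pt → X)))) := t1
  rwa [tendsto_nhds_unique (hl.mono_left hU) t2] at hl

end Vale.Agent.P153.A
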