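import Vale.Agent.P153.A.Fkg
import Vale.Agent.P153.Topo.Conn

/-!
P153, block A3, step (4): smaller domains have larger tau.
-/

namespace Vale.Agent.P153.A

open Vale.Agent.P153.GFF (Adj)
open Vale.Agent.P153.Topo (adj_symm)

namespace Dm

/-- Both ends of a bichromatic edge are in the domain. -/
theorem both {D : Finset Pt} {τ : Sp} (hτ : τ ∈ Adm D) {x y : Pt} (hxy : Adj x y)
    (hne : τ x ≠ τ y) : x ∈ D ∧ y ∈ D := by
  by_cases hx : x ∈ inn D
  · exact ⟨hx.1, hx.2 y hxy⟩
  · by_cases hy : y ∈ inn D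
    · exact ⟨hy.2 x (adj_symm hxy), hy.1⟩
    · exact absurd ((hτ x hx).trans (hτ y hy).symm) hne

theorem inn_mono {D D' : Finset Pt} (h : D ⊆ D') : inn D ⊆ inn D' :=
  fun _ hx => ⟨h hx.1, fun w hw => h (hx.2 w hw)⟩

theorem adm_mono {D D' : Finset Pt} (h : D ⊆ D') : Adm D ⊆ Adm D' :=
  fun _ hτ x hx => hτ x fun hx' => hx (inn_mono h hx')

/-- The spins on the difference of the domains are free. -/
noncomputable def eqv {D D' : Finset Pt} (h : D ⊆ D') {τ : Sp} (hτ : τ ∈ Adm D) :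
    G D' τ ≃ G D τ × ({x // x ∈ D' \ D} → Bool) where
  toFun s := (⟨fun x => if x ∈ D then s.1 x else false, fun x hx => if_neg hx,
    fun x y hxy hne => by
      obtain ⟨h1, h2⟩ := both hτ hxy hne
      simp only [if_pos h1, if_pos h2]
      exact s.2.2 x y hxy hne⟩, fun x => s.1 x)
  invFun p := ⟨fun x => if hx : x ∈ D' \ D then p.2 ⟨x, hx⟩ else p.1.1 x, fun x hx => by
      have h1 : x ∉ D' \ D := fun h' => hx (Finset.mem_sdiff.1 h').1
      have h2 : x ∉ D := fun h' => hx (h h')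
      simp only [dif_neg h1]
      exact p.1.2.1 x h2, fun x y hxy hne => by
      obtain ⟨h1, h2⟩ := both hτ hxy hne
      have h1' : x ∉ D' \ D := fun h' => (Finset.mem_sdiff.1 h').2 h1
      have h2' : y ∉ D' \ D := fun h' => (Finset.mem_sdiff.1 h').2 h2
      simp only [dif_neg h1', dif_neg h2']
      exact p.1.2.2 x y hxy hne⟩
  left_inv s := by
    apply Subtype.ext
    funext x
    by_cases hx : x ∈ D' \ D
    · simp only [dif_pos hx]
    · simp only [dif_neg hx]
      by_cases hD : x ∈ D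
      · simp only [if_pos hD]
      · simp only [if_neg hD]
        have h1 : x ∉ D' := fun h' => hx (Finset.mem_sdiff.2 ⟨h', hD⟩)
        exact (s.2.1 x h1).symm
  right_inv p := by
    apply Prod.ext
    · apply Subtype.ext
      funext x
      by_cases hD : x ∈ D
      · have h1 : x ∉ D' \ D := fun h' => (Finset.mem_sdiff.1 h').2 hD
        simp only [if_pos hD, dif_neg h1]
      · simp only [if_neg hD]
        exact (p.1.2.1 x hD).symm
    · funext x
      simp only [dif_pos x.2]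

theorem w_eq {D D' : Finset Pt} (h : D ⊆ D') {τ : Sp} (hτ : τ ∈ Adm D) :
    w D' τ = 2 ^ (D' \ D).card * w D τ := by
  unfold w
  rw [Nat.card_congr (eqv h hτ), Nat.card_prod, mul_comm]
  congr 1
  rw [Nat.card_eq_fintype_card, Fintype.card_fun, Fintype.card_bool, Fintype.card_coe]

open Classical in
/-- The indicator of the admissible configurations. -/
noncomputable def ind (D : Finset Pt) (τ : Sp) : ℝ := if τ ∈ Adm D then 1 else 0

theorem ind_mono (D : Finset Pt) : Monotone (ind D) := by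
  intro a b hab
  unfold ind
  by_cases ha : a ∈ Adm D
  · have hb : b ∈ Adm D := by
      intro x hx
      have h1 := ha x hx
      have h2 := hab x
      rw [h1] at h2
      exact Bool.eq_true_of_true_le h2
    rw [if_pos ha, if_pos hb]
  · rw [if_neg ha]
    split_ifs
    · exact zero_le_one
    · exact le_rfl

theorem sum_eq (h2 : S_e1) {D D' : Finset Pt} (h : D ⊆ D') (u : Sp → ℝ) :
    (2 : ℝ) ^ (D' \ D).card * ∑ τ ∈ (h2 D).1.toFinset, (w D τ : ℝ) * u τ =
      ∑ τ ∈ (h2 D').1.toFinset, (w D' τ : ℝ) * (u τ * ind D τ) := by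
  have hsub : (h2 D).1.toFinset ⊆ (h2 D').1.toFinset := by
    intro τ hτ
    rw [Set.Finite.mem_toFinset] at hτ ⊢
    exact adm_mono h hτ
  rw [← Finset.sum_subset hsub, Finset.mul_sum]
  · refine Finset.sum_congr rfl fun τ hτ => ?_
    rw [Set.Finite.mem_toFinset] at hτ
    rw [w_eq h hτ, ind, if_pos hτ]
    push_cast
    ring
  · intro τ _ hτ
    rw [Set.Finite.mem_toFinset] at hτ
    rw [ind, if_neg hτ, mul_zero, mul_zero]

end Dm

/-- (4) smaller domains have larger tau. -/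
theorem s_dom (h2 : S_e1) (h3 : S_fkg) : S_dom := by
  intro D D' h f hf
  have hZ := fkg_Z_pos h2 D
  have hZ' := fkg_Z_pos h2 D'
  have key := h3 D' f (Dm.ind D) hf (Dm.ind_mono D)
  rw [fkg_E1_eq h2 D' f, fkg_E1_eq h2 D' (Dm.ind D), fkg_E1_eq h2 D'] at key
  rw [fkg_E1_eq h2 D' f, fkg_E1_eq h2 D f]
  have e1 := Dm.sum_eq h2 h f
  have e2 := Dm.sum_eq h2 h fun _ => 1
  simp only [mul_one, one_mul] at e2
  have hc : (0 : ℝ) < 2 ^ (D' \ D).card := by positivity
  rw [← e1, ← e2] at key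
  set c : ℝ := 2 ^ (D' \ D).card
  set Z := ∑ τ ∈ (h2 D).1.toFinset, (w D τ : ℝ)
  set Z' := ∑ τ ∈ (h2 D').1.toFinset, (w D' τ : ℝ)
  set S := ∑ τ ∈ (h2 D).1.toFinset, (w D τ : ℝ) * f τ
  set S' := ∑ τ ∈ (h2 D').1.toFinset, (w D' τ : ℝ) * f τ
  rw [div_mul_div_comm, div_le_div_iff₀ (by positivity) hZ'] at key
  rw [div_le_div_iff₀ hZ' hZ]
  have h5 : (c * Z') * (S' * Z) ≤ (c * Z') * (S * Z') := by linarith
  exact le_of_mul_le_mul_left h5 (by positivity)

end Vale.Agent.P153.A
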