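import Vale.Agent.P153.A.Stmt

/-!
P153, block A3, step (2): the law of tau.
-/

namespace Vale.Agent.P153.A

namespace E1f

theorem finite_const (D : Set Pt) (hD : D.Finite) (c : Bool) :
    {s : Sp | ∀ x, x ∉ D → s x = c}.Finite := by
  classical
  have := hD.to_subtype
  refine (Set.finite_range (fun (g : D → Bool) (x : Pt) =>
    if h : x ∈ D then g ⟨x, h⟩ else c)).subset ?_
  intro s hs
  refine ⟨fun x => s x, ?_⟩
  funext x
  by_cases h : x ∈ D
  · simp [h]
  · simp [h, hs x h]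

theorem inn_finite (D : Finset Pt) : (inn D).Finite :=
  D.finite_toSet.subset fun _ hx => hx.1

theorem adm_finite (D : Finset Pt) : (Adm D).Finite := finite_const (inn D) (inn_finite D) true

theorem g_finite (D : Finset Pt) (τ : Sp) : (G D τ : Set Sp).Finite := by
  refine (finite_const (D : Set Pt) D.finite_toSet false).subset ?_
  intro s hs x hx
  exact hs.1 x hx

theorem mem_cf {D : Finset Pt} {τ σ : Sp} : pr τ σ ∈ Cf D ↔ τ ∈ Adm D ∧ σ ∈ G D τ := by
  constructor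
  · rintro ⟨h1, h2, h3⟩
    refine ⟨h2, h3, fun x y hxy hne => ?_⟩
    rcases h1 x y hxy with h | h
    · exact absurd h hne
    · exact h
  · rintro ⟨h1, h2, h3⟩
    refine ⟨fun x y hxy => ?_, h1, h2⟩
    by_cases h : τ x = τ y
    · exact Or.inl h
    · exact Or.inr (h3 x y hxy h)

theorem pr_tau (ω : Om) : pr (tau ω) (fun x => (ω x).2) = ω := rfl

theorem cf_finite (D : Finset Pt) : (Cf D).Finite := by
  refine (Set.Finite.image2 pr (adm_finite D)
    (finite_const (D : Set Pt) D.finite_toSet false)).subset ?_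
  intro ω hω
  exact ⟨tau ω, hω.2.1, fun x => (ω x).2, fun x hx => hω.2.2 x hx, rfl⟩

theorem cf_nonempty (D : Finset Pt) : (Cf D).Nonempty :=
  ⟨pr (fun _ => true) (fun _ => false), fun _ _ _ => Or.inl rfl, fun _ _ => rfl, fun _ _ => rfl⟩

theorem sum_cf (D : Finset Pt) (F : Om → ℝ) :
    ∑ᶠ ω ∈ Cf D, F ω = ∑ᶠ τ ∈ Adm D, ∑ᶠ s ∈ (G D τ : Set Sp), F (pr τ s) := by
  classical
  rw [finsum_mem_eq_finite_toFinset_sum _ (cf_finite D),
    finsum_mem_eq_finite_toFinset_sum _ (adm_finite D)]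
  rw [← Finset.sum_fiberwise_of_maps_to (t := (adm_finite D).toFinset) (g := tau)
    (fun ω hω => by
      rw [Set.Finite.mem_toFinset] at hω ⊢
      exact hω.2.1)]
  refine Finset.sum_congr rfl fun τ hτ => ?_
  rw [Set.Finite.mem_toFinset] at hτ
  rw [finsum_mem_eq_finite_toFinset_sum _ (g_finite D τ)]
  symm
  refine Finset.sum_bij (fun s _ => pr τ s) ?_ ?_ ?_ ?_
  · intro s hs
    rw [Set.Finite.mem_toFinset] at hs
    rw [Finset.mem_filter, Set.Finite.mem_toFinset]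
    exact ⟨mem_cf.2 ⟨hτ, hs⟩, rfl⟩
  · intro s _ s' _ h
    funext x
    exact congrArg Prod.snd (congrFun h x)
  · intro ω hω
    rw [Finset.mem_filter, Set.Finite.mem_toFinset] at hω
    obtain ⟨h1, h2⟩ := hω
    subst h2
    refine ⟨fun x => (ω x).2, ?_, rfl⟩
    rw [Set.Finite.mem_toFinset]
    exact (mem_cf.1 (show pr (tau ω) (fun x => (ω x).2) ∈ Cf D from h1)).2
  · intro s _
    rfl

theorem ncard_cf (D : Finset Pt) : ((Cf D).ncard : ℝ) = ∑ᶠ τ ∈ Adm D, (w D τ : ℝ) := by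
  have h1 := sum_cf D (fun _ => 1)
  have h2 : ∑ᶠ ω ∈ Cf D, (1 : ℝ) = ((Cf D).ncard : ℝ) := by
    rw [finsum_mem_eq_finite_toFinset_sum _ (cf_finite D), Finset.sum_const, nsmul_eq_mul, mul_one,
      ← Set.ncard_eq_toFinset_card _ (cf_finite D)]
  rw [h2] at h1
  rw [h1]
  refine finsum_mem_congr rfl fun τ _ => ?_
  rw [finsum_mem_eq_finite_toFinset_sum _ (g_finite D τ), Finset.sum_const, nsmul_eq_mul, mul_one,
    ← Set.ncard_eq_toFinset_card _ (g_finite D τ)]
  unfold w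
  rw [← Nat.card_coe_set_eq]
  rfl

end E1f

theorem s_e1 : S_e1 := by
  intro D
  refine ⟨E1f.adm_finite D, E1f.cf_finite D, E1f.cf_nonempty D, fun F => ?_⟩
  unfold E2
  rw [E1f.sum_cf, E1f.ncard_cf]

end Vale.Agent.P153.A
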