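import Vale.Agent.P153.A.Stmt

/-!
P153, block A3, leaf (12): local form of the absence of two infinite bichromatic clusters.
-/

namespace Vale.Agent.P153.A

open MeasureTheory Filter Topology Relation
open Vale.Agent.P153.GFF (Adj)

private theorem mem_bx_far {R : ℕ} {x : Pt} :
    x ∈ bx R ↔ (-(R : ℤ) ≤ x.1 ∧ x.1 ≤ R) ∧ (-(R : ℤ) ≤ x.2 ∧ x.2 ≤ R) := by
  simp [bx, Finset.mem_product, Finset.mem_Icc]

private theorem bx_mono_far {R R' : ℕ} (h : R ≤ R') : bx R ⊆ bx R' := by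
  intro x hx
  rw [mem_bx_far] at hx ⊢
  have : (R : ℤ) ≤ R' := by exact_mod_cast h
  omega

theorem adj_bound {x y : Pt} (h : Adj x y) : |y.1 - x.1| ≤ 1 ∧ |y.2 - x.2| ≤ 1 := by
  simp only [Adj, Set.mem_insert_iff, Set.mem_singleton_iff, Prod.mk.injEq] at h
  rcases h with h | h | h | h | h | h <;> (obtain ⟨h1, h2⟩ := h; rw [h1, h2]; simp)

theorem adj_bx {R : ℕ} {x y : Pt} (h : Adj x y) (hx : x ∈ bx R) : y ∈ bx (R + 1) := by
  obtain ⟨h1, h2⟩ := adj_bound h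
  rw [mem_bx_far] at hx ⊢
  rw [abs_le] at h1 h2
  push_cast
  omega

theorem exists_bx (x : Pt) : ∃ R : ℕ, x ∈ bx R := by
  refine ⟨(x.1).natAbs + (x.2).natAbs, ?_⟩
  rw [mem_bx_far]
  omega

theorem bich_mono {S S' : Set Pt} (h : S ⊆ S') {τ : Sp} {x y : Pt} (hb : Bich S τ x y) :
    Bich S' τ x y :=
  ReflTransGen.mono (r := fun u v => Adj u v ∧ τ u ≠ τ v ∧ u ∈ S ∧ v ∈ S)
    (fun _ _ hab => ⟨hab.1, hab.2.1, h hab.2.2.1, h hab.2.2.2⟩) _ _ hb

theorem bx_subset {R R' : ℕ} (h : R ≤ R') : (bx R : Set Pt) ⊆ bx R' :=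
  fun _ hx => bx_mono_far h hx

/-- a path leaving `bx R` has an initial piece inside `bx (R + 1)` which leaves `bx R` -/
theorem exit_bx {S : Set Pt} {τ : Sp} {R : ℕ} {x u : Pt} (hb : Bich S τ x u) (hu : u ∉ bx R) :
    ∃ u', u' ∉ bx R ∧ Bich (bx (R + 1)) τ x u' := by
  induction hb using ReflTransGen.head_induction_on with
  | refl => exact ⟨u, hu, ReflTransGen.refl⟩
  | @head a c hab _ ih =>
    by_cases ha : a ∈ bx R
    · obtain ⟨u', hu', hb'⟩ := ih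
      refine ⟨u', hu', ReflTransGen.head ⟨hab.1, hab.2.1, ?_, ?_⟩ hb'⟩
      · exact bx_mono_far (Nat.le_succ R) ha
      · exact adj_bx hab.1 ha
    · exact ⟨a, ha, ReflTransGen.refl⟩

/-- a path is contained in a box -/
theorem bich_bx {τ : Sp} {x y : Pt} (hb : Bich Set.univ τ x y) :
    ∃ R : ℕ, Bich (bx (R + 1)) τ x y := by
  induction hb with
  | refl => exact ⟨0, ReflTransGen.refl⟩
  | @tail b c _ hbc ih =>
    obtain ⟨R, hR⟩ := ih
    obtain ⟨R1, h1⟩ := exists_bx b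
    obtain ⟨R2, h2⟩ := exists_bx c
    refine ⟨R + R1 + R2, ?_⟩
    refine ReflTransGen.tail (bich_mono (bx_subset (by omega)) hR) ⟨hbc.1, hbc.2.1, ?_, ?_⟩
    · exact bx_mono_far (R := R1) (R' := R + R1 + R2 + 1) (by omega) h1
    · exact bx_mono_far (R := R2) (R' := R + R1 + R2 + 1) (by omega) h2

theorem far_antitone (x y : Pt) : Antitone fun R => Far R x y := by
  refine antitone_nat_of_succ_le fun R => ?_
  rintro τ ⟨h1, ⟨u, hu, hxu⟩, ⟨v, hv, hyv⟩⟩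
  refine ⟨fun h => h1 (bich_mono (bx_subset (by omega)) h), ?_, ?_⟩
  · exact exit_bx hxu (fun h => hu (bx_mono_far (Nat.le_succ R) h))
  · exact exit_bx hyv (fun h => hv (bx_mono_far (Nat.le_succ R) h))

theorem infinite_of {τ : Sp} {x : Pt}
    (h : ∀ R : ℕ, ∃ u, u ∉ bx R ∧ Bich (bx (R + 1)) τ x u) :
    {u | Bich Set.univ τ x u}.Infinite := by
  intro hfin
  have h1 : ∃ R : ℕ, ∀ u, Bich Set.univ τ x u → u ∈ bx R := by
    choose r hr using exists_bx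
    refine ⟨hfin.toFinset.sup r, fun u hu => ?_⟩
    exact bx_mono_far (Finset.le_sup (f := r) ((Set.Finite.mem_toFinset hfin).2 hu)) (hr u)
  obtain ⟨R, hR⟩ := h1
  obtain ⟨u, hu, hxu⟩ := h R
  exact hu (hR u (bich_mono (Set.subset_univ _) hxu))

theorem iInter_far (x y : Pt) : ⋂ R, Far R x y ⊆ TwoInf := by
  intro τ hτ
  rw [Set.mem_iInter] at hτ
  refine ⟨x, y, infinite_of fun R => (hτ R).2.1, infinite_of fun R => (hτ R).2.2, fun h => ?_⟩
  obtain ⟨R, hR⟩ := bich_bx h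
  exact (hτ R).1 hR

theorem bich_congr {B : Finset Pt} {τ τ' : Sp} (h : ∀ z ∈ B, τ z = τ' z) (x y : Pt) :
    Bich B τ x y ↔ Bich B τ' x y := by
  have key : ∀ {τ τ' : Sp}, (∀ z ∈ B, τ z = τ' z) → Bich B τ x y → Bich B τ' x y := by
    intro τ τ' h hb
    refine ReflTransGen.mono (r := fun u v => Adj u v ∧ τ u ≠ τ v ∧ u ∈ (B : Set Pt) ∧
      v ∈ (B : Set Pt)) (fun a b hab => ⟨hab.1, ?_, hab.2.2.1, hab.2.2.2⟩) _ _ hb
    rw [← h a hab.2.2.1, ← h b hab.2.2.2]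
    exact hab.2.1
  exact ⟨key h, key fun z hz => (h z hz).symm⟩

theorem measurableSet_of_loc (B : Finset Pt) {A : Set Sp}
    (h : ∀ τ τ' : Sp, (∀ z ∈ B, τ z = τ' z) → τ ∈ A → τ' ∈ A) : MeasurableSet A := by
  have h1 : A = (fun (τ : Sp) (z : B) => τ z) ⁻¹' ((fun (τ : Sp) (z : B) => τ z) '' A) := by
    refine Set.Subset.antisymm (Set.subset_preimage_image _ _) ?_
    rintro τ ⟨τ', hτ', he⟩
    exact h τ' τ (fun z hz => congrFun he ⟨z, hz⟩) hτ'
  rw [h1]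
  refine MeasurableSet.preimage (Set.toFinite _).measurableSet ?_
  exact measurable_pi_lambda _ fun z => measurable_pi_apply _

theorem measurableSet_far (R : ℕ) (x y : Pt) : MeasurableSet (Far R x y) := by
  refine measurableSet_of_loc (bx (R + 1)) fun τ τ' h hτ => ?_
  obtain ⟨h1, ⟨u, hu, hxu⟩, ⟨v, hv, hyv⟩⟩ := hτ
  refine ⟨fun hb => h1 ((bich_congr h x y).2 hb), ⟨u, hu, (bich_congr h x u).1 hxu⟩,
    ⟨v, hv, (bich_congr h y v).1 hyv⟩⟩

/-- (12) local form. -/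
theorem s_far : S_far := by
  intro μ hμ h0 x y
  have h1 := tendsto_measure_iInter_atTop (μ := μ) (s := fun R => Far R x y)
    (fun R => (measurableSet_far R x y).nullMeasurableSet) (far_antitone x y)
    ⟨0, measure_ne_top μ _⟩
  have h2 : μ (⋂ R, Far R x y) = 0 := measure_mono_null (iInter_far x y) h0
  rw [h2] at h1
  have h3 := (ENNReal.tendsto_toReal ENNReal.zero_ne_top).comp h1
  exact h3

end Vale.Agent.P153.A
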