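import Vale.Agent.P153.A.Stmt
import Mathlib.Combinatorics.SetFamily.FourFunctions

/-!
P153, block A3, leaf (3): association of the law of tau.
-/

namespace Vale.Agent.P153.A

open MeasureTheory Filter Topology Relation

private theorem fkg_sumG (D : Finset Pt) (τ : Sp) (c : ℝ) :
    (∑ᶠ s ∈ (G D τ : Set Sp), c) = (w D τ : ℝ) * c := by
  by_cases hfin : (G D τ : Set Sp).Finite
  · rw [finsum_mem_eq_finite_toFinset_sum _ hfin, Finset.sum_const, nsmul_eq_mul, w,
      ← Set.ncard_eq_toFinset_card _ hfin]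
    rfl
  · by_cases hc : c = 0
    · subst hc
      simp
    · have h0 : w D τ = 0 := by
        unfold w
        rw [Nat.card_eq_zero]
        right
        exact Set.infinite_coe_iff.2 hfin
      rw [h0, Nat.cast_zero, zero_mul]
      apply finsum_mem_eq_zero_of_infinite
      convert (show (G D τ : Set Sp).Infinite from hfin) using 1
      ext x
      simp [hc]

/-- `E1` as a weighted average over the admissible tau. -/
theorem fkg_E1_eq (h2 : S_e1) (D : Finset Pt) (f : Sp → ℝ) :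
    E1 D f = (∑ τ ∈ (h2 D).1.toFinset, (w D τ : ℝ) * f τ) /
      ∑ τ ∈ (h2 D).1.toFinset, (w D τ : ℝ) := by
  have h1 := (h2 D).1
  have h := (h2 D).2.2.2 fun ω => f (tau ω)
  rw [E1, h]
  congr 1
  · rw [finsum_mem_eq_finite_toFinset_sum _ h1]
    apply Finset.sum_congr rfl
    intro τ _
    exact fkg_sumG D τ (f τ)
  · exact finsum_mem_eq_finite_toFinset_sum _ h1

/-- The partition function is positive. -/
theorem fkg_Z_pos (h2 : S_e1) (D : Finset Pt) : 0 < ∑ τ ∈ (h2 D).1.toFinset, (w D τ : ℝ) := by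
  have h0 : 0 ≤ ∑ τ ∈ (h2 D).1.toFinset, (w D τ : ℝ) := Finset.sum_nonneg fun _ _ => Nat.cast_nonneg _
  refine lt_of_le_of_ne h0 fun h => ?_
  have h3 := fkg_E1_eq h2 D fun _ => 1
  rw [← h, div_zero] at h3
  obtain ⟨-, hf, hn, -⟩ := h2 D
  unfold E1 E2 at h3
  rw [finsum_mem_eq_finite_toFinset_sum _ hf, Finset.sum_const, nsmul_eq_mul, mul_one,
    ← Set.ncard_eq_toFinset_card _ hf, div_self] at h3
  · exact one_ne_zero h3
  · have := (Set.ncard_pos hf).2 hn
    exact_mod_cast this.ne'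

private theorem fkg_adm_sup {D : Finset Pt} {a b : Sp} (ha : a ∈ Adm D) : a ⊔ b ∈ Adm D := by
  intro x hx
  rw [Pi.sup_apply, ha x hx]
  rfl

private theorem fkg_adm_inf {D : Finset Pt} {a b : Sp} (ha : a ∈ Adm D) (hb : b ∈ Adm D) :
    a ⊓ b ∈ Adm D := by
  intro x hx
  rw [Pi.inf_apply, ha x hx, hb x hx]
  rfl

open scoped FinsetFamily in
private theorem fkg_nonneg (h1 : S_super) (h2 : S_e1) (D : Finset Pt) (f g : Sp → ℝ)
    (hf : Monotone f) (hg : Monotone g) (hf0 : ∀ x, 0 ≤ f x) (hg0 : ∀ x, 0 ≤ g x) :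
    (∑ τ ∈ (h2 D).1.toFinset, (w D τ : ℝ) * f τ) * (∑ τ ∈ (h2 D).1.toFinset, (w D τ : ℝ) * g τ) ≤
      (∑ τ ∈ (h2 D).1.toFinset, (w D τ : ℝ)) *
        ∑ τ ∈ (h2 D).1.toFinset, (w D τ : ℝ) * (f τ * g τ) := by
  classical
  set A := (h2 D).1.toFinset with hA
  have hmem : ∀ {a}, a ∈ A ↔ a ∈ Adm D := by
    intro a
    rw [hA, Set.Finite.mem_toFinset]
  have hinf : A ⊼ A = A := by
    apply Finset.Subset.antisymm
    · intro x hx
      obtain ⟨a, ha, b, hb, rfl⟩ := Finset.mem_infs.1 hx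
      exact hmem.2 (fkg_adm_inf (hmem.1 ha) (hmem.1 hb))
    · exact Finset.subset_infs_self
  have hsup : A ⊻ A = A := by
    apply Finset.Subset.antisymm
    · intro x hx
      obtain ⟨a, ha, b, hb, rfl⟩ := Finset.mem_sups.1 hx
      exact hmem.2 (fkg_adm_sup (hmem.1 ha))
    · exact Finset.subset_sups_self
  have key := four_functions_theorem (α := Sp) (β := ℝ)
    (f₁ := fun τ => if τ ∈ A then (w D τ : ℝ) * f τ else 0)
    (f₂ := fun τ => if τ ∈ A then (w D τ : ℝ) * g τ else 0)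
    (f₃ := fun τ => if τ ∈ A then (w D τ : ℝ) else 0)
    (f₄ := fun τ => if τ ∈ A then (w D τ : ℝ) * (f τ * g τ) else 0)
    (fun τ => by
      simp only [Pi.zero_apply]
      split_ifs
      · exact mul_nonneg (Nat.cast_nonneg _) (hf0 _)
      · exact le_rfl)
    (fun τ => by
      simp only [Pi.zero_apply]
      split_ifs
      · exact mul_nonneg (Nat.cast_nonneg _) (hg0 _)
      · exact le_rfl)
    (fun τ => by
      simp only [Pi.zero_apply]
      split_ifs
      · exact Nat.cast_nonneg _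
      · exact le_rfl)
    (fun τ => by
      simp only [Pi.zero_apply]
      split_ifs
      · exact mul_nonneg (Nat.cast_nonneg _) (mul_nonneg (hf0 _) (hg0 _))
      · exact le_rfl)
    (fun a b => by
      by_cases ha : a ∈ A
      · by_cases hb : b ∈ A
        · have hs : a ⊔ b ∈ A := hmem.2 (fkg_adm_sup (hmem.1 ha))
          have hi : a ⊓ b ∈ A := hmem.2 (fkg_adm_inf (hmem.1 ha) (hmem.1 hb))
          simp only [if_pos ha, if_pos hb, if_pos hs, if_pos hi]
          have h3 : (w D a : ℝ) * w D b ≤ w D (a ⊔ b) * w D (a ⊓ b) := by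
            exact_mod_cast h1 D a b (hmem.1 ha) (hmem.1 hb)
          have h4 : f a * g b ≤ f (a ⊔ b) * g (a ⊔ b) :=
            mul_le_mul (hf le_sup_left) (hg le_sup_right) (hg0 _) (hf0 _)
          calc (w D a : ℝ) * f a * (w D b * g b) = (w D a * w D b) * (f a * g b) := by ring
            _ ≤ (w D (a ⊔ b) * w D (a ⊓ b)) * (f (a ⊔ b) * g (a ⊔ b)) :=
              mul_le_mul h3 h4 (mul_nonneg (hf0 _) (hg0 _)) (by positivity)
            _ = w D (a ⊓ b) * (w D (a ⊔ b) * (f (a ⊔ b) * g (a ⊔ b))) := by ring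
        · simp only [if_neg hb, mul_zero]
          apply mul_nonneg
          · split_ifs
            · exact Nat.cast_nonneg _
            · exact le_rfl
          · split_ifs
            · exact mul_nonneg (Nat.cast_nonneg _) (mul_nonneg (hf0 _) (hg0 _))
            · exact le_rfl
      · simp only [if_neg ha, zero_mul]
        apply mul_nonneg
        · split_ifs
          · exact Nat.cast_nonneg _
          · exact le_rfl
        · split_ifs
          · exact mul_nonneg (Nat.cast_nonneg _) (mul_nonneg (hf0 _) (hg0 _))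
          · exact le_rfl)
    A A
  rw [hinf, hsup] at key
  simpa only [Finset.sum_ite_mem, Finset.inter_self] using key

/-- (3) association. -/
theorem s_fkg (h1 : S_super) (h2 : S_e1) : S_fkg := by
  intro D f g hf hg
  rw [fkg_E1_eq h2, fkg_E1_eq h2, fkg_E1_eq h2]
  have hZ := fkg_Z_pos h2 D
  have key := fkg_nonneg h1 h2 D (fun τ => f τ - f ⊥) (fun τ => g τ - g ⊥)
    (fun a b h => sub_le_sub_right (hf h) _) (fun a b h => sub_le_sub_right (hg h) _)
    (fun x => sub_nonneg.2 (hf bot_le)) (fun x => sub_nonneg.2 (hg bot_le))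
  set A := (h2 D).1.toFinset
  set Z := ∑ τ ∈ A, (w D τ : ℝ) with hZdef
  have e1 : ∀ (u : Sp → ℝ) (c : ℝ), (∑ τ ∈ A, (w D τ : ℝ) * (u τ - c)) =
      (∑ τ ∈ A, (w D τ : ℝ) * u τ) - c * Z := by
    intro u c
    rw [hZdef, Finset.mul_sum, ← Finset.sum_sub_distrib]
    exact Finset.sum_congr rfl fun _ _ => by ring
  have e2 : (∑ τ ∈ A, (w D τ : ℝ) * ((f τ - f ⊥) * (g τ - g ⊥))) =
      (∑ τ ∈ A, (w D τ : ℝ) * (f τ * g τ)) - g ⊥ * (∑ τ ∈ A, (w D τ : ℝ) * f τ) -
        f ⊥ * (∑ τ ∈ A, (w D τ : ℝ) * g τ) + f ⊥ * g ⊥ * Z := by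
    rw [hZdef, Finset.mul_sum, Finset.mul_sum, Finset.mul_sum, ← Finset.sum_sub_distrib,
      ← Finset.sum_sub_distrib, ← Finset.sum_add_distrib]
    exact Finset.sum_congr rfl fun _ _ => by ring
  rw [e1, e1, e2] at key
  rw [div_mul_div_comm, div_le_div_iff₀ (by positivity) hZ]
  nlinarith [mul_le_mul_of_nonneg_left
    (show (∑ τ ∈ A, (w D τ : ℝ) * f τ) * (∑ τ ∈ A, (w D τ : ℝ) * g τ) ≤
      Z * ∑ τ ∈ A, (w D τ : ℝ) * (f τ * g τ) by nlinarith [key]) hZ.le]

end Vale.Agent.P153.A
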