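import Vale.Agent.P153.A.MuInv
import Vale.Agent.P153.A.E1
import Vale.Agent.P153.A.Dom
import Mathlib.MeasureTheory.Measure.SeparableMeasure

/-!
P153, block A3, step (10): finite energy of the limit law of tau.
-/

namespace Vale.Agent.P153.A

open MeasureTheory Filter Topology Relation
open Vale.Agent.P153.GFF (Adj)
open Vale.Agent.P153.Topo (adj_symm)
open scoped ENNReal

namespace Fl

theorem flip_same (x : Pt) (τ : Sp) : flipAt x τ x = !τ x := by simp [flipAt]

theorem flip_ne {x y : Pt} (h : y ≠ x) (τ : Sp) : flipAt x τ y = τ y := by simp [flipAt, h]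

theorem flip_flip (x : Pt) (τ : Sp) : flipAt x (flipAt x τ) = τ := by
  funext y
  by_cases h : y = x
  · subst h
    rw [flip_same, flip_same, Bool.not_not]
  · rw [flip_ne h, flip_ne h]

theorem meas_flip (x : Pt) : Measurable (flipAt x) := by
  refine measurable_pi_lambda _ fun y => ?_
  by_cases h : y = x
  · subst h
    simp only [flip_same]
    exact (measurable_of_finite (fun b : Bool => !b)).comp (measurable_pi_apply _)
  · simp only [flip_ne h]
    exact measurable_pi_apply _

/-- The neighbours. -/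
def nb (x : Pt) : Fin 6 → Pt :=
  ![(x.1 + 1, x.2), (x.1 - 1, x.2), (x.1, x.2 + 1), (x.1, x.2 - 1), (x.1 + 1, x.2 - 1),
    (x.1 - 1, x.2 + 1)]

theorem nb_all {x y : Pt} (h : Adj x y) : ∃ i, nb x i = y := by
  obtain ⟨x1, x2⟩ := x
  obtain ⟨y1, y2⟩ := y
  have h : (y1 - x1, y2 - x2) ∈
    ({(1, 0), (-1, 0), (0, 1), (0, -1), (1, -1), (-1, 1)} : Set (ℤ × ℤ)) := h
  simp only [Set.mem_insert_iff, Set.mem_singleton_iff, Prod.mk.injEq] at h
  rcases h with h | h | h | h | h | h
  · exact ⟨0, by simp only [nb, Matrix.cons_val, Prod.mk.injEq]; omega⟩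
  · exact ⟨1, by simp only [nb, Matrix.cons_val, Prod.mk.injEq]; omega⟩
  · exact ⟨2, by simp only [nb, Matrix.cons_val, Prod.mk.injEq]; omega⟩
  · exact ⟨3, by simp only [nb, Matrix.cons_val, Prod.mk.injEq]; omega⟩
  · exact ⟨4, by simp only [nb, Matrix.cons_val, Prod.mk.injEq]; omega⟩
  · exact ⟨5, by simp only [nb, Matrix.cons_val, Prod.mk.injEq]; omega⟩

/-- The pattern of the differences of `s` at `x`. -/
def pat (x : Pt) (s : Sp) : Fin 6 → Bool := fun i => xor (s x) (s (nb x i))

theorem mem_of_pat {D : Finset Pt} {x : Pt} {τ : Sp} {s s' : Sp} (hs : s ∈ G D (flipAt x τ))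
    (hs' : s' ∈ G D (flipAt x τ)) (h : pat x s = pat x s') : s + s' ∈ G D τ := by
  have h0 : s + s' ∈ G D (flipAt x τ) := (G D (flipAt x τ)).add_mem hs hs'
  have hx : ∀ y, Adj x y → (s + s') x = (s + s') y := by
    intro y hy
    obtain ⟨i, rfl⟩ := nb_all hy
    have h1 := congrFun h i
    unfold pat at h1
    show xor (s x) (s' x) = xor (s (nb x i)) (s' (nb x i))
    revert h1
    cases s x <;> cases s' x <;> cases s (nb x i) <;> cases s' (nb x i) <;> simp
  refine ⟨h0.1, fun u v huv hne => ?_⟩
  by_cases hu : u = x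
  · subst hu
    exact hx v huv
  · by_cases hv : v = x
    · subst hv
      exact (hx u (adj_symm huv)).symm
    · refine h0.2 u v huv ?_
      rw [flip_ne hu, flip_ne hv]
      exact hne

theorem w_flip_le (D : Finset Pt) (x : Pt) (τ : Sp) : w D (flipAt x τ) ≤ 64 * w D τ := by
  classical
  have hfin : Finite (G D τ) := (E1f.g_finite D τ).to_subtype
  let rep : (Fin 6 → Bool) → G D (flipAt x τ) := fun p =>
    if h : ∃ s : G D (flipAt x τ), pat x s.1 = p then h.choose else 0
  have hrep : ∀ s : G D (flipAt x τ), pat x (rep (pat x s.1)).1 = pat x s.1 := by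
    intro s
    have h : ∃ s' : G D (flipAt x τ), pat x s'.1 = pat x s.1 := ⟨s, rfl⟩
    simp only [rep, dif_pos h]
    exact h.choose_spec
  let f : G D (flipAt x τ) → G D τ × (Fin 6 → Bool) := fun s =>
    (⟨s.1 + (rep (pat x s.1)).1, mem_of_pat s.2 (rep (pat x s.1)).2 (hrep s).symm⟩, pat x s.1)
  have hf : Function.Injective f := by
    intro s s' h
    have h2 : pat x s.1 = pat x s'.1 := congrArg Prod.snd h
    have h1 : s.1 + (rep (pat x s.1)).1 = s'.1 + (rep (pat x s'.1)).1 :=
      congrArg (fun p : G D τ × (Fin 6 → Bool) => p.1.1) h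
    rw [h2] at h1
    exact Subtype.ext (add_right_cancel h1)
  have h1 := Nat.card_le_card_of_injective f hf
  rw [Nat.card_prod, Nat.card_eq_fintype_card (α := Fin 6 → Bool), Fintype.card_fun,
    Fintype.card_bool, Fintype.card_fin] at h1
  unfold w
  linarith

theorem adm_flip {D : Finset Pt} {x : Pt} (hx : x ∈ inn D) {τ : Sp} (h : τ ∈ Adm D) :
    flipAt x τ ∈ Adm D := by
  intro y hy
  have : y ≠ x := by
    rintro rfl
    exact hy hx
  rw [flip_ne this]
  exact h y hy

theorem E1_flip_le {D : Finset Pt} {x : Pt} (hx : x ∈ inn D) {f : Sp → ℝ} (hf : ∀ τ, 0 ≤ f τ) :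
    E1 D (fun τ => f (flipAt x τ)) ≤ 64 * E1 D f := by
  rw [fkg_E1_eq s_e1, fkg_E1_eq s_e1, ← mul_div_assoc]
  refine div_le_div_of_nonneg_right ?_ (fkg_Z_pos s_e1 D).le
  have h1 : ∑ τ ∈ (s_e1 D).1.toFinset, (w D τ : ℝ) * f (flipAt x τ) =
      ∑ τ ∈ (s_e1 D).1.toFinset, (w D (flipAt x τ) : ℝ) * f τ := by
    refine Finset.sum_nbij' (flipAt x) (flipAt x) ?_ ?_ ?_ ?_ ?_
    · intro τ hτ
      rw [Set.Finite.mem_toFinset] at hτ ⊢
      exact adm_flip hx hτ
    · intro τ hτ
      rw [Set.Finite.mem_toFinset] at hτ ⊢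
      exact adm_flip hx hτ
    · intro τ _
      exact flip_flip x τ
    · intro τ _
      exact flip_flip x τ
    · intro τ _
      rw [flip_flip]
  rw [h1, Finset.mul_sum]
  refine Finset.sum_le_sum fun τ _ => ?_
  rw [← mul_assoc]
  refine mul_le_mul_of_nonneg_right ?_ (hf τ)
  exact_mod_cast w_flip_le D x τ

/-- Comparison of two finite measures on cylinders. -/
theorem le_of_cyl {X : Type} [Fintype X] [MeasurableSpace X] [MeasurableSingletonClass X]
    {P Q : Measure (Pt → X)} [IsFiniteMeasure P] [IsFiniteMeasure Q]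
    (h : ∀ S ∈ measurableCylinders fun _ : Pt => X, P S ≤ Q S) {S : Set (Pt → X)}
    (hS : MeasurableSet S) : P S ≤ Q S := by
  have hd : (P + Q).MeasureDense (measurableCylinders fun _ : Pt => X) :=
    Measure.MeasureDense.of_generateFrom_isSetAlgebra_finite _ isSetAlgebra_measurableCylinders
      generateFrom_measurableCylinders.symm
  refine ENNReal.le_of_forall_pos_le_add fun ε hε _ => ?_
  obtain ⟨T, hT, hTS⟩ := hd.approx S hS (measure_ne_top _ _) (ε / 2 : ℝ) (by positivity)
  have hTm := hd.measurable T hT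
  have e1 : P (symmDiff S T) ≤ ENNReal.ofReal (ε / 2) :=
    (le_trans (by rw [Measure.add_apply]; exact le_self_add) hTS.le)
  have e2 : Q (symmDiff S T) ≤ ENNReal.ofReal (ε / 2) :=
    (le_trans (by rw [Measure.add_apply]; exact le_add_self) hTS.le)
  have h1 : P S ≤ P T + P (symmDiff S T) := by
    refine (measure_mono ?_).trans (measure_union_le T (symmDiff S T))
    intro a ha
    by_cases haT : a ∈ T
    · exact Or.inl haT
    · exact Or.inr (Or.inl ⟨ha, haT⟩)
  have h2 : Q T ≤ Q S + Q (symmDiff S T) := by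
    refine (measure_mono ?_).trans (measure_union_le S (symmDiff S T))
    intro a ha
    by_cases haT : a ∈ S
    · exact Or.inl haT
    · exact Or.inr (Or.inr ⟨ha, haT⟩)
  calc P S ≤ P T + P (symmDiff S T) := h1
    _ ≤ Q T + ENNReal.ofReal (ε / 2) := add_le_add (h T hT) e1
    _ ≤ (Q S + ENNReal.ofReal (ε / 2)) + ENNReal.ofReal (ε / 2) :=
        add_le_add (h2.trans (add_le_add le_rfl e2)) le_rfl
    _ = Q S + ε := by
        rw [add_assoc, ← ENNReal.ofReal_add (by positivity) (by positivity), add_halves,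
          ENNReal.ofReal_coe_nnreal]

end Fl

open Fl in
/-- (10) finite energy. -/
theorem s_muFlip : S_muFlip := by
  classical
  intro μ hμ x S hS
  have := hμ.prob
  have hp : IsProbabilityMeasure (μ.map (flipAt x)) :=
    Measure.isProbabilityMeasure_map (meas_flip x).aemeasurable
  have hfm : IsFiniteMeasure ((64 : ℝ≥0∞) • μ) := by
    have h := Measure.smul_finite μ (c := (64 : ℝ≥0∞)) (by simp)
    exact h
  have key : ∀ S ∈ measurableCylinders fun _ : Pt => Bool,
      (μ.map (flipAt x)) S ≤ ((64 : ℝ≥0∞) • μ) S := by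
    intro S hS
    obtain ⟨B, T, hT, rfl⟩ := (mem_measurableCylinders S).1 hS
    have hm : MeasurableSet (cylinder B T) := MeasurableSet.cylinder (α := fun _ : Pt => Bool) B hT
    set f : Sp → ℝ := (cylinder B T).indicator fun _ => (1 : ℝ) with hf
    have hfl : Loc B f := by
      intro ω ω' hω
      have : B.restrict ω = B.restrict ω' := by
        funext x
        exact hω x x.2
      simp only [f, Set.indicator, mem_cylinder, this]
    have hfl' : Loc B (fun τ => f (flipAt x τ)) := by
      intro ω ω' hω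
      apply hfl
      intro y hy
      by_cases hyx : y = x
      · subst hyx
        rw [flip_same, flip_same, hω y hy]
      · rw [flip_ne hyx, flip_ne hyx, hω y hy]
    have l1 := hμ.lim B _ hfl'
    have l2 := (hμ.lim B _ hfl).const_mul 64
    have hle : ∫ τ, f (flipAt x τ) ∂μ ≤ 64 * ∫ τ, f τ ∂μ := by
      refine le_of_tendsto_of_tendsto l1 l2 ?_
      filter_upwards [eventually_ge_atTop (insert x (Finset.univ.image (nb x)))] with D hD
      refine E1_flip_le ⟨hD (Finset.mem_insert_self _ _), fun y hy => ?_⟩ ?_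
      · obtain ⟨i, rfl⟩ := nb_all hy
        exact hD (Finset.mem_insert_of_mem (Finset.mem_image_of_mem _ (Finset.mem_univ _)))
      · intro τ
        exact Set.indicator_nonneg (fun _ _ => zero_le_one) _
    have i1 : ∫ τ, f (flipAt x τ) ∂μ = (μ.map (flipAt x)).real (cylinder B T) := by
      rw [← integral_indicator_one hm]
      exact (integral_map (meas_flip x).aemeasurable
        (measurable_const.indicator hm).aestronglyMeasurable).symm
    have i2 : ∫ τ, f τ ∂μ = μ.real (cylinder B T) := by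
      rw [← integral_indicator_one hm]
      rfl
    rw [i1, i2] at hle
    rw [Measure.smul_apply, smul_eq_mul]
    have h3 : (μ.map (flipAt x)) (cylinder B T) =
        ENNReal.ofReal ((μ.map (flipAt x)).real (cylinder B T)) := by
      rw [Measure.real, ENNReal.ofReal_toReal (measure_ne_top _ _)]
    have h4 : (64 : ℝ≥0∞) * μ (cylinder B T) = ENNReal.ofReal (64 * μ.real (cylinder B T)) := by
      rw [ENNReal.ofReal_mul (by norm_num), Measure.real, ENNReal.ofReal_toReal (measure_ne_top _ _)]
      norm_num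
    rw [h3, h4]
    exact ENNReal.ofReal_le_ofReal hle
  have h5 := le_of_cyl key hS
  rwa [Measure.map_apply (meas_flip x) hS, Measure.smul_apply, smul_eq_mul] at h5

end Vale.Agent.P153.A
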