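import Vale.Agent.P153.A.Stmt

/-!
P153, block A3, leaf (25): the gradient Gibbs property of the limit.
-/

namespace Vale.Agent.P153.A

open MeasureTheory Filter Topology Relation
open Vale.Agent.P153.GFF (Adj Ht Pat LocLim hexa Plane)

namespace GibbsPf

theorem adj_symm {x y : Pt} (h : Adj x y) : Adj y x := by
  unfold Adj at *
  simp only [Set.mem_insert_iff, Set.mem_singleton_iff, Prod.mk.injEq] at *
  omega

/-- the exchange of the pattern -/
noncomputable def ex (A : Finset Pt) (a a' : Pt → ℤ) (φ : Pt → ℤ) : Pt → ℤ := fun x =>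
  open Classical in if x ∈ A then φ x + (a' x - a x) else φ x

theorem ex_ex (A : Finset Pt) (a a' φ : Pt → ℤ) : ex A a' a (ex A a a' φ) = φ := by
  funext x
  unfold ex
  by_cases hx : x ∈ A
  · simp only [hx, if_true]; ring
  · simp only [hx, if_false]

/-- for large `n` the finite set is inside the hexagon, with its neighbours -/
theorem large (A : Finset Pt) : ∃ n0 : ℕ, ∀ n, n0 ≤ n → ∀ v ∈ A, v ∈ hexa n ∧
    ∀ w, Adj v w → w ∈ hexa n := by
  refine ⟨A.sup (fun v => v.1.natAbs + v.2.natAbs) + 2, fun n hn v hv => ?_⟩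
  have h1 : v.1.natAbs + v.2.natAbs ≤ A.sup (fun v => v.1.natAbs + v.2.natAbs) :=
    Finset.le_sup (f := fun v : Pt => v.1.natAbs + v.2.natAbs) hv
  have key : ∀ w : Pt, (w.1 - v.1).natAbs ≤ 1 → (w.2 - v.2).natAbs ≤ 1 → w ∈ hexa n := by
    intro w h2 h3
    unfold hexa
    rw [Finset.mem_filter, Finset.mem_product, Finset.mem_Icc, Finset.mem_Icc, abs_le]
    refine ⟨⟨⟨?_, ?_⟩, ⟨?_, ?_⟩⟩, ?_, ?_⟩ <;> omega
  refine ⟨key v (by simp) (by simp), fun w hw => ?_⟩
  unfold Adj at hw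
  simp only [Set.mem_insert_iff, Set.mem_singleton_iff, Prod.mk.injEq] at hw
  exact key w (by omega) (by omega)

theorem maps {D A B : Finset Pt} {a a' : Pt → ℤ} (hAB : A ⊆ B)
    (hA : ∀ x ∈ A, ∀ y, Adj x y → y ∈ B) (hD : ∀ v ∈ A, v ∈ D ∧ ∀ w, Adj v w → w ∈ D)
    (ha' : ∀ x ∈ B, ∀ y ∈ B, Adj x y → |a' x - a' y| ≤ 1) (he : ∀ x ∈ B, x ∉ A → a x = a' x)
    {φ : Pt → ℤ} (hφ : φ ∈ Ht D ∩ Pat B a) : ex A a a' φ ∈ Ht D ∩ Pat B a' := by
  obtain ⟨⟨h1, h2⟩, h3⟩ := hφ
  have hB : ∀ x ∈ B, ex A a a' φ x = φ x + (a' x - a x) := by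
    intro x hx
    unfold ex
    by_cases hxA : x ∈ A
    · simp only [hxA, if_true]
    · simp only [hxA, if_false, he x hx hxA]; ring
  have hP : ∀ x ∈ B, ∀ y ∈ B, ex A a a' φ x - ex A a a' φ y = a' x - a' y := by
    intro x hx y hy
    rw [hB x hx, hB y hy]
    have := h3 x hx y hy
    linarith
  refine ⟨⟨fun v => ?_, fun x y hxy => ?_⟩, hP⟩
  · by_cases hv : v ∈ A
    · refine ⟨fun h => absurd (hD v hv).1 h, ?_⟩
      rintro ⟨w, hw, hw'⟩
      exact absurd ((hD v hv).2 w hw) hw'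
    · have : ex A a a' φ v = φ v := by unfold ex; simp only [hv, if_false]
      rw [this]
      exact h1 v
  · by_cases hx : x ∈ A
    · rw [hP x (hAB hx) y (hA x hx y hxy)]
      exact ha' x (hAB hx) y (hA x hx y hxy) hxy
    · by_cases hy : y ∈ A
      · rw [hP x (hA y hy x (adj_symm hxy)) y (hAB hy)]
        exact ha' x (hA y hy x (adj_symm hxy)) y (hAB hy) hxy
      · have e1 : ex A a a' φ x = φ x := by unfold ex; simp only [hx, if_false]
        have e2 : ex A a a' φ y = φ y := by unfold ex; simp only [hy, if_false]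
        rw [e1, e2]
        exact h2 x y hxy

end GibbsPf

open GibbsPf

theorem s_gibbs : S_gibbs := by
  intro P hP hL A B a a' hAB hA ha ha' he
  obtain ⟨n0, hn0⟩ := large A
  have hev : ∀ n, n0 ≤ n → (Ht (hexa n) ∩ Pat B a).ncard = (Ht (hexa n) ∩ Pat B a').ncard := by
    intro n hn
    have hD := hn0 n hn
    have himg : ex A a a' '' (Ht (hexa n) ∩ Pat B a) = Ht (hexa n) ∩ Pat B a' := by
      ext ψ
      constructor
      · rintro ⟨φ, hφ, rfl⟩
        exact maps hAB hA hD ha' he hφ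
      · intro hψ
        exact ⟨ex A a' a ψ, maps hAB hA hD ha (fun x hx hxA => (he x hx hxA).symm) hψ,
          ex_ex A a' a ψ⟩
    rw [← himg, Set.ncard_image_of_injective]
    exact Function.LeftInverse.injective (g := ex A a' a) fun φ => ex_ex A a a' φ
  have h1 := hL B a
  have h2 := hL B a'
  have h3 : P.real (Pat B a) = P.real (Pat B a') := by
    refine tendsto_nhds_unique h1 (h2.congr' ?_)
    filter_upwards [eventually_ge_atTop n0] with n hn
    rw [hev n hn]
  rw [measureReal_def, measureReal_def] at h3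
  exact (ENNReal.toReal_eq_toReal_iff' (measure_ne_top P _) (measure_ne_top P _)).1 h3

end Vale.Agent.P153.A
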