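import Vale.Agent.P153.A.Stmt

/-!
P153, block A3, leaf (21): local limits along all exhausting families with connected complements.
-/

namespace Vale.Agent.P153.A

open MeasureTheory Filter Topology Relation
open Vale.Agent.P153.GFF (Adj Ht Pat LocLim hexa Plane)
open Vale.Agent.P153.Topo (Conn)

namespace LocAll

theorem meas_pat (B : Finset Pt) (a : Pt → ℤ) : MeasurableSet (Pat B a) := by
  have h : Pat B a = ⋂ x ∈ B, ⋂ y ∈ B, {φ : Pt → ℤ | φ x - φ y = a x - a y} := by
    ext φ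
    simp [Pat]
  rw [h]
  refine Finset.measurableSet_biInter _ fun x _ => Finset.measurableSet_biInter _ fun y _ => ?_
  exact measurableSet_eq_fun ((measurable_pi_apply x).sub (measurable_pi_apply y))
    measurable_const

theorem finsum_ind {X : Type} (A S : Set X) :
    (∑ᶠ x ∈ A, S.indicator (fun _ => (1 : ℝ)) x) = ((A ∩ S).ncard : ℝ) := by
  classical
  have h1 : (∑ᶠ x ∈ A, S.indicator (fun _ => (1 : ℝ)) x) = ∑ᶠ x ∈ A ∩ S, (1 : ℝ) := by
    refine finsum_congr fun x => ?_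
    by_cases hA : x ∈ A <;> by_cases hS : x ∈ S <;> simp [hA, hS]
  rw [h1]
  by_cases hf : (A ∩ S).Finite
  · rw [finsum_mem_eq_finite_toFinset_sum _ hf, Set.ncard_eq_toFinset_card _ hf]
    simp
  · rw [Set.Infinite.ncard hf]
    rw [finsum_mem_eq_zero_of_infinite]
    · simp
    · rw [Function.support_const one_ne_zero, Set.inter_univ]
      exact hf

theorem lip {D : Finset Pt} {φ : Pt → ℤ} (h : φ ∈ Ht D) : ∀ x y, Adj x y → |φ x - φ y| ≤ 1 := by
  intro x y hxy
  exact h.2 x y hxy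

end LocAll

open LocAll

theorem s_loc (hrc : S_rc) (hbij : S_bij) : S_loc := by
  intro Q hQ B a
  obtain ⟨-, -, hφ, -, -, hmeas, hloc⟩ := hrc
  have : IsProbabilityMeasure Q := hQ.prob
  obtain ⟨B', hB'⟩ := hloc B
  set F : Om → ℝ := (rc ⁻¹' Pat B a).indicator (fun _ => (1 : ℝ)) with hF
  have hmem : ∀ ω ω' : Om, (∀ x ∈ B', ω x = ω' x) → (rc ω ∈ Pat B a ↔ rc ω' ∈ Pat B a) := by
    intro ω ω' h
    have h' := hB' ω ω' h
    constructor
    · intro hp x hx y hy
      rw [← h' x hx, ← h' y hy]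
      exact hp x hx y hy
    · intro hp x hx y hy
      rw [h' x hx, h' y hy]
      exact hp x hx y hy
  have hL : Loc B' F := by
    intro ω ω' h
    by_cases hp : rc ω ∈ Pat B a
    · have hp' := (hmem ω ω' h).1 hp
      rw [hF, Set.indicator_of_mem (show ω ∈ rc ⁻¹' Pat B a from hp),
        Set.indicator_of_mem (show ω' ∈ rc ⁻¹' Pat B a from hp')]
    · have hp' : rc ω' ∉ Pat B a := fun hh => hp ((hmem ω ω' h).2 hh)
      rw [hF, Set.indicator_of_notMem (show ω ∉ rc ⁻¹' Pat B a from hp),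
        Set.indicator_of_notMem (show ω' ∉ rc ⁻¹' Pat B a from hp')]
  have hlim := (hQ.lim B' F hL).mono_left (inf_le_left : atTop ⊓ 𝓟 {D | Cc D} ≤ atTop)
  have hint : ∫ ω, F ω ∂Q = (Q.map rc).real (Pat B a) := by
    rw [map_measureReal_apply hmeas (meas_pat B a), hF]
    exact integral_indicator_one (hmeas (meas_pat B a))
  rw [hint] at hlim
  refine hlim.congr' ?_
  filter_upwards [mem_inf_of_right (mem_principal_self {D : Finset Pt | Cc D})] with D hD
  have hb := hbij D hD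
  have hpat : ∀ φ ∈ Ht D, (rc (fun x => enc (φ x)) ∈ Pat B a ↔ φ ∈ Pat B a) := by
    intro φ hφ'
    have h1 := (hφ φ (lip hφ')).2
    constructor
    · intro hp x hx y hy
      have := hp x hx y hy
      rw [h1 x, h1 y] at this
      linarith
    · intro hp x hx y hy
      have := hp x hx y hy
      rw [h1 x, h1 y]
      linarith
  have hc1 : (Cf D).ncard = (Ht D).ncard := by
    rw [← hb.image_eq, hb.injOn.ncard_image]
  have hc2 : (Cf D ∩ rc ⁻¹' Pat B a).ncard = (Ht D ∩ Pat B a).ncard := by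
    have himg : (fun (φ : Pt → ℤ) x => enc (φ x)) '' (Ht D ∩ Pat B a) =
        Cf D ∩ rc ⁻¹' Pat B a := by
      ext ω
      constructor
      · rintro ⟨φ, ⟨h1, h2⟩, rfl⟩
        exact ⟨hb.mapsTo h1, (hpat φ h1).2 h2⟩
      · rintro ⟨h1, h2⟩
        obtain ⟨φ, h3, rfl⟩ := hb.surjOn h1
        exact ⟨φ, ⟨h3, (hpat φ h3).1 h2⟩, rfl⟩
    rw [← himg, (hb.injOn.mono Set.inter_subset_left).ncard_image]
  show E2 D F = _
  rw [E2, hc1, hF, finsum_ind, hc2]

end Vale.Agent.P153.A
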