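import Vale.Agent.P153.A.Stmt

/-!
P153, block A3, step (26): mixing of even functions of the heights.
-/

namespace Vale.Agent.P153.A

open MeasureTheory Filter Topology

/-- A function of the heights in a finite set is measurable. -/
lemma mixP_meas (B : Finset Pt) (W : (Pt → ℤ) → ℝ)
    (h : ∀ φ ψ : Pt → ℤ, (∀ x ∈ B, φ x = ψ x) → W φ = W ψ) : Measurable W := by
  classical
  have e : W = (fun g : B → ℤ => W fun x => if hx : x ∈ B then g ⟨x, hx⟩ else 0) ∘
      fun (φ : Pt → ℤ) (x : B) => φ x := by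
    funext φ
    refine h _ _ fun x hx => ?_
    simp [hx]
  rw [e]
  exact (measurable_of_countable _).comp (by fun_prop)

/-- (26) -/
theorem s_mixP (h19 : S_rc) (h18 : S_sym) (h17 : S_mixQ) : S_mixP := by
  intro Q hQ hfar B W W' hW hW' hlW hlW' heW heW'
  obtain ⟨-, -, -, hneg, htr, hmeas, hloc⟩ := h19
  obtain ⟨B', hB'⟩ := hloc B
  have hcomp : ∀ᵐ ω ∂Q, Comp ω := (h18 Q hQ).2.2
  have mW := mixP_meas B W hlW
  have mW' := mixP_meas B W' hlW'
  have key := h17 Q hQ hfar B' (fun ω => W (rc ω)) (fun ω => W' (rc ω))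
    (fun ω ω' h => hlW _ _ (hB' ω ω' h)) (fun ω ω' h => hlW' _ _ (hB' ω ω' h))
    (fun ω => by
      have : rc (neg ω) = fun x => - rc ω x := funext fun x => hneg ω x
      rw [this]
      exact heW _)
    (fun ω => by
      have : rc (neg ω) = fun x => - rc ω x := funext fun x => hneg ω x
      rw [this]
      exact heW' _)
  have e1 : ∫ φ, W φ ∂(Q.map rc) = ∫ ω, W (rc ω) ∂Q :=
    integral_map hmeas.aemeasurable mW.aestronglyMeasurable
  have e2 : ∫ φ, W' φ ∂(Q.map rc) = ∫ ω, W' (rc ω) ∂Q :=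
    integral_map hmeas.aemeasurable mW'.aestronglyMeasurable
  rw [e1, e2]
  refine key.congr fun t => ?_
  have mS : Measurable (GFF.shift t) := by
    unfold GFF.shift
    fun_prop
  have m2 : Measurable (fun φ : Pt → ℤ => W φ * W' (GFF.shift t φ)) := mW.mul (mW'.comp mS)
  rw [integral_map hmeas.aemeasurable m2.aestronglyMeasurable]
  refine integral_congr_ae ?_
  filter_upwards [hcomp] with ω hω
  have : rc (tr t ω) = GFF.shift t (rc ω) := funext fun x => htr ω hω t x
  rw [this]

end Vale.Agent.P153.A
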