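import Vale.Agent.P153.A.Stmt

set_option linter.all false

/-!
P153, block A3, step (15): the limit law of (tau, sigma).
-/

namespace Vale.Agent.P153.A.QLim

open MeasureTheory Filter Topology Relation
open Vale.Agent.P153.GFF (Adj Ht Pat LocLim hexa)
open Vale.Agent.P153.A

section loc

variable {X : Type}

/-- the restriction to `B` -/
def res (B : Finset Pt) (ω : Pt → X) : B → X := fun b => ω b

theorem loc_factor {B : Finset Pt} {F : (Pt → X) → ℝ} (h : Loc B F) :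
    ∃ g : (B → X) → ℝ, F = g ∘ res B := by
  classical
  refine ⟨Function.extend (res B) F (fun _ => 0), ?_⟩
  have hf : Function.FactorsThrough F (res B) := by
    intro ω ω' hω
    exact h ω ω' fun x hx => congrFun hω ⟨x, hx⟩
  exact (hf.extend_comp (fun _ => 0)).symm

theorem loc_bdd [Finite X] {B : Finset Pt} {F : (Pt → X) → ℝ} (h : Loc B F) :
    ∃ M : ℝ, 0 ≤ M ∧ ∀ ω, |F ω| ≤ M := by
  obtain ⟨g, hg⟩ := loc_factor h
  have : (Set.range fun v => |g v|).Finite := Set.finite_range _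
  obtain ⟨M, hM⟩ := this.bddAbove
  refine ⟨max M 0, le_max_right _ _, fun ω => ?_⟩
  rw [hg]
  exact (hM ⟨res B ω, rfl⟩).trans (le_max_left _ _)

theorem loc_meas [Finite X] [MeasurableSpace X] [MeasurableSingletonClass X] {B : Finset Pt}
    {F : (Pt → X) → ℝ} (h : Loc B F) : Measurable F := by
  obtain ⟨g, hg⟩ := loc_factor h
  rw [hg]
  refine Measurable.comp (Measurable.of_discrete) ?_
  exact measurable_pi_lambda _ fun b => measurable_pi_apply _

end loc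

/-- functions on `B` extended by `false` -/
theorem fin_ext (B : Finset Pt) : {t : Sp | ∀ x, x ∉ B → t x = false}.Finite := by
  classical
  refine Set.Finite.of_finite_image (f := res B) (Set.toFinite _) ?_
  intro t ht t' ht' h
  funext x
  by_cases hx : x ∈ B
  · exact congrFun h ⟨x, hx⟩
  · rw [ht x hx, ht' x hx]

theorem G_fin (D : Finset Pt) (τ : Sp) : (G D τ : Set Sp).Finite :=
  (fin_ext D).subset fun s hs => hs.1

theorem w_pos (D : Finset Pt) (τ : Sp) : 0 < w D τ := by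
  have : Finite (G D τ) := (G_fin D τ).to_subtype
  exact Nat.card_pos

theorem coin_bdd {B : Finset Pt} {r : Pt → Pt → Prop} {F : Om → ℝ} {τ : Sp} {M : ℝ}
    (hM : 0 ≤ M) (hF : ∀ ω, |F ω| ≤ M) : |coin B r F τ| ≤ M := by
  unfold coin
  have hfin : {t : Sp | (∀ x, x ∉ B → t x = false) ∧
      ∀ x ∈ B, ∀ y ∈ B, r x y → t x = t y}.Finite := (fin_ext B).subset fun t ht => ht.1
  rw [finsum_mem_eq_finite_toFinset_sum _ hfin, Set.ncard_eq_toFinset_card _ hfin, abs_div]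
  have h1 : |∑ t ∈ hfin.toFinset, F (pr τ t)| ≤ hfin.toFinset.card * M := by
    refine (Finset.abs_sum_le_sum_abs _ _).trans ?_
    refine (Finset.sum_le_sum fun t _ => hF (pr τ t)).trans (le_of_eq ?_)
    rw [Finset.sum_const, nsmul_eq_mul]
  rw [Nat.abs_cast]
  rcases Nat.eq_zero_or_pos hfin.toFinset.card with h0 | h0
  · rw [h0, Nat.cast_zero, div_zero]; exact hM
  · rw [div_le_iff₀ (by exact_mod_cast h0)]
    linarith

/-! ### expectations as finite sums -/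

theorem E2_sum (h1 : S_e1) (D : Finset Pt) :
    ∃ S : Finset Om, S.Nonempty ∧ ∀ F : Om → ℝ, E2 D F = (∑ ω ∈ S, F ω) / S.card := by
  obtain ⟨-, hfin, hne, -⟩ := h1 D
  refine ⟨hfin.toFinset, ?_, fun F => ?_⟩
  · rw [Set.Finite.toFinset_nonempty]; exact hne
  · unfold E2
    rw [finsum_mem_eq_finite_toFinset_sum _ hfin, Set.ncard_eq_toFinset_card _ hfin]

theorem E1_abs (h1 : S_e1) (D : Finset Pt) {f g k : Sp → ℝ} (h : ∀ τ, |f τ - g τ| ≤ k τ) :
    |E1 D f - E1 D g| ≤ E1 D k := by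
  obtain ⟨S, hS, hE⟩ := E2_sum h1 D
  unfold E1
  rw [hE, hE, hE, ← sub_div, ← Finset.sum_sub_distrib, abs_div, Nat.abs_cast]
  refine div_le_div_of_nonneg_right ?_ (by positivity)
  exact (Finset.abs_sum_le_sum_abs _ _).trans (Finset.sum_le_sum fun ω _ => h _)

theorem E1_lin (h1 : S_e1) (D : Finset Pt) {ι : Type} (s : Finset ι) (c : ℝ)
    (f : ι → Sp → ℝ) : E1 D (fun τ => c * ∑ i ∈ s, f i τ) = c * ∑ i ∈ s, E1 D (f i) := by
  obtain ⟨S, hS, hE⟩ := E2_sum h1 D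
  unfold E1
  rw [hE]
  simp only [hE]
  rw [← Finset.mul_sum, Finset.sum_comm, ← Finset.sum_div, mul_div_assoc]

theorem nu_exists (h1 : S_e1) (D : Finset Pt) :
    ∃ ν : Measure Om, IsProbabilityMeasure ν ∧ ∀ F : Om → ℝ, ∫ ω, F ω ∂ν = E2 D F := by
  obtain ⟨S, hS, hE⟩ := E2_sum h1 D
  have hc : (0 : ℝ) < S.card := by exact_mod_cast hS.card_pos
  have hc' : (S.card : ENNReal) ≠ 0 := by
    rw [Nat.cast_ne_zero]; exact hS.card_pos.ne'
  refine ⟨(S.card : ENNReal)⁻¹ • ∑ ω ∈ S, Measure.dirac ω, ⟨?_⟩, fun F => ?_⟩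
  · rw [Measure.smul_apply, Measure.finsetSum_apply]
    simp only [measure_univ, Finset.sum_const, smul_eq_mul, nsmul_eq_mul, mul_one]
    exact ENNReal.inv_mul_cancel hc' (ENNReal.natCast_ne_top _)
  · rw [hE, integral_smul_measure, integral_finset_sum_measure]
    · simp only [integral_dirac]
      rw [ENNReal.toReal_inv, ENNReal.toReal_natCast, smul_eq_mul, div_eq_inv_mul]
    · intro ω _
      exact integrable_dirac (by simp)

/-! ### the coin average -/

/-- the coin average along the bichromatic clusters -/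
noncomputable def cu (B : Finset Pt) (F : Om → ℝ) (τ : Sp) : ℝ := coin B (Bich Set.univ τ) F τ

theorem E2_coin (h1 : S_e1) (h2 : S_coin) {D B : Finset Pt} (hB : B ⊆ D) {F : Om → ℝ}
    (hF : Loc B F) : E2 D F = E1 D (cu B F) := by
  obtain ⟨hA, -, -, hE⟩ := h1 D
  unfold E1
  rw [hE, hE]
  congr 1
  refine finsum_mem_congr rfl fun τ hτ => ?_
  have hw : (w D τ : ℝ) ≠ 0 := by exact_mod_cast (w_pos D τ).ne'
  have h3 := h2 D B F τ hB hF hτ
  rw [div_eq_iff hw] at h3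
  rw [h3]
  have h4 : ∀ s, cu B F (tau (pr τ s)) = cu B F τ := fun s => rfl
  simp only [h4]
  rw [finsum_mem_eq_finite_toFinset_sum _ (G_fin D τ), Finset.sum_const, nsmul_eq_mul,
    mul_comm]
  congr 1
  unfold w
  rw [← Set.ncard_eq_toFinset_card _ (G_fin D τ)]
  rfl

/-! ### the event Far -/

theorem bich_loc {S : Set Pt} {τ τ' : Sp} (h : ∀ x ∈ S, τ x = τ' x) {x y : Pt}
    (hb : Bich S τ x y) : Bich S τ' x y := by
  refine ReflTransGen.mono (r := fun u v => Adj u v ∧ τ u ≠ τ v ∧ u ∈ S ∧ v ∈ S) ?_ _ _ hb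
  rintro u v ⟨h1, h2, h3, h4⟩
  exact ⟨h1, by rw [← h u h3, ← h v h4]; exact h2, h3, h4⟩

theorem far_loc {R : ℕ} {x y : Pt} {τ τ' : Sp} (h : ∀ x ∈ bx (R + 1), τ x = τ' x)
    (hf : τ ∈ Far R x y) : τ' ∈ Far R x y := by
  have h1 : ∀ x ∈ ((bx (R + 1) : Finset Pt) : Set Pt), τ x = τ' x := fun x hx => h x hx
  have h2 : ∀ x ∈ ((bx (R + 1) : Finset Pt) : Set Pt), τ' x = τ x := fun x hx => (h x hx).symm
  obtain ⟨a, ⟨u, hu, hu'⟩, ⟨v, hv, hv'⟩⟩ := hf
  exact ⟨fun hb => a (bich_loc h2 hb), ⟨u, hu, bich_loc h1 hu'⟩, ⟨v, hv, bich_loc h1 hv'⟩⟩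

/-- the indicator of Far -/
noncomputable def fi (R : ℕ) (x y : Pt) : Sp → ℝ := Set.indicator (Far R x y) 1

theorem fi_loc (R : ℕ) (x y : Pt) : Loc (bx (R + 1)) (fi R x y) := by
  classical
  intro τ τ' h
  unfold fi
  by_cases hf : τ ∈ Far R x y
  · rw [Set.indicator_of_mem hf, Set.indicator_of_mem (far_loc h hf)]
    rfl
  · rw [Set.indicator_of_notMem hf, Set.indicator_of_notMem]
    intro hf'
    exact hf (far_loc (fun x hx => (h x hx).symm) hf')

theorem far_meas (R : ℕ) (x y : Pt) : MeasurableSet (Far R x y) := by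
  classical
  have h := loc_meas (fi_loc R x y)
  have e : Far R x y = fi R x y ⁻¹' {1} := by
    ext τ
    unfold fi
    by_cases hf : τ ∈ Far R x y
    · simp [hf]
    · simp [hf]
  rw [e]
  exact h (measurableSet_singleton _)

theorem tau_meas : Measurable tau :=
  measurable_pi_lambda _ fun x => measurable_fst.comp (measurable_pi_apply x)

theorem int_fi (μ : Measure Sp) (R : ℕ) (x y : Pt) : ∫ τ, fi R x y τ ∂μ = μ.real (Far R x y) := by
  unfold fi
  rw [integral_indicator_one (far_meas R x y)]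

/-! ### the limit -/

theorem cu_close (h3 : S_coin2) {R : ℕ} {B : Finset Pt} {F : Om → ℝ} (hB : B ⊆ bx R)
    (hF : Loc B F) {M : ℝ} (hM : 0 ≤ M) (hFM : ∀ ω, |F ω| ≤ M) (τ : Sp) :
    |cu B F τ - coin B (Bich (bx (R + 1)) τ) F τ| ≤
      (2 * M) * ∑ p ∈ B ×ˢ B, fi R p.1 p.2 τ := by
  classical
  have hnn : ∀ p : Pt × Pt, 0 ≤ fi R p.1 p.2 τ := fun p => by
    unfold fi
    exact Set.indicator_nonneg (fun _ _ => zero_le_one) _
  by_cases h : ∀ x ∈ B, ∀ y ∈ B, τ ∉ Far R x y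
  · have : cu B F τ = coin B (Bich (bx (R + 1)) τ) F τ := (h3 R B F hB hF).2 τ h
    rw [this, sub_self, abs_zero]
    exact mul_nonneg (by positivity) (Finset.sum_nonneg fun p _ => hnn p)
  · push Not at h
    obtain ⟨x, hx, y, hy, hxy⟩ := h
    have h4 : (1 : ℝ) ≤ ∑ p ∈ B ×ˢ B, fi R p.1 p.2 τ := by
      calc (1 : ℝ) = fi R x y τ := by
            unfold fi
            rw [Set.indicator_of_mem hxy]; rfl
        _ ≤ _ := Finset.single_le_sum (f := fun p : Pt × Pt => fi R p.1 p.2 τ)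
            (fun p _ => hnn p) (Finset.mk_mem_product hx hy)
    have h5 : |cu B F τ| ≤ M := coin_bdd hM hFM
    have h6 : |coin B (Bich (bx (R + 1)) τ) F τ| ≤ M := coin_bdd hM hFM
    calc |cu B F τ - coin B (Bich (bx (R + 1)) τ) F τ| ≤
          |cu B F τ| + |coin B (Bich (bx (R + 1)) τ) F τ| := abs_sub _ _
      _ ≤ 2 * M * 1 := by linarith
      _ ≤ _ := mul_le_mul_of_nonneg_left h4 (by positivity)

theorem sub_bx (B : Finset Pt) : ∃ R0 : ℕ, ∀ R, R0 ≤ R → B ⊆ bx R := by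
  classical
  refine ⟨∑ p ∈ B, (p.1.natAbs + p.2.natAbs), fun R hR p hp => ?_⟩
  have h1 : p.1.natAbs + p.2.natAbs ≤ ∑ p ∈ B, (p.1.natAbs + p.2.natAbs) :=
    Finset.single_le_sum (f := fun p : Pt => p.1.natAbs + p.2.natAbs) (fun _ _ => Nat.zero_le _) hp
  unfold bx
  rw [Finset.mem_product, Finset.mem_Icc, Finset.mem_Icc]
  omega

theorem lim_exists (h1 : S_e1) (h2 : S_coin) (h3 : S_coin2) {μ : Measure Sp} (hμ : IsMu μ)
    (hfar : FarLim μ) {B : Finset Pt} {F : Om → ℝ} (hF : Loc B F) :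
    ∃ l : ℝ, Tendsto (fun D => E2 D F) atTop (𝓝 l) := by
  classical
  obtain ⟨M, hM, hFM⟩ := loc_bdd hF
  refine cauchySeq_tendsto_of_complete ?_
  rw [Metric.cauchySeq_iff']
  intro ε hε
  obtain ⟨R0, hR0⟩ := sub_bx B
  -- choose R
  have hlim : Tendsto (fun R => (2 * M) * ∑ p ∈ B ×ˢ B, μ.real (Far R p.1 p.2)) atTop (𝓝 0) := by
    have : Tendsto (fun R => (2 * M) * ∑ p ∈ B ×ˢ B, μ.real (Far R p.1 p.2)) atTop
        (𝓝 ((2 * M) * ∑ p ∈ B ×ˢ B, (0 : ℝ))) :=
      (tendsto_finset_sum _ fun p _ => hfar p.1 p.2).const_mul _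
    simpa using this
  obtain ⟨R, hR, hRε⟩ : ∃ R, R0 ≤ R ∧
      (2 * M) * ∑ p ∈ B ×ˢ B, μ.real (Far R p.1 p.2) < ε / 4 := by
    have := ((tendsto_order.1 hlim).2 (ε / 4) (by positivity)).and (eventually_ge_atTop R0)
    obtain ⟨R, h⟩ := this.exists
    exact ⟨R, h.2, h.1⟩
  have hBR := hR0 R hR
  set L : ℝ := ∫ τ, coin B (Bich (bx (R + 1)) τ) F τ ∂μ with hL
  have t1 : Tendsto (fun D => E1 D fun τ => coin B (Bich (bx (R + 1)) τ) F τ) atTop (𝓝 L) :=
    hμ.lim _ _ (h3 R B F hBR hF).1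
  have t2 : Tendsto (fun D => (2 * M) * ∑ p ∈ B ×ˢ B, E1 D (fi R p.1 p.2)) atTop
      (𝓝 ((2 * M) * ∑ p ∈ B ×ˢ B, μ.real (Far R p.1 p.2))) := by
    refine (tendsto_finset_sum _ fun p _ => ?_).const_mul _
    rw [← int_fi]
    exact hμ.lim _ _ (fi_loc R p.1 p.2)
  have ev : ∀ᶠ D : Finset Pt in atTop, dist (E2 D F) L < ε / 2 := by
    have e1 := (Metric.tendsto_nhds.1 t1) (ε / 4) (by positivity)
    have e2 := (tendsto_order.1 t2).2 (ε / 4) hRε
    filter_upwards [e1, e2, eventually_ge_atTop B] with D d1 d2 hBD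
    have hBD' : B ⊆ D := hBD
    rw [E2_coin h1 h2 hBD' hF]
    have d3 := E1_abs h1 D (fun τ => cu_close h3 hBR hF hM hFM τ)
    rw [E1_lin h1 D (B ×ˢ B) (2 * M) (fun p => fi R p.1 p.2)] at d3
    rw [Real.dist_eq] at d1 ⊢
    calc |E1 D (cu B F) - L| ≤ |E1 D (cu B F) - E1 D fun τ => coin B (Bich (bx (R + 1)) τ) F τ| +
          |(E1 D fun τ => coin B (Bich (bx (R + 1)) τ) F τ) - L| := abs_sub_le _ _ _
      _ < ε / 4 + ε / 4 := by linarith
      _ = ε / 2 := by ring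
  obtain ⟨N, hN⟩ := eventually_atTop.1 ev
  refine ⟨N, fun n hn => ?_⟩
  calc dist (E2 n F) (E2 N F) ≤ dist (E2 n F) L + dist (E2 N F) L := dist_triangle_right _ _ _
    _ < ε / 2 + ε / 2 := add_lt_add (hN n hn) (hN N le_rfl)
    _ = ε := by ring

theorem s_q (h_e1 : S_e1) (h_comp : S_comp) (h_coin : S_coin) (h_coin2 : S_coin2) : S_q := by
  classical
  rintro ⟨μ, hμ, hfar⟩
  choose ν hν1 hν2 using nu_exists h_e1
  obtain ⟨Q, hQ1, hQ2⟩ := h_comp (Bool × Bool) ν hν1 (fun B F hF => by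
    obtain ⟨l, hl⟩ := lim_exists h_e1 h_coin h_coin2 hμ hfar hF
    exact ⟨l, by simpa only [hν2] using hl⟩)
  have hQ : IsQ Q := ⟨hQ1, fun B F hF => by simpa only [hν2] using hQ2 B F hF⟩
  refine ⟨Q, hQ, fun x y => ?_⟩
  have key : ∀ R, (Q.map tau).real (Far R x y) = μ.real (Far R x y) := by
    intro R
    have a1 := hμ.lim _ _ (fi_loc R x y)
    have hl : Loc (bx (R + 1)) (fun ω : Om => fi R x y (tau ω)) := by
      intro ω ω' h
      exact fi_loc R x y _ _ fun x hx => congrArg Prod.fst (h x hx)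
    have a2 := hQ.lim _ _ hl
    have a3 := tendsto_nhds_unique a1 a2
    rw [int_fi] at a3
    rw [a3, ← int_fi, integral_map tau_meas.aemeasurable
      (loc_meas (fi_loc R x y)).aestronglyMeasurable]
  simp only [key]
  exact hfar x y

end Vale.Agent.P153.A.QLim

namespace Vale.Agent.P153.A

/-- (15) the limit law of (tau, sigma) exists. -/
theorem s_q (h_e1 : S_e1) (h_comp : S_comp) (h_coin : S_coin) (h_coin2 : S_coin2) : S_q :=
  QLim.s_q h_e1 h_comp h_coin h_coin2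

end Vale.Agent.P153.A
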