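import Vale.Agent.P153.A.MuInv
import Vale.Agent.P153.A.QLim

/-!
P153, block A3 (17): mixing of even functions under the limit law of (tau, sigma).
-/

namespace Vale.Agent.P153.A.MixQ

open MeasureTheory Filter Topology Relation
open Vale.Agent.P153.GFF (Adj Ht Pat LocLim hexa)
open Vale.Agent.P153.A Vale.Agent.P153.A.QLim

theorem isMu {Q : Measure Om} (hQ : IsQ Q) : IsMu (Q.map tau) := by
  have := hQ.prob
  refine ⟨Measure.isProbabilityMeasure_map tau_meas.aemeasurable, fun B f hf => ?_⟩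
  rw [integral_map tau_meas.aemeasurable (loc_meas hf).aestronglyMeasurable]
  exact hQ.lim B (fun ω => f (tau ω)) fun ω ω' h => hf _ _ fun x hx => congrArg Prod.fst (h x hx)

/-- transfer from the pair to tau -/
theorem transfer (h1 : S_e1) (h2 : S_coin) {Q : Measure Om} (hQ : IsQ Q) {B B' B'' : Finset Pt}
    {F : Om → ℝ} {g k : Sp → ℝ} (hF : Loc B F) (hg : Loc B' g) (hk : Loc B'' k)
    (h : ∀ τ, |cu B F τ - g τ| ≤ k τ) :
    |∫ ω, F ω ∂Q - ∫ τ, g τ ∂(Q.map tau)| ≤ ∫ τ, k τ ∂(Q.map tau) := by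
  have hμ := isMu hQ
  have t1 := hQ.lim B F hF
  have t2 := hμ.lim B' g hg
  have t3 := hμ.lim B'' k hk
  refine le_of_tendsto_of_tendsto (t1.sub t2).abs t3 ?_
  filter_upwards [eventually_ge_atTop B] with D hD
  have hD' : B ⊆ D := hD
  rw [E2_coin h1 h2 hD' hF]
  exact E1_abs h1 D h

/-- the coin average localised in `bx (R + 1)` -/
noncomputable def cc (R : ℕ) (B : Finset Pt) (F : Om → ℝ) (τ : Sp) : ℝ :=
  coin B (Bich (bx (R + 1)) τ) F τ

/-- the sum of the indicators of Far -/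
noncomputable def sf (R : ℕ) (B : Finset Pt) (τ : Sp) : ℝ := ∑ p ∈ B ×ˢ B, fi R p.1 p.2 τ

theorem fi_nonneg (R : ℕ) (x y : Pt) (τ : Sp) : 0 ≤ fi R x y τ := by
  unfold fi
  exact Set.indicator_nonneg (fun _ _ => zero_le_one) _

theorem sf_nonneg (R : ℕ) (B : Finset Pt) (τ : Sp) : 0 ≤ sf R B τ :=
  Finset.sum_nonneg fun p _ => fi_nonneg R p.1 p.2 τ

theorem sf_loc (R : ℕ) (B : Finset Pt) : Loc (bx (R + 1)) (sf R B) := by
  intro τ τ' h
  unfold sf
  exact Finset.sum_congr rfl fun p _ => fi_loc R p.1 p.2 τ τ' h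

theorem one_le_sf {R : ℕ} {B : Finset Pt} {τ : Sp}
    (h : ¬ ∀ x ∈ B, ∀ y ∈ B, τ ∉ Far R x y) : 1 ≤ sf R B τ := by
  push Not at h
  obtain ⟨x, hx, y, hy, hxy⟩ := h
  calc (1 : ℝ) = fi R x y τ := by
        unfold fi
        rw [Set.indicator_of_mem hxy]; rfl
    _ ≤ _ := Finset.single_le_sum (f := fun p : Pt × Pt => fi R p.1 p.2 τ)
        (fun p _ => fi_nonneg R p.1 p.2 τ) (Finset.mk_mem_product hx hy)

theorem sf_int {μ : Measure Sp} (hμ : IsMu μ) (R : ℕ) (B : Finset Pt) :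
    ∫ τ, sf R B τ ∂μ = ∑ p ∈ B ×ˢ B, μ.real (Far R p.1 p.2) := by
  have := hμ.prob
  unfold sf
  rw [integral_finsetSum]
  · simp only [int_fi]
  · intro p _
    obtain ⟨M, -, hM⟩ := loc_bdd (fi_loc R p.1 p.2)
    exact Integrable.of_bound (loc_meas (fi_loc R p.1 p.2)).aestronglyMeasurable M
      (ae_of_all _ fun τ => by rw [Real.norm_eq_abs]; exact hM τ)

theorem sf_lim {μ : Measure Sp} (hμ : IsMu μ) (hfar : FarLim μ) (B : Finset Pt) :
    Tendsto (fun R => ∫ τ, sf R B τ ∂μ) atTop (𝓝 0) := by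
  simp only [sf_int hμ]
  have : Tendsto (fun R => ∑ p ∈ B ×ˢ B, μ.real (Far R p.1 p.2)) atTop
      (𝓝 (∑ p ∈ B ×ˢ B, (0 : ℝ))) := tendsto_finsetSum _ fun p _ => hfar p.1 p.2
  simpa using this

theorem far_cofinite (R : ℕ) : ∀ᶠ z : Pt in cofinite,
    2 * (R : ℤ) + 4 < |z.1| ∨ 2 * (R : ℤ) + 4 < |z.2| := by
  have hfin : ((bx (2 * R + 4) : Finset Pt) : Set Pt).Finite := Finset.finite_toSet _
  filter_upwards [hfin.compl_mem_cofinite] with z hz
  by_contra h
  push Not at h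
  apply hz
  unfold bx
  rw [Finset.mem_coe, Finset.mem_product, Finset.mem_Icc, Finset.mem_Icc]
  obtain ⟨h1, h2⟩ := h
  rw [abs_le] at h1 h2
  push_cast
  exact ⟨⟨by linarith [h1.1], by linarith [h1.2]⟩, ⟨by linarith [h2.1], by linarith [h2.2]⟩⟩

theorem loc_prod {B : Finset Pt} {F F' : Om → ℝ} (hF : Loc B F) (hF' : Loc B F') (z : Pt) :
    Loc (B ∪ B.image (· + z)) (fun ω => F ω * F' (tr z ω)) := by
  intro ω ω' h
  have e1 : F ω = F ω' := hF _ _ fun x hx => h x (Finset.mem_union_left _ hx)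
  have e2 : F' (tr z ω) = F' (tr z ω') := hF' _ _ fun x hx =>
    h (x + z) (Finset.mem_union_right _ (Finset.mem_image_of_mem _ hx))
  simp only [e1, e2]

theorem loc_tr {X : Type} {B : Finset Pt} {F : (Pt → X) → ℝ} (hF : Loc B F) (z : Pt) :
    Loc (B.image (· + z)) (fun ω => F (tr z ω)) := by
  intro ω ω' h
  exact hF _ _ fun x hx => h (x + z) (Finset.mem_image_of_mem _ hx)

theorem s_mixQ (h_e1 : S_e1) (h_coin : S_coin) (h_coin2 : S_coin2) (h_coin3 : S_coin3)
    (h_mix : S_muMix) : S_mixQ := by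
  classical
  intro Q hQ hfar B F F' hF hF' hFn hFn'
  have hprob := hQ.prob
  have hμ := isMu hQ
  set μ := Q.map tau with hμdef
  have hprobμ := hμ.prob
  obtain ⟨M1, hM1, hFM1⟩ := loc_bdd hF
  obtain ⟨M2, hM2, hFM2⟩ := loc_bdd hF'
  set M := max M1 M2 with hMdef
  have hM : 0 ≤ M := hM1.trans (le_max_left _ _)
  have hFM : ∀ ω, |F ω| ≤ M := fun ω => (hFM1 ω).trans (le_max_left _ _)
  have hFM' : ∀ ω, |F' ω| ≤ M := fun ω => (hFM2 ω).trans (le_max_right _ _)
  rw [Metric.tendsto_nhds]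
  intro ε hε
  obtain ⟨R0, hR0⟩ := sub_bx B
  have hlim : Tendsto (fun R => (8 * M ^ 2) * ∫ τ, sf R B τ ∂μ) atTop (𝓝 0) := by
    have := (sf_lim hμ hfar B).const_mul (8 * M ^ 2)
    simpa using this
  obtain ⟨R, hR, hRε⟩ : ∃ R, R0 ≤ R ∧ (8 * M ^ 2) * ∫ τ, sf R B τ ∂μ < ε / 2 := by
    have := ((tendsto_order.1 hlim).2 (ε / 2) (by positivity)).and (eventually_ge_atTop R0)
    obtain ⟨R, h⟩ := this.exists
    exact ⟨R, h.2, h.1⟩
  have hBR := hR0 R hR
  set s := ∫ τ, sf R B τ ∂μ with hs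
  have hs0 : 0 ≤ s := integral_nonneg fun τ => sf_nonneg R B τ
  -- localised coin averages
  have lc : Loc (bx (R + 1)) (cc R B F) := (h_coin2 R B F hBR hF).1
  have lc' : Loc (bx (R + 1)) (cc R B F') := (h_coin2 R B F' hBR hF').1
  have bc : ∀ τ, |cc R B F τ| ≤ M := fun τ => coin_bdd hM hFM
  have bc' : ∀ τ, |cc R B F' τ| ≤ M := fun τ => coin_bdd hM hFM'
  have hk1 : Loc (bx (R + 1)) (fun τ : Sp => (2 * M) * sf R B τ) := fun τ τ' h =>
    congrArg (fun t => (2 * M) * t) (sf_loc R B τ τ' h)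
  have a1 : |∫ ω, F ω ∂Q - ∫ τ, cc R B F τ ∂μ| ≤ 2 * M * s := by
    refine (transfer h_e1 h_coin hQ hF lc hk1 fun τ => cu_close h_coin2 hBR hF hM hFM τ).trans ?_
    rw [integral_const_mul]
  have a2 : |∫ ω, F' ω ∂Q - ∫ τ, cc R B F' τ ∂μ| ≤ 2 * M * s := by
    refine (transfer h_e1 h_coin hQ hF' lc' hk1 fun τ => cu_close h_coin2 hBR hF' hM hFM' τ).trans ?_
    rw [integral_const_mul]
  -- mixing of mu
  have hmix := h_mix μ hμ (bx (R + 1)) (cc R B F) (cc R B F') lc lc'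
  filter_upwards [far_cofinite R, (Metric.tendsto_nhds.1 hmix) (ε / 2) (by positivity)]
    with z hz hmz
  rw [Real.dist_eq] at hmz ⊢
  -- the product
  have hk2 : Loc (bx (R + 1) ∪ (bx (R + 1)).image (· + z))
      (fun τ : Sp => (2 * M ^ 2) * (sf R B τ + sf R B (tr z τ))) := fun τ τ' h => by
    have e1 := sf_loc R B τ τ' fun x hx => h x (Finset.mem_union_left _ hx)
    have e2 := loc_tr (sf_loc R B) z τ τ' fun x hx => h x (Finset.mem_union_right _ hx)
    simp only [e1, e2]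
  have hg : Loc (bx (R + 1) ∪ (bx (R + 1)).image (· + z))
      (fun τ : Sp => cc R B F τ * cc R B F' (tr z τ)) := fun τ τ' h => by
    have e1 := lc τ τ' fun x hx => h x (Finset.mem_union_left _ hx)
    have e2 := loc_tr lc' z τ τ' fun x hx => h x (Finset.mem_union_right _ hx)
    simp only [e1, e2]
  have close : ∀ τ : Sp, |cu (B ∪ B.image (· + z)) (fun ω => F ω * F' (tr z ω)) τ -
      cc R B F τ * cc R B F' (tr z τ)| ≤ (2 * M ^ 2) * (sf R B τ + sf R B (tr z τ)) := by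
    intro τ
    have n1 := sf_nonneg R B τ
    have n2 := sf_nonneg R B (tr z τ)
    by_cases h : (∀ x ∈ B, ∀ y ∈ B, τ ∉ Far R x y) ∧ ∀ x ∈ B, ∀ y ∈ B, tr z τ ∉ Far R x y
    · have e : cu (B ∪ B.image (· + z)) (fun ω => F ω * F' (tr z ω)) τ =
          cc R B F τ * cc R B F' (tr z τ) :=
        h_coin3 R B F F' hBR hF hF' hFn hFn' z hz τ h.1 h.2
      rw [e, sub_self, abs_zero]
      positivity
    · have h4 : 1 ≤ sf R B τ + sf R B (tr z τ) := by
        rw [not_and_or] at h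
        rcases h with h | h
        · linarith [one_le_sf h]
        · linarith [one_le_sf h]
      have b1 : |cu (B ∪ B.image (· + z)) (fun ω => F ω * F' (tr z ω)) τ| ≤ M ^ 2 := by
        refine coin_bdd (by positivity) fun ω => ?_
        rw [abs_mul, sq]
        exact mul_le_mul (hFM _) (hFM' _) (abs_nonneg _) hM
      have b2 : |cc R B F τ * cc R B F' (tr z τ)| ≤ M ^ 2 := by
        rw [abs_mul, sq]
        exact mul_le_mul (bc _) (bc' _) (abs_nonneg _) hM
      calc _ ≤ |cu (B ∪ B.image (· + z)) (fun ω => F ω * F' (tr z ω)) τ| +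
            |cc R B F τ * cc R B F' (tr z τ)| := abs_sub _ _
        _ ≤ 2 * M ^ 2 * 1 := by linarith
        _ ≤ _ := mul_le_mul_of_nonneg_left h4 (by positivity)
  have a3 := transfer h_e1 h_coin hQ (loc_prod hF hF' z) hg hk2 close
  have int_s : Integrable (sf R B) μ := by
    obtain ⟨M', -, hM'⟩ := loc_bdd (sf_loc R B)
    exact Integrable.of_bound (loc_meas (sf_loc R B)).aestronglyMeasurable M'
      (ae_of_all _ fun τ => by rw [Real.norm_eq_abs]; exact hM' τ)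
  have int_s' : Integrable (fun τ => sf R B (tr z τ)) μ := by
    have l := loc_tr (sf_loc R B) z
    obtain ⟨M', -, hM'⟩ := loc_bdd l
    exact Integrable.of_bound (loc_meas l).aestronglyMeasurable M'
      (ae_of_all _ fun τ => by rw [Real.norm_eq_abs]; exact hM' τ)
  rw [integral_const_mul, integral_add int_s int_s', hμ.integral_tr z (sf_loc R B)] at a3
  -- products of the means
  have c1 : |∫ τ, cc R B F' τ ∂μ| ≤ M := by
    have := norm_integral_le_of_norm_le_const (μ := μ) (f := fun τ => cc R B F' τ) (C := M)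
      (ae_of_all _ fun τ => by rw [Real.norm_eq_abs]; exact bc' τ)
    simpa using this
  have c2 : |∫ ω, F ω ∂Q| ≤ M := by
    have := norm_integral_le_of_norm_le_const (μ := Q) (f := fun ω => F ω) (C := M)
      (ae_of_all _ fun τ => by rw [Real.norm_eq_abs]; exact hFM τ)
    simpa using this
  set a := ∫ ω, F ω ∂Q
  set a' := ∫ ω, F' ω ∂Q
  set b := ∫ τ, cc R B F τ ∂μ
  set b' := ∫ τ, cc R B F' τ ∂μ
  set X := ∫ ω, F ω * F' (tr z ω) ∂Q
  set Y := ∫ τ, cc R B F τ * cc R B F' (tr z τ) ∂μ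
  have d1 : |b * b' - a * a'| ≤ 4 * M ^ 2 * s := by
    have e : b * b' - a * a' = -((a - b) * b') - a * (a' - b') := by ring
    rw [e]
    calc |-((a - b) * b') - a * (a' - b')| ≤ |-((a - b) * b')| + |a * (a' - b')| := abs_sub _ _
      _ = |a - b| * |b'| + |a| * |a' - b'| := by rw [abs_neg, abs_mul, abs_mul]
      _ ≤ (2 * M * s) * M + M * (2 * M * s) :=
        add_le_add (mul_le_mul a1 c1 (abs_nonneg _) (by positivity))
          (mul_le_mul c2 a2 (abs_nonneg _) hM)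
      _ = _ := by ring
  calc |X - a * a'| = |(X - Y) + (Y - b * b') + (b * b' - a * a')| := by ring_nf
    _ ≤ |X - Y| + |Y - b * b'| + |b * b' - a * a'| := abs_add_three _ _ _
    _ < 4 * M ^ 2 * s + ε / 2 + 4 * M ^ 2 * s := by
        have : |X - Y| ≤ 4 * M ^ 2 * s := by
          refine a3.trans (le_of_eq ?_)
          rw [← hs]; ring
        linarith
    _ ≤ ε := by linarith

end Vale.Agent.P153.A.MixQ

namespace Vale.Agent.P153.A

/-- (17) mixing of even functions. -/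
theorem s_mixQ (h_e1 : S_e1) (h_coin : S_coin) (h_coin2 : S_coin2) (h_coin3 : S_coin3)
    (h_mix : S_muMix) : S_mixQ :=
  MixQ.s_mixQ h_e1 h_coin h_coin2 h_coin3 h_mix

end Vale.Agent.P153.A
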