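import Vale.Agent.P153.A.Mu

/-!
P153, block A3, leaf (8): translation invariance of the limit law of tau.
-/

namespace Vale.Agent.P153.A

open MeasureTheory Filter Topology Relation

theorem tr_tr {X : Type} (z z' : Pt) (ω : Pt → X) : tr z (tr z' ω) = tr (z + z') ω := by
  funext x
  simp [tr, add_assoc]

theorem tr_zero {X : Type} (ω : Pt → X) : tr 0 ω = ω := by
  funext x
  simp [tr]

theorem tr_inj {X : Type} (z : Pt) : Function.Injective (tr (X := X) z) := by
  intro ω ω' h
  have : tr (-z) (tr z ω) = tr (-z) (tr z ω') := by rw [h]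
  simpa [tr_tr, tr_zero] using this

theorem measurable_tr {X : Type} [MeasurableSpace X] (z : Pt) : Measurable (tr (X := X) z) :=
  measurable_pi_lambda _ fun _ => measurable_pi_apply _

theorem Adj_add (z x y : Pt) : Adj (x + z) (y + z) ↔ Adj x y := by
  unfold Adj
  simp [Prod.fst_add, Prod.snd_add]

theorem mem_img (D : Finset Pt) (z x : Pt) : x + z ∈ D.image (· + z) ↔ x ∈ D := by
  simp

theorem mem_inn_img (D : Finset Pt) (z x : Pt) : x + z ∈ inn (D.image (· + z)) ↔ x ∈ inn D := by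
  unfold inn
  simp only [Set.mem_ofPred_eq, mem_img]
  constructor
  · rintro ⟨h1, h2⟩
    refine ⟨h1, fun w hw => ?_⟩
    have := h2 (w + z) ((Adj_add z x w).2 hw)
    rwa [mem_img] at this
  · rintro ⟨h1, h2⟩
    refine ⟨h1, fun w hw => ?_⟩
    have h3 : w = (w - z) + z := by abel
    rw [h3] at hw ⊢
    rw [mem_img]
    exact h2 _ ((Adj_add z x (w - z)).1 hw)

theorem cf_tr (D : Finset Pt) (z : Pt) (ω : Om) : ω ∈ Cf (D.image (· + z)) ↔ tr z ω ∈ Cf D := by
  unfold Cf Comp
  simp only [Set.mem_ofPred_eq, tr]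
  constructor
  · rintro ⟨h1, h2, h3⟩
    refine ⟨fun x y h => h1 _ _ ((Adj_add z x y).2 h), fun x hx => h2 _ ?_, fun x hx => h3 _ ?_⟩
    · rwa [mem_inn_img]
    · rwa [mem_img]
  · rintro ⟨h1, h2, h3⟩
    have e : ∀ x : Pt, x = (x - z) + z := fun x => by abel
    refine ⟨fun x y h => ?_, fun x hx => ?_, fun x hx => ?_⟩
    · have := h1 (x - z) (y - z) (by rw [← Adj_add z]; simpa using h)
      simpa using this
    · have := h2 (x - z) (by rw [← mem_inn_img D z]; simpa using hx)
      simpa using this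
    · have := h3 (x - z) (by rw [← mem_img D z]; simpa using hx)
      simpa using this

theorem cf_tr_image (D : Finset Pt) (z : Pt) : tr z '' Cf (D.image (· + z)) = Cf D := by
  ext ω
  constructor
  · rintro ⟨ω', h, rfl⟩
    exact (cf_tr D z ω').1 h
  · intro h
    refine ⟨tr (-z) ω, (cf_tr D z _).2 ?_, ?_⟩
    · rwa [tr_tr, add_neg_cancel, tr_zero]
    · rw [tr_tr, add_neg_cancel, tr_zero]

theorem E2_tr (D : Finset Pt) (z : Pt) (F : Om → ℝ) :
    E2 (D.image (· + z)) (fun ω => F (tr z ω)) = E2 D F := by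
  unfold E2
  have h1 : ∑ᶠ ω ∈ Cf (D.image (· + z)), F (tr z ω) = ∑ᶠ ω ∈ Cf D, F ω := by
    rw [← cf_tr_image D z, finsum_mem_image (tr_inj z).injOn]
  have h2 : (Cf (D.image (· + z))).ncard = (Cf D).ncard := by
    rw [← cf_tr_image D z, Set.ncard_image_of_injective _ (tr_inj z)]
  rw [h1, h2]

theorem E1_tr (D : Finset Pt) (z : Pt) (f : Sp → ℝ) :
    E1 (D.image (· + z)) (fun τ => f (tr z τ)) = E1 D f := by
  unfold E1
  exact E2_tr D z fun ω => f (tau ω)

theorem tendsto_img (z : Pt) : Tendsto (fun D : Finset Pt => D.image (· + z)) atTop atTop := by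
  apply tendsto_atTop_atTop_of_monotone
  · intro D D' h
    exact Finset.image_subset_image h
  · intro B
    refine ⟨B.image (· + (-z)), ?_⟩
    intro x hx
    rw [Finset.image_image]
    exact Finset.mem_image.2 ⟨x, hx, by simp⟩

theorem IsMu.integral_tr {μ : Measure Sp} (hμ : IsMu μ) (z : Pt) {B : Finset Pt} {f : Sp → ℝ}
    (hf : Loc B f) : ∫ τ, f (tr z τ) ∂μ = ∫ τ, f τ ∂μ := by
  have h1 := (hμ.lim _ _ (hf.tr z)).comp (tendsto_img z)
  have h2 : Tendsto (fun D => E1 D f) atTop (𝓝 (∫ τ, f (tr z τ) ∂μ)) :=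
    h1.congr fun D => E1_tr D z f
  exact tendsto_nhds_unique h2 (hμ.lim B f hf)

/-- (8) -/
theorem s_muInv : S_muInv := by
  intro μ hμ z
  have := hμ.prob
  have h1 : IsProbabilityMeasure (μ.map (tr z)) :=
    Measure.isProbabilityMeasure_map (measurable_tr z).aemeasurable
  apply ext_loc
  intro B f hf
  rw [integral_map (measurable_tr z).aemeasurable hf.measurable.aestronglyMeasurable]
  exact hμ.integral_tr z hf

end Vale.Agent.P153.A
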