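import Vale.Agent.P153.A.MuInv

/-!
P153, block A3, leaf (9): mixing of the limit law of tau.
-/

namespace Vale.Agent.P153.A

open MeasureTheory Filter Topology Relation

/-- translations bringing `D` close to itself are finitely many -/
theorem far_shift (D : Finset Pt) : ∀ᶠ z : Pt in cofinite,
    ∀ x ∈ D, ∀ y ∈ D.image (· + z), x ≠ y ∧ ¬ Adj x y := by
  let N : Finset Pt := {(0, 0), (1, 0), (-1, 0), (0, 1), (0, -1), (1, -1), (-1, 1)}
  have hfin : ((((D ×ˢ D) ×ˢ N).image fun p : (Pt × Pt) × Pt => p.1.1 + p.2 - p.1.2 :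
      Finset Pt) : Set Pt).Finite := Finset.finite_toSet _
  filter_upwards [hfin.compl_mem_cofinite] with z hz
  intro x hx y hy
  obtain ⟨y', hy', rfl⟩ := Finset.mem_image.1 hy
  constructor
  · rintro rfl
    apply hz
    rw [Finset.mem_coe, Finset.mem_image]
    exact ⟨((y' + z, y'), (0, 0)), by simp [N, hx, hy'], by ext <;> simp⟩
  · intro h
    apply hz
    rw [Finset.mem_coe, Finset.mem_image]
    unfold Adj at h
    refine ⟨((x, y'), ((y' + z).1 - x.1, (y' + z).2 - x.2)), ?_, by ext <;> simp⟩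
    simp only [Finset.mem_product, hx, hy', true_and, and_self]
    simp only [Set.mem_insert_iff, Set.mem_singleton_iff] at h
    simp only [N, Finset.mem_insert, Finset.mem_singleton]
    exact Or.inr h

theorem Loc.mul' {X : Type} {B B' : Finset Pt} {f g : (Pt → X) → ℝ} (hf : Loc B f)
    (hg : Loc B' g) : Loc (B ∪ B') (fun ω => f ω * g ω) := by
  intro ω ω' h
  simp only [hf.mono Finset.subset_union_left ω ω' h, hg.mono Finset.subset_union_right ω ω' h]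

theorem tr_mono (z : Pt) {τ τ' : Sp} (h : τ ≤ τ') : tr z τ ≤ tr z τ' := fun x => h (x + z)

/-- mixing for nonnegative monotone functions -/
theorem mix_mono (h3 : S_fkg) (h4 : S_dom) (h5 : S_prod) {μ : Measure Sp}
    (hμ : IsMu μ) {B : Finset Pt} {f g : Sp → ℝ} (hf : Loc B f) (hg : Loc B g) (mf : Monotone f)
    (mg : Monotone g) (pf : ∀ τ, 0 ≤ f τ) (pg : ∀ τ, 0 ≤ g τ) :
    Tendsto (fun z => ∫ τ, f τ * g (tr z τ) ∂μ) cofinite
      (𝓝 ((∫ τ, f τ ∂μ) * ∫ τ, g τ ∂μ)) := by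
  have hprob := hμ.prob
  have lim_f := hμ.lim B f hf
  have lim_g := hμ.lim B g hg
  -- lower bound
  have lower : ∀ z, (∫ τ, f τ ∂μ) * ∫ τ, g τ ∂μ ≤ ∫ τ, f τ * g (tr z τ) ∂μ := by
    intro z
    have l3 := hμ.lim _ _ (hf.mul' (hg.tr z))
    have l2 := hμ.lim _ _ (hg.tr z)
    rw [hμ.integral_tr z hg] at l2
    refine le_of_tendsto_of_tendsto' (lim_f.mul l2) l3 fun D => ?_
    exact h3 D f (fun τ => g (tr z τ)) mf fun τ τ' h => mg (tr_mono z h)
  -- upper bound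
  have upper : ∀ D : Finset Pt, B ⊆ D → ∀ᶠ z in cofinite,
      ∫ τ, f τ * g (tr z τ) ∂μ ≤ E1 D f * E1 D g := by
    intro D hD
    filter_upwards [far_shift D] with z hz
    have l3 := hμ.lim _ _ (hf.mul' (hg.tr z))
    refine le_of_tendsto l3 ?_
    filter_upwards [eventually_ge_atTop (D ∪ D.image (· + z))] with D' hD'
    refine (h4 _ D' hD' _ ?_).trans_eq ?_
    · intro τ τ' h
      exact mul_le_mul (mf h) (mg (tr_mono z h)) (pg _) (pf _)
    · rw [h5 D (D.image (· + z)) hz f (fun τ => g (tr z τ)) (hf.mono hD)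
        ((hg.mono hD).tr z), E1_tr]
  rw [tendsto_order]
  constructor
  · intro a ha
    exact Eventually.of_forall fun z => lt_of_lt_of_le ha (lower z)
  · intro a ha
    have h6 := (lim_f.mul lim_g).eventually (gt_mem_nhds ha)
    obtain ⟨D, hD1, hD2⟩ := (h6.and (eventually_ge_atTop B)).exists
    filter_upwards [upper D hD2] with z hz
    exact lt_of_le_of_lt hz hD1

/-- (9) -/
theorem s_muMix (h3 : S_fkg) (h4 : S_dom) (h5 : S_prod) : S_muMix := by
  intro μ hμ B f g hf hg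
  have hprob := hμ.prob
  obtain ⟨f1, f2, lf1, lf2, mf1, mf2, pf1, pf2, hef⟩ := hf.split
  obtain ⟨g1, g2, lg1, lg2, mg1, mg2, pg1, pg2, heg⟩ := hg.split
  have t11 := mix_mono h3 h4 h5 hμ lf1 lg1 mf1 mg1 pf1 pg1
  have t12 := mix_mono h3 h4 h5 hμ lf1 lg2 mf1 mg2 pf1 pg2
  have t21 := mix_mono h3 h4 h5 hμ lf2 lg1 mf2 mg1 pf2 pg1
  have t22 := mix_mono h3 h4 h5 hμ lf2 lg2 mf2 mg2 pf2 pg2
  have e1 : ∫ τ, f τ ∂μ = (∫ τ, f1 τ ∂μ) - ∫ τ, f2 τ ∂μ := by
    rw [← integral_sub (lf1.integrable μ) (lf2.integrable μ)]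
    exact integral_congr_ae (Eventually.of_forall hef)
  have e2 : ∫ τ, g τ ∂μ = (∫ τ, g1 τ ∂μ) - ∫ τ, g2 τ ∂μ := by
    rw [← integral_sub (lg1.integrable μ) (lg2.integrable μ)]
    exact integral_congr_ae (Eventually.of_forall heg)
  have e3 : ∀ z, ∫ τ, f τ * g (tr z τ) ∂μ =
      (∫ τ, f1 τ * g1 (tr z τ) ∂μ) - (∫ τ, f1 τ * g2 (tr z τ) ∂μ) -
      (∫ τ, f2 τ * g1 (tr z τ) ∂μ) + ∫ τ, f2 τ * g2 (tr z τ) ∂μ := by
    intro z
    have i11 := (lf1.mul' (lg1.tr z)).integrable μ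
    have i12 := (lf1.mul' (lg2.tr z)).integrable μ
    have i21 := (lf2.mul' (lg1.tr z)).integrable μ
    have i22 := (lf2.mul' (lg2.tr z)).integrable μ
    have s3 := integral_add ((i11.sub i12).sub i21) i22
    have s2 := integral_sub (i11.sub i12) i21
    have s1 := integral_sub i11 i12
    simp only [Pi.sub_apply] at s1 s2 s3
    rw [← s1, ← s2, ← s3]
    apply integral_congr_ae
    refine Eventually.of_forall fun τ => ?_
    simp only [hef τ, heg (tr z τ)]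
    ring
  have := ((t11.sub t12).sub t21).add t22
  rw [e1, e2]
  have e4 : ((∫ τ, f1 τ ∂μ) - ∫ τ, f2 τ ∂μ) * ((∫ τ, g1 τ ∂μ) - ∫ τ, g2 τ ∂μ) =
      (∫ τ, f1 τ ∂μ) * (∫ τ, g1 τ ∂μ) - (∫ τ, f1 τ ∂μ) * (∫ τ, g2 τ ∂μ) -
      (∫ τ, f2 τ ∂μ) * (∫ τ, g1 τ ∂μ) + (∫ τ, f2 τ ∂μ) * (∫ τ, g2 τ ∂μ) := by ring
  rw [e4]
  exact this.congr fun z => (e3 z).symm

end Vale.Agent.P153.A
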