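import Vale.Agent.P153.A.Stmt
import Vale.Agent.P153.Strip.Lim
import Vale.Agent.P153.CLT.PlaneVar

/-!
P153, block A: final assembly. The law of the height function is the image under `rc` of the limit
law `Q` of the pairs (tau, sigma); it satisfies `GFF.Plane` and `Strip.EvLim`.
-/

namespace Vale.Agent.P153.A

open MeasureTheory Filter Topology
open Vale.Agent.P153.GFF (Ht Pat LocLim hexa)

/-! ### heights -/

theorem rc_zero (ω : Om) : rc ω 0 = 0 := by
  unfold rc Sm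
  simp

/-- Two functions with the same increments along the edges and the same value at `0` are equal. -/
theorem eq_of_inc {f g : Pt → ℤ} (h : ∀ x y, Adj x y → f y - f x = g y - g x) (h0 : f 0 = g 0) :
    f = g := by
  funext v
  set k : ℤ := |v.1| + |v.2| + 1 with hk
  have hk0 : 0 < k := by positivity
  have h1 := CLT.abs_le_of_lip (fun x => k * (f x - g x)) (fun x y hxy => by
    have h2 := h x y hxy
    have h3 : k * (f x - g x) - k * (f y - g y) = 0 := by
      have : f x - g x = f y - g y := by linarith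
      rw [this, sub_self]
    rw [h3]
    simp) (by simp [h0]) v
  change |k * (f v - g v)| ≤ |v.1| + |v.2| at h1
  rw [abs_mul, abs_of_pos hk0] at h1
  by_contra hne
  have h4 : 1 ≤ |f v - g v| := Int.one_le_abs (sub_ne_zero.2 hne)
  have h5 : k * 1 ≤ k * |f v - g v| := mul_le_mul_of_nonneg_left h4 hk0.le
  linarith

theorem rc_aut (hrc : S_rc) (θ : Pt ≃ Pt) (hθ : ∀ v u, Adj v u ↔ Adj (θ v) (θ u)) (ω : Om)
    (hω : Comp ω) (x : Pt) : rc (fun x => ω (θ x)) x = rc ω (θ x) - rc ω (θ 0) := by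
  have hω' : Comp fun x => ω (θ x) := fun x y hxy => hω _ _ ((hθ x y).1 hxy)
  have h1 := eq_of_inc (f := rc fun x => ω (θ x)) (g := fun x => rc ω (θ x) - rc ω (θ 0))
    (fun x y hxy => by
      rw [hrc.1 _ hω' x y hxy]
      have := hrc.1 ω hω (θ x) (θ y) ((hθ x y).1 hxy)
      rw [sub_sub_sub_cancel_right, this]) (by simp [rc_zero])
  exact congrFun h1 x

theorem abs_inc (p q : Bool × Bool) : |inc p q| ≤ 1 := by
  unfold inc
  split_ifs <;> simp

variable {Q : Measure Om}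

theorem prob_rc (hrc : S_rc) (hQ : IsQ Q) : IsProbabilityMeasure (Q.map rc) := by
  have := hQ.prob
  exact Measure.isProbabilityMeasure_map hrc.2.2.2.2.2.1.aemeasurable

theorem zero_rc (hrc : S_rc) : ∀ᵐ φ ∂(Q.map rc), φ 0 = 0 := by
  have h1 : MeasurableSet {φ : Pt → ℤ | φ 0 = 0} :=
    (measurable_pi_apply (0 : Pt) : Measurable fun φ : Pt → ℤ => φ 0) (measurableSet_singleton 0)
  rw [ae_map_iff hrc.2.2.2.2.2.1.aemeasurable h1]
  exact Eventually.of_forall rc_zero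

theorem lip_rc (hrc : S_rc) (hsym : S_sym) (hQ : IsQ Q) :
    ∀ᵐ φ ∂(Q.map rc), ∀ x y, Adj x y → |φ x - φ y| ≤ 1 := by
  rw [ae_all_iff]
  intro x
  rw [ae_all_iff]
  intro y
  by_cases hxy : Adj x y
  · simp only [hxy, true_imp_iff]
    rw [ae_map_iff hrc.2.2.2.2.2.1.aemeasurable (by
      have h1 : Measurable fun φ : Pt → ℤ => φ x - φ y :=
        (measurable_pi_apply x).sub (measurable_pi_apply y)
      exact h1 (MeasurableSet.of_discrete (s := {k : ℤ | |k| ≤ 1})))]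
    filter_upwards [(hsym Q hQ).2.2] with ω hω
    rw [abs_sub_comm, hrc.1 ω hω x y hxy]
    exact abs_inc _ _
  · exact Eventually.of_forall fun φ h => absurd h hxy

theorem measurable_rec (θ : Pt ≃ Pt) :
    Measurable fun (φ : Pt → ℤ) x => φ (θ x) - φ (θ 0) := by
  rw [measurable_pi_iff]
  intro x
  exact (measurable_pi_apply _).sub (measurable_pi_apply _)

/-- Invariance of the recentred heights. -/
theorem aut_rc (hrc : S_rc) (hsym : S_sym) (hQ : IsQ Q) (θ : Pt ≃ Pt)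
    (hθ : ∀ v u, Adj v u ↔ Adj (θ v) (θ u)) :
    (Q.map rc).map (fun φ x => φ (θ x) - φ (θ 0)) = Q.map rc := by
  have hm := hrc.2.2.2.2.2.1
  have hm2 : Measurable fun (ω : Om) x => ω (θ x) :=
    measurable_pi_iff.2 fun x => measurable_pi_apply _
  rw [Measure.map_map (measurable_rec θ) hm]
  have h1 : Q.map ((fun (φ : Pt → ℤ) x => φ (θ x) - φ (θ 0)) ∘ rc) =
      Q.map (rc ∘ fun (ω : Om) x => ω (θ x)) := by
    refine Measure.map_congr ?_
    filter_upwards [(hsym Q hQ).2.2] with ω hω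
    funext x
    exact (rc_aut hrc θ hθ ω hω x).symm
  rw [h1, ← Measure.map_map hm hm2, (hsym Q hQ).1 θ hθ]

theorem adj_addRight (t v u : Pt) : Adj v u ↔ Adj (v + t) (u + t) := by
  unfold Vale.Agent.P153.Adj
  simp

theorem adj_rot (v u : Pt) : Adj v u ↔ Adj (GFF.rot v) (GFF.rot u) := by
  unfold Vale.Agent.P153.Adj GFF.rot
  simp only [Set.mem_insert_iff, Set.mem_singleton_iff, Prod.mk.injEq]
  constructor <;> intro h <;> omega

theorem adj_swap (v u : Pt) : Adj v u ↔ Adj v.swap u.swap := by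
  unfold Vale.Agent.P153.Adj
  simp only [Set.mem_insert_iff, Set.mem_singleton_iff, Prod.mk.injEq, Prod.fst_swap,
    Prod.snd_swap]
  constructor <;> intro h <;> omega

/-- The rotation as an equivalence. -/
def rotE : Pt ≃ Pt where
  toFun := GFF.rot
  invFun v := (v.1 + v.2, -v.1)
  left_inv v := by
    unfold GFF.rot
    ext <;> simp
  right_inv v := by
    unfold GFF.rot
    ext <;> simp

theorem tendsto_hexa (hcc : S_cc) : Tendsto hexa atTop (atTop ⊓ 𝓟 {D : Finset Pt | Cc D}) := by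
  refine tendsto_inf.2 ⟨tendsto_atTop.2 fun B => ?_, tendsto_principal.2 ?_⟩
  · obtain ⟨n, hn, -⟩ := hcc.2.2 B
    filter_upwards [eventually_ge_atTop n] with m hm
    exact hn m hm
  · exact Eventually.of_forall hcc.1

/-- **The law of the heights is a plane measure.** -/
theorem plane_of (hrc : S_rc) (hsym : S_sym) (hloc : S_loc) (hcc : S_cc) (hrp : S_rp)
    (hg : S_gibbs) (hmix : S_mixP) (hQ : IsQ Q) (hF : FarLim (Q.map tau)) :
    GFF.Plane (Q.map rc) where
  prob := prob_rc hrc hQ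
  zero := zero_rc hrc
  lip := lip_rc hrc hsym hQ
  shift t := by
    have h1 := aut_rc hrc hsym hQ (Equiv.addRight t) (fun v u => adj_addRight t v u)
    have h2 : GFF.shift t = fun (φ : Pt → ℤ) x => φ ((Equiv.addRight t) x) -
        φ ((Equiv.addRight t) 0) := by
      funext φ x
      simp [GFF.shift]
    rw [h2]
    exact h1
  rot := by
    have h1 := aut_rc hrc hsym hQ rotE adj_rot
    conv_rhs => rw [← h1]
    refine Measure.map_congr ?_
    filter_upwards [zero_rc (Q := Q) hrc] with φ hφ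
    funext x
    have h2 : rotE 0 = 0 := by
      change GFF.rot 0 = 0
      simp [GFF.rot]
    rw [h2, hφ, sub_zero]
    rfl
  swap := by
    have h1 := aut_rc hrc hsym hQ (Equiv.prodComm ℤ ℤ) adj_swap
    conv_rhs => rw [← h1]
    refine Measure.map_congr ?_
    filter_upwards [zero_rc (Q := Q) hrc] with φ hφ
    funext x
    have h2 : (Equiv.prodComm ℤ ℤ) 0 = 0 := rfl
    rw [h2, hφ, sub_zero]
    rfl
  rp := hrp Q hQ
  mix B W W' _ _ hW hW' he he' hB hB' := hmix Q hQ hF B W W' hW hW' hB hB' he he'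
  lim B a := (hloc Q hQ B a).comp (tendsto_hexa hcc)
  gibbs := hg _ (prob_rc hrc hQ) fun B a => (hloc Q hQ B a).comp (tendsto_hexa hcc)

/-! ### The limit of the averages of local functions -/

theorem Ht_eq_reg (Λ : Finset Pt) : Ht Λ = ↑(Fv.reg Λ) := by
  ext h
  rw [Finset.mem_coe, Fv.mem_reg]
  unfold GFF.Ht Fv.Lp GFF.bc
  simp only [Set.mem_ofPred_eq]
  constructor
  · rintro ⟨h1, h2⟩
    refine ⟨fun v hv => (h1 v).1 hv, fun v hv hv' => ?_, h2⟩
    refine (h1 v).2 ?_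
    by_contra hcon
    push Not at hcon
    exact hv' ⟨hv, hcon⟩
  · rintro ⟨h1, h2, h3⟩
    refine ⟨fun v => ⟨h1 v, ?_⟩, h3⟩
    rintro ⟨w, hw, hwΛ⟩
    by_cases hv : v ∈ Λ
    · exact h2 v hv fun h => hwΛ (h.2 w hw)
    · exact Or.inl (h1 v hv)

/-- The pattern of `φ` on `B`. -/
noncomputable def pat (B : Finset Pt) (φ : Pt → ℤ) : Pt → ℤ := fun x =>
  if x ∈ B then φ x - φ 0 else 0

/-- The finite set of patterns. -/
noncomputable def pats (B : Finset Pt) : Finset (Pt → ℤ) :=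
  (Fv.finite_of_bdd B 0 (∑ x ∈ B, (|x.1| + |x.2|))).toFinset.filter fun a => a 0 = 0

theorem pat_mem (B : Finset Pt) (φ : Pt → ℤ)
    (h : ∀ x y, Adj x y → |φ x - φ y| ≤ 1) : pat B φ ∈ pats B := by
  unfold pats
  rw [Finset.mem_filter, Set.Finite.mem_toFinset]
  refine ⟨⟨fun x => ?_, fun x hx => ?_⟩, ?_⟩
  · unfold pat
    split_ifs with hx
    · have h1 := CLT.abs_le_of_lip (fun y => φ y - φ 0) (fun a b hab => by
        rw [sub_sub_sub_cancel_right]
        exact h a b hab) (by simp) x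
      refine h1.trans ?_
      exact Finset.single_le_sum (f := fun x : Pt => |x.1| + |x.2|)
        (fun i _ => by positivity) hx
    · rw [abs_zero]
      exact Finset.sum_nonneg fun i _ => by positivity
  · simp [pat, hx]
  · simp [pat]

theorem mem_Pat_iff {B : Finset Pt} (hB : (0 : Pt) ∈ B) {a : Pt → ℤ} (ha : a ∈ pats B)
    (φ : Pt → ℤ) : φ ∈ Pat B a ↔ a = pat B φ := by
  unfold pats at ha
  rw [Finset.mem_filter, Set.Finite.mem_toFinset] at ha
  obtain ⟨⟨-, h1⟩, h2⟩ := ha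
  constructor
  · intro h
    funext x
    unfold pat
    split_ifs with hx
    · have := h x hx 0 hB
      rw [this, h2, sub_zero]
    · exact h1 x hx
  · intro h x hx y hy
    rw [h]
    unfold pat
    rw [if_pos hx, if_pos hy]
    ring

theorem measurableSet_Pat (B : Finset Pt) (a : Pt → ℤ) : MeasurableSet (Pat B a) := by
  have h1 : Pat B a = ⋂ x ∈ B, ⋂ y ∈ B, {φ : Pt → ℤ | φ x - φ y = a x - a y} := by
    ext φ
    simp [GFF.Pat]
  rw [h1]
  refine Finset.measurableSet_biInter _ fun x _ => Finset.measurableSet_biInter _ fun y _ => ?_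
  have h2 : Measurable fun φ : Pt → ℤ => φ x - φ y :=
    (measurable_pi_apply x).sub (measurable_pi_apply y)
  exact h2 (measurableSet_singleton _)

open Classical in
/-- Expansion of a local function of the differences. -/
theorem expand {B : Finset Pt} (hB : (0 : Pt) ∈ B) {F : (Pt → ℤ) → ℝ}
    (hF : ∀ φ ψ : Pt → ℤ, (∀ x ∈ B, ∀ y ∈ B, φ x - φ y = ψ x - ψ y) → F φ = F ψ) (φ : Pt → ℤ)
    (h : ∀ x y, Adj x y → |φ x - φ y| ≤ 1) :
    F φ = ∑ a ∈ pats B, F a * if φ ∈ Pat B a then 1 else 0 := by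
  rw [Finset.sum_eq_single (pat B φ)]
  · have h1 : φ ∈ Pat B (pat B φ) := (mem_Pat_iff hB (pat_mem B φ h) φ).2 rfl
    rw [if_pos h1, mul_one]
    exact hF _ _ h1
  · intro a ha hne
    rw [if_neg, mul_zero]
    exact fun h2 => hne ((mem_Pat_iff hB ha φ).1 h2)
  · intro h1
    exact absurd (pat_mem B φ h) h1

theorem ev_expand {B : Finset Pt} (hB : (0 : Pt) ∈ B) {F : (Pt → ℤ) → ℝ}
    (hF : ∀ φ ψ : Pt → ℤ, (∀ x ∈ B, ∀ y ∈ B, φ x - φ y = ψ x - ψ y) → F φ = F ψ)
    (Λ : Finset Pt) :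
    Vale.Agent.P153.ev (Fv.reg Λ) F =
      ∑ a ∈ pats B, F a * (((Ht Λ ∩ Pat B a).ncard : ℝ) / (Ht Λ).ncard) := by
  classical
  have h1 : ∀ φ ∈ Fv.reg Λ, F φ = ∑ a ∈ pats B, F a * if φ ∈ Pat B a then 1 else 0 :=
    fun φ hφ => expand hB hF φ (Fv.mem_reg.1 hφ).2.2
  unfold Vale.Agent.P153.ev
  rw [Finset.sum_congr rfl h1, Finset.sum_comm, Finset.sum_div]
  refine Finset.sum_congr rfl fun a _ => ?_
  have h2 : (Ht Λ ∩ Pat B a).ncard = ((Fv.reg Λ).filter fun φ => φ ∈ Pat B a).card := by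
    rw [← Set.ncard_coe_finset]
    congr 1
    rw [Ht_eq_reg]
    ext φ
    simp
  have h3 : (Ht Λ).ncard = (Fv.reg Λ).card := by
    rw [Ht_eq_reg, Set.ncard_coe_finset]
  rw [h2, h3, ← Finset.mul_sum, mul_div_assoc]
  congr 2
  rw [Finset.sum_boole]

theorem integral_expand (hrc : S_rc) (hsym : S_sym) (hQ : IsQ Q) {B : Finset Pt}
    (hB : (0 : Pt) ∈ B) {F : (Pt → ℤ) → ℝ}
    (hF : ∀ φ ψ : Pt → ℤ, (∀ x ∈ B, ∀ y ∈ B, φ x - φ y = ψ x - ψ y) → F φ = F ψ) :
    ∫ φ, F φ ∂(Q.map rc) = ∑ a ∈ pats B, F a * (Q.map rc).real (Pat B a) := by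
  classical
  have := prob_rc hrc hQ
  have h1 : ∀ᵐ φ ∂(Q.map rc), F φ = ∑ a ∈ pats B, F a * (Pat B a).indicator (fun _ => (1 : ℝ)) φ := by
    filter_upwards [lip_rc hrc hsym hQ] with φ hφ
    rw [expand hB hF φ hφ]
    refine Finset.sum_congr rfl fun a _ => ?_
    rw [Set.indicator_apply]
  rw [integral_congr_ae h1, integral_finsetSum _ fun a _ =>
    ((integrable_const _).indicator (measurableSet_Pat B a)).const_mul _]
  refine Finset.sum_congr rfl fun a _ => ?_
  rw [integral_const_mul, integral_indicator_const _ (measurableSet_Pat B a), smul_eq_mul, mul_one]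

/-- **Local limit along the rectangles.** -/
theorem evLim_of (hrc : S_rc) (hsym : S_sym) (hloc : S_loc) (hcc : S_cc) (hQ : IsQ Q) :
    Strip.EvLim (Q.map rc) := by
  intro B F hF ε hε
  have hF' : ∀ φ ψ : Pt → ℤ, (∀ x ∈ insert 0 B, ∀ y ∈ insert 0 B, φ x - φ y = ψ x - ψ y) →
      F φ = F ψ := fun φ ψ h => hF φ ψ fun x hx y hy =>
    h x (Finset.mem_insert_of_mem hx) y (Finset.mem_insert_of_mem hy)
  have h0 : (0 : Pt) ∈ insert 0 B := Finset.mem_insert_self _ _
  have h1 : Tendsto (fun Λ : Finset Pt => Vale.Agent.P153.ev (Fv.reg Λ) F)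
      (atTop ⊓ 𝓟 {D : Finset Pt | Cc D}) (𝓝 (∫ φ, F φ ∂(Q.map rc))) := by
    rw [integral_expand hrc hsym hQ h0 hF']
    simp_rw [ev_expand h0 hF']
    exact tendsto_finsetSum _ fun a _ => (hloc Q hQ _ a).const_mul _
  have h2 := (Metric.tendsto_nhds.1 h1) ε hε
  rw [eventually_inf_principal, eventually_atTop] at h2
  obtain ⟨D0, hD0⟩ := h2
  obtain ⟨n, -, hn⟩ := hcc.2.2 D0
  refine ⟨n, fun N hN K hK K' hK' => ?_⟩
  have h3 := hD0 _ (hn N K K' hN hK hK') (hcc.2.1 N K K')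
  rw [Real.dist_eq] at h3
  exact h3.le

/-- **Block A.** -/
theorem exists_plane (h7 : S_mu) (h8 : S_muInv) (h9 : S_muMix) (h10 : S_muFlip) (h11 : S_bk)
    (h12 : S_far) (h15 : S_q) (h18 : S_sym) (h19 : S_rc) (h21 : S_loc) (h22 : S_cc) (h24 : S_rp)
    (h25 : S_gibbs) (h26 : S_mixP) :
    ∃ P : Measure (Pt → ℤ), GFF.Plane P ∧ Strip.EvLim P := by
  obtain ⟨μ, hμ⟩ := h7
  have h1 := h11 μ hμ.prob (h8 μ hμ) (h9 μ hμ) (h10 μ hμ)
  obtain ⟨Q, hQ, hF⟩ := h15 ⟨μ, hμ, h12 μ hμ.prob h1⟩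
  exact ⟨Q.map rc, plane_of h19 h18 h21 h22 h24 h25 h26 hQ hF, evLim_of h19 h18 h21 h22 hQ⟩

end Vale.Agent.P153.A
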