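import Vale.Agent.P153.A.E1

/-!
P153, block A3, step (5): product structure of separated domains.
-/

namespace Vale.Agent.P153.A

open Vale.Agent.P153.GFF (Adj)
open Vale.Agent.P153.Topo (adj_symm)

namespace Pro

/-- Restriction to `D`. -/
def res (D : Finset Pt) (ω : Om) : Om := fun x => if x ∈ D then ω x else (true, false)

/-- Gluing of two configurations. -/
def glue (D : Finset Pt) (p : Om × Om) : Om := fun x => if x ∈ D then p.1 x else p.2 x

theorem off {D : Finset Pt} {ω : Om} (h : ω ∈ Cf D) {x : Pt} (hx : x ∉ D) :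
    ω x = (true, false) :=
  Prod.ext (h.2.1 x fun h' => hx h'.1) (h.2.2 x hx)

/-- The domains are separated. -/
def Sep (D D' : Finset Pt) : Prop := ∀ x ∈ D, ∀ y ∈ D', x ≠ y ∧ ¬ Adj x y

theorem Sep.symm {D D' : Finset Pt} (h : Sep D D') : Sep D' D := fun x hx y hy =>
  ⟨fun e => (h y hy x hx).1 e.symm, fun e => (h y hy x hx).2 (adj_symm e)⟩

theorem res_mem {D D' : Finset Pt} (h : Sep D D') {ω : Om} (hω : ω ∈ Cf (D ∪ D')) :
    res D ω ∈ Cf D := by
  have key : ∀ x ∈ D, ∀ y, y ∉ D → Adj x y → ω y = (true, false) := fun x hx y hy hxy =>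
    off hω fun hy' => by
      rcases Finset.mem_union.1 hy' with h1 | h1
      · exact hy h1
      · exact (h x hx y h1).2 hxy
  refine ⟨fun x y hxy => ?_, fun x hx => ?_, fun x hx => ?_⟩
  · by_cases hx : x ∈ D <;> by_cases hy : y ∈ D
    · simpa only [res, if_pos hx, if_pos hy] using hω.1 x y hxy
    · have e := key x hx y hy hxy
      have := hω.1 x y hxy
      rw [e] at this
      simpa only [res, if_pos hx, if_neg hy] using this
    · have e := key y hy x hx (adj_symm hxy)
      have := hω.1 x y hxy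
      rw [e] at this
      simpa only [res, if_neg hx, if_pos hy] using this
    · left
      simp only [res, if_neg hx, if_neg hy]
  · by_cases hxD : x ∈ D
    · simp only [res, if_pos hxD]
      refine hω.2.1 x fun hx' => hx ⟨hxD, fun w hw => ?_⟩
      rcases Finset.mem_union.1 (hx'.2 w hw) with h1 | h1
      · exact h1
      · exact absurd hw (h x hxD w h1).2
    · simp only [res, if_neg hxD]
  · simp only [res, if_neg hx]

theorem glue_mem {D D' : Finset Pt} (h : Sep D D') {p : Om × Om} (h1 : p.1 ∈ Cf D)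
    (h2 : p.2 ∈ Cf D') : glue D p ∈ Cf (D ∪ D') := by
  refine ⟨fun x y hxy => ?_, fun x hx => ?_, fun x hx => ?_⟩
  · by_cases hx : x ∈ D <;> by_cases hy : y ∈ D
    · simpa only [glue, if_pos hx, if_pos hy] using h1.1 x y hxy
    · simp only [glue, if_pos hx, if_neg hy]
      rw [off h2 (fun hy' => (h x hx y hy').2 hxy), ← off h1 hy]
      exact h1.1 x y hxy
    · simp only [glue, if_neg hx, if_pos hy]
      rw [off h2 (fun hx' => (h y hy x hx').2 (adj_symm hxy)), ← off h1 hx]
      exact h1.1 x y hxy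
    · simpa only [glue, if_neg hx, if_neg hy] using h2.1 x y hxy
  · by_cases hxD : x ∈ D
    · simp only [glue, if_pos hxD]
      exact h1.2.1 x fun hx' => hx ⟨Finset.mem_union_left _ hx'.1,
        fun w hw => Finset.mem_union_left _ (hx'.2 w hw)⟩
    · simp only [glue, if_neg hxD]
      exact h2.2.1 x fun hx' => hx ⟨Finset.mem_union_right _ hx'.1,
        fun w hw => Finset.mem_union_right _ (hx'.2 w hw)⟩
  · rw [Finset.mem_union, not_or] at hx
    simp only [glue, if_neg hx.1]
    exact h2.2.2 x hx.2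

theorem res_glue {D : Finset Pt} {p : Om × Om} (h1 : p.1 ∈ Cf D) :
    res D (glue D p) = p.1 := by
  funext x
  by_cases hx : x ∈ D
  · simp only [res, glue, if_pos hx]
  · simp only [res, if_neg hx]
    exact (off h1 hx).symm

theorem res_glue' {D D' : Finset Pt} (h : Sep D D') {p : Om × Om} (h2 : p.2 ∈ Cf D') :
    res D' (glue D p) = p.2 := by
  funext x
  by_cases hx : x ∈ D'
  · have hx' : x ∉ D := fun hx' => (h x hx' x hx).1 rfl
    simp only [res, glue, if_pos hx, if_neg hx']
  · simp only [res, if_neg hx]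
    exact (off h2 hx).symm

theorem glue_res {D D' : Finset Pt} {ω : Om} (hω : ω ∈ Cf (D ∪ D')) :
    glue D (res D ω, res D' ω) = ω := by
  funext x
  by_cases hx : x ∈ D
  · simp only [res, glue, if_pos hx]
  · by_cases hx' : x ∈ D'
    · simp only [res, glue, if_neg hx, if_pos hx']
    · simp only [res, glue, if_neg hx, if_neg hx']
      exact (off hω (by simp [hx, hx'])).symm

theorem sum_union {D D' : Finset Pt} (h : Sep D D') (F : Om → ℝ) (u v : Om → ℝ)
    (hF : ∀ p : Om × Om, p.1 ∈ Cf D → p.2 ∈ Cf D' → F (glue D p) = u p.1 * v p.2) :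
    ∑ᶠ ω ∈ Cf (D ∪ D'), F ω = (∑ᶠ ω ∈ Cf D, u ω) * ∑ᶠ ω ∈ Cf D', v ω := by
  classical
  rw [finsum_mem_eq_finite_toFinset_sum _ (E1f.cf_finite (D ∪ D')),
    finsum_mem_eq_finite_toFinset_sum _ (E1f.cf_finite D),
    finsum_mem_eq_finite_toFinset_sum _ (E1f.cf_finite D'), Finset.sum_mul_sum,
    ← Finset.sum_product']
  symm
  refine Finset.sum_nbij' (fun p => glue D p) (fun ω => (res D ω, res D' ω)) ?_ ?_ ?_ ?_ ?_
  · intro p hp
    rw [Finset.mem_product, Set.Finite.mem_toFinset, Set.Finite.mem_toFinset] at hp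
    rw [Set.Finite.mem_toFinset]
    exact glue_mem h hp.1 hp.2
  · intro ω hω
    rw [Set.Finite.mem_toFinset] at hω
    rw [Finset.mem_product, Set.Finite.mem_toFinset, Set.Finite.mem_toFinset]
    exact ⟨res_mem h hω, res_mem h.symm (by rwa [Finset.union_comm])⟩
  · intro p hp
    rw [Finset.mem_product, Set.Finite.mem_toFinset, Set.Finite.mem_toFinset] at hp
    exact Prod.ext (res_glue hp.1) (res_glue' h hp.2)
  · intro ω hω
    rw [Set.Finite.mem_toFinset] at hω
    exact glue_res hω
  · intro p hp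
    rw [Finset.mem_product, Set.Finite.mem_toFinset, Set.Finite.mem_toFinset] at hp
    exact (hF p hp.1 hp.2).symm

theorem sum_one (D : Finset Pt) : ∑ᶠ ω ∈ Cf D, (1 : ℝ) = ((Cf D).ncard : ℝ) := by
  rw [finsum_mem_eq_finite_toFinset_sum _ (E1f.cf_finite D), Finset.sum_const, nsmul_eq_mul,
    mul_one, ← Set.ncard_eq_toFinset_card _ (E1f.cf_finite D)]

end Pro

theorem s_prod : S_prod := by
  intro D D' h f g hf hg
  have h1 := Pro.sum_union (D := D) (D' := D') h (fun ω => f (tau ω) * g (tau ω))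
    (fun ω => f (tau ω)) (fun ω => g (tau ω)) (by
      intro p h1 h2
      have e1 : f (tau (Pro.glue D p)) = f (tau p.1) := hf _ _ fun x hx => by
        simp only [tau, Pro.glue, if_pos hx]
      have e2 : g (tau (Pro.glue D p)) = g (tau p.2) := hg _ _ fun x hx => by
        have hx' : x ∉ D := fun hx' => (h x hx' x hx).1 rfl
        simp only [tau, Pro.glue, if_neg hx']
      show f (tau (Pro.glue D p)) * g (tau (Pro.glue D p)) = _
      rw [e1, e2])
  have h2 := Pro.sum_union (D := D) (D' := D') h (fun _ => 1) (fun _ => 1) (fun _ => 1)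
    (by intro p _ _; simp)
  rw [Pro.sum_one, Pro.sum_one, Pro.sum_one] at h2
  show E2 (D ∪ D') (fun ω => f (tau ω) * g (tau ω)) =
    E2 D (fun ω => f (tau ω)) * E2 D' fun ω => g (tau ω)
  unfold E2
  rw [h1, h2, div_mul_div_comm]

end Vale.Agent.P153.A
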