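import Vale.Agent.P153.A.Stmt
import Vale.Agent.P153.Topo.Cob

/-!
P153, block A3, step (19): heights and pairs.
-/

namespace Vale.Agent.P153.A

open MeasureTheory
open Vale.Agent.P153.GFF (Adj)
open Vale.Agent.P153 (Step)

theorem rc_adj_step {x y : ℤ × ℤ} : Adj x y ↔ Step x y := by
  obtain ⟨a, b⟩ := x
  obtain ⟨c, d⟩ := y
  simp only [Adj, Step, Set.mem_insert_iff, Set.mem_singleton_iff, Prod.mk.injEq]
  omega

/-! ### finite facts -/

theorem rc_inc_anti (p q : Bool × Bool) : inc p q = - inc q p := by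
  revert p q; decide

theorem rc_inc_mod (p q : Bool × Bool) (h : p.1 = q.1 ∨ p.2 = q.2) :
    (4 : ℤ) ∣ inc p q - (cd q - cd p) := by
  revert p q; decide

theorem rc_inc_tri (p q r : Bool × Bool) (h1 : p.1 = q.1 ∨ p.2 = q.2)
    (h2 : q.1 = r.1 ∨ q.2 = r.2) (h3 : r.1 = p.1 ∨ r.2 = p.2) :
    inc p q + inc q r + inc r p = 0 := by
  revert p q r; decide

theorem rc_inc_neg (p q : Bool × Bool) :
    inc (p.1, !p.2) (q.1, !q.2) = - inc p q := by
  revert p q; decide

theorem rc_cd_enc (a : ℤ) : cd (enc a) = a % 4 := by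
  have ha : a % 4 = 0 ∨ a % 4 = 1 ∨ a % 4 = 2 ∨ a % 4 = 3 := by omega
  unfold cd enc
  rcases ha with ha | ha | ha | ha <;> rw [ha] <;> decide

theorem rc_inc_enc {a b : ℤ} (h : |a - b| ≤ 1) : inc (enc a) (enc b) = b - a := by
  have h1 := abs_le.1 h
  unfold inc
  rw [rc_cd_enc, rc_cd_enc]
  split_ifs <;> omega

/-! ### signed sums -/

theorem rc_Sm_zero (f : ℤ → ℤ) : Sm f 0 = 0 := by simp [Sm]

theorem rc_Sm_succ (f : ℤ → ℤ) (i : ℤ) : Sm f (i + 1) = Sm f i + f i := by
  unfold Sm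
  rcases le_or_gt 0 i with h | h
  · have e1 : Finset.Ico 0 (i + 1) = insert i (Finset.Ico 0 i) := by
      ext k; simp only [Finset.mem_Ico, Finset.mem_insert]; omega
    have e2 : Finset.Ico (i + 1) 0 = ∅ := Finset.Ico_eq_empty (by omega)
    have e3 : Finset.Ico i 0 = ∅ := Finset.Ico_eq_empty (by omega)
    simp only [e1, e2, e3, Finset.sum_empty]
    rw [Finset.sum_insert (by simp)]
    ring
  · have e1 : Finset.Ico i 0 = insert i (Finset.Ico (i + 1) 0) := by
      ext k; simp only [Finset.mem_Ico, Finset.mem_insert]; omega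
    have e2 : Finset.Ico 0 (i + 1) = ∅ := Finset.Ico_eq_empty (by omega)
    have e3 : Finset.Ico 0 i = ∅ := Finset.Ico_eq_empty (by omega)
    simp only [e1, e2, e3, Finset.sum_empty]
    rw [Finset.sum_insert (by simp)]
    ring

/-- A function with given increments is the signed sum. -/
theorem rc_Sm_eq {f F : ℤ → ℤ} (h0 : F 0 = 0) (h : ∀ i, F (i + 1) = F i + f i) (n : ℤ) :
    Sm f n = F n := by
  have key : ∀ j, F j - Sm f j = 0 := by
    intro j
    have hs : ∀ j, F (j + 1) - Sm f (j + 1) = F j - Sm f j := by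
      intro j; rw [h, rc_Sm_succ]; ring
    induction j using Int.induction_on with
    | zero => rw [h0, rc_Sm_zero, sub_zero]
    | succ n ih => rw [hs, ih]
    | pred n ih =>
      have := hs (-(n : ℤ) - 1)
      rw [sub_add_cancel] at this
      rw [← this, ih]
  have := key n
  omega

theorem rc_Sm_tele (F : ℤ → ℤ) (n : ℤ) : Sm (fun k => F (k + 1) - F k) n = F n - F 0 :=
  rc_Sm_eq (F := fun n => F n - F 0) (by simp) (fun i => by ring) n

theorem rc_Sm_neg (f : ℤ → ℤ) (n : ℤ) : Sm (fun k => - f k) n = - Sm f n :=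
  rc_Sm_eq (F := fun n => - Sm f n) (by simp [rc_Sm_zero]) (fun i => by rw [rc_Sm_succ]; ring) n

theorem rc_Sm_dvd {f g : ℤ → ℤ} {a : ℤ} (h : ∀ k, a ∣ f k - g k) (n : ℤ) :
    a ∣ Sm f n - Sm g n := by
  have e : Sm f n - Sm g n = Sm (fun k => f k - g k) n := by
    symm
    exact rc_Sm_eq (F := fun n => Sm f n - Sm g n) (by simp [rc_Sm_zero])
      (fun i => by rw [rc_Sm_succ, rc_Sm_succ]; ring) n
  rw [e]
  exact dvd_sub (Finset.dvd_sum fun k _ => h k) (Finset.dvd_sum fun k _ => h k)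

theorem rc_Sm_congr {f g : ℤ → ℤ} {n : ℤ} (h : ∀ k, |k| ≤ |n| → f k = g k) : Sm f n = Sm g n := by
  unfold Sm
  congr 1
  · refine Finset.sum_congr rfl fun k hk => h k ?_
    rw [Finset.mem_Ico] at hk
    rw [abs_of_nonneg hk.1, abs_of_nonneg (by omega)]
    omega
  · refine Finset.sum_congr rfl fun k hk => h k ?_
    rw [Finset.mem_Ico] at hk
    rw [abs_of_neg hk.2, abs_of_neg (by omega)]
    omega

/-! ### the height function -/

theorem rc_eq_of_pot {ω : Om} {U : Pt → ℤ}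
    (h : ∀ x y, Step x y → inc (ω x) (ω y) = U y - U x) (x : Pt) : rc ω x = U x - U 0 := by
  have h1 : ∀ i j : ℤ, inc (ω (i, j)) (ω (i + 1, j)) = U (i + 1, j) - U (i, j) := fun i j =>
    h _ _ (by unfold Step; dsimp only; omega)
  have h2 : ∀ i j : ℤ, inc (ω (i, j)) (ω (i, j + 1)) = U (i, j + 1) - U (i, j) := fun i j =>
    h _ _ (by unfold Step; dsimp only; omega)
  unfold rc
  simp only [h1, h2]
  rw [rc_Sm_tele (fun k => U (k, 0)), rc_Sm_tele (fun k => U (x.1, k))]
  have e : U 0 = U (0, 0) := rfl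
  rw [e]
  ring

theorem rc_exists_pot {ω : Om} (h : Comp ω) :
    ∃ U : Pt → ℤ, ∀ x y, Step x y → inc (ω x) (ω y) = U y - U x := by
  refine Topo.exists_pot (fun x y => inc (ω x) (ω y)) (fun x y _ => rc_inc_anti _ _) ?_
  intro x y z hxy hyz hzx
  exact rc_inc_tri _ _ _ (h _ _ (rc_adj_step.2 hxy)) (h _ _ (rc_adj_step.2 hyz))
    (h _ _ (rc_adj_step.2 hzx))

theorem rc_comp_enc {φ : Pt → ℤ} (h : ∀ x y, Adj x y → |φ x - φ y| ≤ 1) :
    Comp fun x => enc (φ x) := by
  intro x y hxy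
  have h1 := abs_le.1 (h x y hxy)
  by_contra hcon
  push Not at hcon
  obtain ⟨h2, h3⟩ := hcon
  simp only [enc, ne_eq, decide_eq_decide] at h2 h3
  omega

/-- (19) -/
theorem s_rc : S_rc := by
  refine ⟨?_, ?_, ?_, ?_, ?_, ?_, ?_⟩
  · intro ω h x y hxy
    obtain ⟨U, hU⟩ := rc_exists_pot h
    rw [rc_eq_of_pot hU, rc_eq_of_pot hU, hU x y (rc_adj_step.1 hxy)]
    ring
  · intro ω h x
    refine Int.emod_eq_zero_of_dvd ?_
    have h1 : (4 : ℤ) ∣ Sm (fun k => inc (ω (k, 0)) (ω (k + 1, 0))) x.1 -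
        Sm (fun k => cd (ω (k + 1, 0)) - cd (ω (k, 0))) x.1 :=
      rc_Sm_dvd (fun k => rc_inc_mod _ _ (h _ _ (rc_adj_step.2
        (by unfold Step; dsimp only; omega)))) _
    have h2 : (4 : ℤ) ∣ Sm (fun k => inc (ω (x.1, k)) (ω (x.1, k + 1))) x.2 -
        Sm (fun k => cd (ω (x.1, k + 1)) - cd (ω (x.1, k))) x.2 :=
      rc_Sm_dvd (fun k => rc_inc_mod _ _ (h _ _ (rc_adj_step.2
        (by unfold Step; dsimp only; omega)))) _
    rw [rc_Sm_tele (fun k => cd (ω (k, 0)))] at h1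
    rw [rc_Sm_tele (fun k => cd (ω (x.1, k)))] at h2
    have h3 := dvd_add h1 h2
    have e : rc ω x + cd (ω 0) - cd (ω x) =
        Sm (fun k => inc (ω (k, 0)) (ω (k + 1, 0))) x.1 - (cd (ω (x.1, 0)) - cd (ω (0, 0))) +
        (Sm (fun k => inc (ω (x.1, k)) (ω (x.1, k + 1))) x.2 -
          (cd (ω (x.1, x.2)) - cd (ω (x.1, 0)))) := by
      have e0 : ω 0 = ω (0, 0) := rfl
      have e1 : ω x = ω (x.1, x.2) := rfl
      unfold rc
      rw [e0, e1]
      ring
    rw [e]
    exact h3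
  · intro φ h
    refine ⟨rc_comp_enc h, fun x => ?_⟩
    exact rc_eq_of_pot (fun x y hxy => rc_inc_enc (h x y (rc_adj_step.2 hxy))) x
  · intro ω x
    unfold rc
    have e1 : (fun k : ℤ => inc (neg ω (k, 0)) (neg ω (k + 1, 0))) =
        fun k => - inc (ω (k, 0)) (ω (k + 1, 0)) := by
      funext k; exact rc_inc_neg _ _
    have e2 : (fun k : ℤ => inc (neg ω (x.1, k)) (neg ω (x.1, k + 1))) =
        fun k => - inc (ω (x.1, k)) (ω (x.1, k + 1)) := by
      funext k; exact rc_inc_neg _ _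
    rw [e1, e2, rc_Sm_neg, rc_Sm_neg]
    ring
  · intro ω h z x
    obtain ⟨U, hU⟩ := rc_exists_pot h
    have hU' : ∀ x y, Step x y → inc (tr z ω x) (tr z ω y) = U (y + z) - U (x + z) := by
      intro x y hxy
      refine hU _ _ ?_
      unfold Step at hxy ⊢
      simp only [Prod.fst_add, Prod.snd_add]
      omega
    rw [rc_eq_of_pot (U := fun x => U (x + z)) hU', rc_eq_of_pot hU, rc_eq_of_pot hU]
    simp only [zero_add]
    ring
  · rw [measurable_pi_iff]
    intro x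
    have key : ∀ a b : Pt, Measurable fun ω : Om => inc (ω a) (ω b) := by
      intro a b
      have h1 : Measurable fun ω : Om => (ω a, ω b) :=
        (measurable_pi_apply a).prodMk (measurable_pi_apply b)
      have h2 : Measurable fun p : (Bool × Bool) × (Bool × Bool) => inc p.1 p.2 :=
        measurable_of_countable _
      exact h2.comp h1
    unfold rc Sm
    refine ((Finset.measurable_sum _ fun k _ => key _ _).sub
      (Finset.measurable_sum _ fun k _ => key _ _)).add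
      ((Finset.measurable_sum _ fun k _ => key _ _).sub
      (Finset.measurable_sum _ fun k _ => key _ _))
  · intro B
    refine ⟨B.biUnion fun x => (Finset.Icc (-|x.1|) (|x.1| + 1)).image (fun k => (k, 0)) ∪
      (Finset.Icc (-|x.2|) (|x.2| + 1)).image (fun k => (x.1, k)), ?_⟩
    intro ω ω' h x hx
    have h1 : ∀ k : ℤ, -|x.1| ≤ k → k ≤ |x.1| + 1 → ω (k, 0) = ω' (k, 0) := by
      intro k hk hk'
      refine h _ (Finset.mem_biUnion.2 ⟨x, hx, Finset.mem_union_left _
        (Finset.mem_image.2 ⟨k, Finset.mem_Icc.2 ⟨hk, hk'⟩, rfl⟩)⟩)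
    have h2 : ∀ k : ℤ, -|x.2| ≤ k → k ≤ |x.2| + 1 → ω (x.1, k) = ω' (x.1, k) := by
      intro k hk hk'
      refine h _ (Finset.mem_biUnion.2 ⟨x, hx, Finset.mem_union_right _
        (Finset.mem_image.2 ⟨k, Finset.mem_Icc.2 ⟨hk, hk'⟩, rfl⟩)⟩)
    unfold rc
    congr 1
    · refine rc_Sm_congr fun k hk => ?_
      have := abs_le.1 hk
      rw [h1 k (by omega) (by omega), h1 (k + 1) (by omega) (by omega)]
    · refine rc_Sm_congr fun k hk => ?_
      have := abs_le.1 hk
      rw [h2 k (by omega) (by omega), h2 (k + 1) (by omega) (by omega)]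

end Vale.Agent.P153.A
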