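import Vale.Agent.P153.A.Stmt

/-!
P153, block A3, step (24): reflection positivity of the limit measure (S_rp).
Owner: helper442.
-/

namespace Vale.Agent.P153.A

open MeasureTheory Filter Topology
open Vale.Agent.P153.GFF (Adj Ht Pat LocLim hexa)

namespace Rp

/-- The upper half of the box. -/
noncomputable def ub (n : ℕ) : Finset Pt := (bx n).filter fun x => 0 ≤ x.2

lemma mem_ub {n : ℕ} {x : Pt} :
    x ∈ ub n ↔ ((-(n : ℤ) ≤ x.1 ∧ x.1 ≤ n) ∧ -(n : ℤ) ≤ x.2 ∧ x.2 ≤ n) ∧ 0 ≤ x.2 := by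
  simp [ub, bx, Finset.mem_filter, Finset.mem_product, Finset.mem_Icc]

lemma ub_mono : Monotone ub := by
  intro n m h x hx
  rw [mem_ub] at hx ⊢
  have : (n : ℤ) ≤ m := by exact_mod_cast h
  omega

/-- The filtration of the upper half boxes. -/
noncomputable def fil : Filtration ℕ (inferInstance : MeasurableSpace (Pt → ℤ)) where
  seq n := Filtration.piFinset (X := fun _ : Pt => ℤ) (ub n)
  mono' := fun _ _ h => Filtration.piFinset.mono (ub_mono h)
  le' n := Filtration.piFinset.le (ub n)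

lemma coord_meas {n : ℕ} {x : Pt} (hx : x ∈ ub n) :
    Measurable[fil n] fun φ : Pt → ℤ => φ x := by
  have h1 : Measurable[fil n] ((ub n).restrict : (Pt → ℤ) → (ub n → ℤ)) :=
    comap_measurable _
  exact (measurable_pi_apply (⟨x, hx⟩ : ub n)).comp h1

lemma sup_meas (F : (Pt → ℤ) → ℝ) (hF : Measurable F)
    (hdep : ∀ φ ψ, (∀ x : Pt, 0 ≤ x.2 → φ x = ψ x) → F φ = F ψ) :
    StronglyMeasurable[⨆ n, fil n] F := by
  classical
  have h1 : Measurable[⨆ n, fil n] fun (φ : Pt → ℤ) (x : Pt) => if 0 ≤ x.2 then φ x else 0 := by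
    refine @measurable_pi_lambda (Pt → ℤ) Pt (fun _ => ℤ) (⨆ n, fil n) _ _ fun x => ?_
    by_cases hx : 0 ≤ x.2
    · simp only [hx, if_true]
      have hm : x ∈ ub (x.1.natAbs + x.2.natAbs) := by
        rw [mem_ub]; omega
      exact (coord_meas hm).mono (le_iSup (fun n => (fil n : MeasurableSpace (Pt → ℤ))) _) le_rfl
    · simp only [hx, if_false]
      exact measurable_const
  have h2 : F = fun φ => F fun x => if 0 ≤ x.2 then φ x else 0 := by
    funext φ
    refine hdep _ _ fun x hx => ?_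
    simp [hx]
  have h3 : Measurable[⨆ n, fil n] F := by
    rw [h2]
    exact hF.comp h1
  exact h3.stronglyMeasurable

lemma approx (ν : Measure (Pt → ℤ)) [IsFiniteMeasure ν] (F : (Pt → ℤ) → ℝ) (hF : Measurable F)
    {M : ℝ} (hM : ∀ φ, |F φ| ≤ M)
    (hdep : ∀ φ ψ, (∀ x : Pt, 0 ≤ x.2 → φ x = ψ x) → F φ = F ψ) :
    ∃ G : ℕ → (Pt → ℤ) → ℝ, (∀ n, Measurable (G n)) ∧ (∀ n φ, |G n φ| ≤ M) ∧
      (∀ n φ ψ, (∀ x ∈ ub n, φ x = ψ x) → G n φ = G n ψ) ∧
      ∀ᵐ φ ∂ν, Tendsto (fun n => G n φ) atTop (𝓝 (F φ)) := by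
  have hM0 : 0 ≤ M := (abs_nonneg _).trans (hM 0)
  have hint : Integrable F ν :=
    Integrable.mono' (integrable_const M) hF.aestronglyMeasurable
      (Eventually.of_forall fun φ => hM φ)
  have hfm : ∀ n, StronglyMeasurable[fil n] fun φ => max (-M) (min M ((ν[F | fil n]) φ)) := by
    intro n
    have h0 : StronglyMeasurable[fil n] (ν[F | fil n]) := stronglyMeasurable_condExp
    exact (by fun_prop : Continuous fun t : ℝ => max (-M) (min M t)).comp_stronglyMeasurable h0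
  refine ⟨fun n φ => max (-M) (min M ((ν[F | fil n]) φ)), fun n => ?_, fun n φ => ?_,
    fun n φ ψ h => ?_, ?_⟩
  · exact ((hfm n).mono (fil.le n)).measurable
  · rw [abs_le]
    exact ⟨le_max_left _ _, max_le (by linarith) (min_le_left _ _)⟩
  · exact (hfm n).dependsOn_of_piFinset (s := ub n) fun x hx => h x hx
  · filter_upwards [hint.tendsto_ae_condExp (sup_meas F hF hdep)] with φ hφ
    have h1 : Tendsto (fun n => max (-M) (min M ((ν[F | fil n]) φ))) atTop
        (𝓝 (max (-M) (min M (F φ)))) :=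
      tendsto_const_nhds.max (tendsto_const_nhds.min hφ)
    have h2 := abs_le.1 (hM φ)
    rwa [min_eq_right h2.2, max_eq_right h2.1] at h1

lemma th_meas : Measurable fun (φ : Pt → ℤ) (x : Pt) => φ (GFF.th x) := by fun_prop

/-- Local functions. -/
lemma local_rp (hrc : S_rc) (hbij : S_bij) (hcc : S_cc) (hrp0 : S_rp0) {Q : Measure Om}
    (hQ : IsQ Q) (B : Finset Pt) (hB : ∀ x ∈ B, 0 ≤ x.2) (F : (Pt → ℤ) → ℝ) (hF : Measurable F)
    (hloc : ∀ φ ψ, (∀ x ∈ B, φ x = ψ x) → F φ = F ψ) :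
    0 ≤ ∫ φ, F φ * F (fun x => φ (GFF.th x)) ∂(Q.map rc) := by
  classical
  obtain ⟨-, -, hφ, -, -, hmeas, hl⟩ := hrc
  obtain ⟨B', hB'⟩ := hl (B ∪ B.image GFF.th)
  have hm : Measurable fun φ : Pt → ℤ => F φ * F (fun x => φ (GFF.th x)) :=
    hF.mul (hF.comp th_meas)
  rw [integral_map hmeas.aemeasurable hm.aestronglyMeasurable]
  have hL : Loc B' fun ω : Om => F (rc ω) * F (fun x => rc ω (GFF.th x)) := by
    intro ω ω' h
    have h1 := hB' ω ω' h
    have h2 : F (rc ω) = F (rc ω') :=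
      hloc _ _ fun x hx => h1 x (Finset.mem_union_left _ hx)
    have h3 : F (fun x => rc ω (GFF.th x)) = F (fun x => rc ω' (GFF.th x)) :=
      hloc _ _ fun x hx => h1 _ (Finset.mem_union_right _ (Finset.mem_image_of_mem _ hx))
    simp only [h2, h3]
  have hlim := hQ.lim B' _ hL
  have hex : Tendsto hexa atTop atTop := by
    rw [tendsto_atTop]
    intro S
    obtain ⟨n, hn, -⟩ := hcc.2.2 S
    filter_upwards [eventually_ge_atTop n] with m hm
    exact hn m hm
  refine ge_of_tendsto (hlim.comp hex) (Eventually.of_forall fun n => ?_)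
  show 0 ≤ E2 (hexa n) _
  unfold E2
  refine div_nonneg ?_ (Nat.cast_nonneg _)
  have h4 := hrp0 n F fun φ ψ h => hloc φ ψ fun x hx => h x (hB x hx)
  refine h4.trans_eq ?_
  refine finsum_mem_eq_of_bijOn _ (hbij (hexa n) (hcc.1 n)) fun φ hφ' => ?_
  have h5 := (hφ φ fun x y hxy => hφ'.2 x y hxy).2
  have h6 : rc (fun x => enc (φ x)) = fun x => φ x - φ 0 := funext h5
  simp only [h6]

end Rp

open Rp in
/-- (24) -/
theorem s_rp (hrc : S_rc) (hbij : S_bij) (hcc : S_cc) (hrp0 : S_rp0) : S_rp := by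
  intro Q hQ F hF hb hdep
  obtain ⟨M, hM⟩ := hb
  have hQp := hQ.prob
  have hmeas : Measurable rc := hrc.2.2.2.2.2.1
  have hP : IsProbabilityMeasure (Q.map rc) := Measure.isProbabilityMeasure_map hmeas.aemeasurable
  set P := Q.map rc with hPdef
  set θ : (Pt → ℤ) → (Pt → ℤ) := fun φ x => φ (GFF.th x) with hθ
  have hθm : Measurable θ := th_meas
  have hP' : IsProbabilityMeasure (P.map θ) := Measure.isProbabilityMeasure_map hθm.aemeasurable
  obtain ⟨G, hGm, hGb, hGl, hGt⟩ := approx (P + P.map θ) F hF hM hdep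
  rw [ae_add_measure_iff] at hGt
  obtain ⟨ht1, ht2⟩ := hGt
  have ht2' : ∀ᵐ φ ∂P, Tendsto (fun n => G n (θ φ)) atTop (𝓝 (F (θ φ))) :=
    ae_of_ae_map hθm.aemeasurable ht2
  have hpos : ∀ n, 0 ≤ ∫ φ, G n φ * G n (θ φ) ∂P := fun n =>
    local_rp hrc hbij hcc hrp0 hQ (ub n) (fun x hx => (mem_ub.1 hx).2) (G n) (hGm n) (hGl n)
  have hlim : Tendsto (fun n => ∫ φ, G n φ * G n (θ φ) ∂P) atTop (𝓝 (∫ φ, F φ * F (θ φ) ∂P)) := by
    refine tendsto_integral_of_dominated_convergence (fun _ => M * M) ?_ (integrable_const _) ?_ ?_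
    · exact fun n => ((hGm n).mul ((hGm n).comp hθm)).aestronglyMeasurable
    · refine fun n => Eventually.of_forall fun φ => ?_
      rw [Real.norm_eq_abs, abs_mul]
      exact mul_le_mul (hGb n φ) (hGb n _) (abs_nonneg _) ((abs_nonneg _).trans (hGb n φ))
    · filter_upwards [ht1, ht2'] with φ h1 h2
      exact h1.mul h2
  exact ge_of_tendsto' hlim hpos

end Vale.Agent.P153.A
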