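import Vale.Agent.P153.A.Stmt

/-!
P153, block A3, step (23): finite volume reflection positivity (S_rp0).
-/

namespace Vale.Agent.P153.A

namespace Rp0

open Vale.Agent.P153.GFF (Ht hexa)

lemma ht_eq (D : Finset (ℤ × ℤ)) : Ht D = (Fv.reg D : Set (ℤ × ℤ → ℤ)) := by
  ext h
  rw [Finset.mem_coe, Fv.mem_reg]
  constructor
  · rintro ⟨h1, h2⟩
    refine ⟨fun v hv => (h1 v).1 hv, fun v hv hv' => ?_, h2⟩
    refine (h1 v).2 ?_
    by_contra hcon
    push Not at hcon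
    exact hv' ⟨hv, fun w hw => hcon w hw⟩
  · rintro ⟨h1, h2, h3⟩
    refine ⟨fun v => ⟨h1 v, ?_⟩, h3⟩
    rintro ⟨w, hw, hw'⟩
    by_cases hv : v ∈ D
    · exact h2 v hv fun h => hw' (h.2 w hw)
    · exact Or.inl (h1 v hv)

lemma hexa_eq (n : ℕ) : hexa n = Fv.hex n := rfl

end Rp0

open Rp0 in
theorem s_rp0 : S_rp0 := by
  intro n F hF
  rw [ht_eq, finsum_mem_coe_finset, hexa_eq]
  have hdep : Fv.Dep (Fv.up 0) (fun φ : ℤ × ℤ → ℤ => F (fun x => φ x - φ 0)) := by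
    intro h g hhg
    refine hF _ _ fun x hx => ?_
    have h0 : h 0 = g 0 := hhg 0 (by simp [Fv.up])
    have hx' : h x = g x := hhg x hx
    rw [h0, hx']
  have h1 := Fv.reg_rp (Fv.hex_sym n) hdep
  have hcard : (0 : ℝ) < ((Fv.reg (Fv.hex n)).card : ℝ) := by
    exact_mod_cast Finset.card_pos.2 (Fv.reg_nonempty (Fv.hex n))
  have h2 : ∀ φ : ℤ × ℤ → ℤ, (fun x => (φ ∘ Fv.th 0) x - (φ ∘ Fv.th 0) 0) =
      fun x => φ (GFF.th x) - φ 0 := by
    intro φ
    funext x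
    have e1 : Fv.th 0 x = GFF.th x := by
      unfold Fv.th GFF.th
      ext <;> simp
    have e2 : Fv.th 0 (0 : ℤ × ℤ) = 0 := by
      unfold Fv.th
      ext <;> simp
    simp only [Function.comp_apply, e1, e2]
  simp only [h2] at h1
  unfold ev at h1
  rw [le_div_iff₀ hcard, zero_mul] at h1
  exact h1

end Vale.Agent.P153.A
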