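import Vale.Agent.P153.A.Defs

/-!
P153, block A3: statements of the steps. Each `S_x` is proved as `theorem s_x : S_x` in its own
file (hypotheses: earlier steps, if any, as arguments).
-/

namespace Vale.Agent.P153.A

open MeasureTheory Filter Topology Relation
open Vale.Agent.P153.GFF (Adj Ht Pat LocLim hexa Plane)
open Vale.Agent.P153.Topo (Conn)

/-- (1) supermodularity. -/
def S_super : Prop := ∀ (D : Finset Pt) (τ τ' : Sp), τ ∈ Adm D → τ' ∈ Adm D →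
  w D τ * w D τ' ≤ w D (τ ⊔ τ') * w D (τ ⊓ τ')

/-- (2) the law of tau. -/
def S_e1 : Prop := ∀ (D : Finset Pt), (Adm D).Finite ∧ (Cf D).Finite ∧ (Cf D).Nonempty ∧
  ∀ F : Om → ℝ, E2 D F = (∑ᶠ τ ∈ Adm D, ∑ᶠ s ∈ (G D τ : Set Sp), F (pr τ s)) /
    ∑ᶠ τ ∈ Adm D, (w D τ : ℝ)

/-- (3) association. -/
def S_fkg : Prop := ∀ (D : Finset Pt) (f g : Sp → ℝ), Monotone f → Monotone g →
  E1 D f * E1 D g ≤ E1 D fun τ => f τ * g τ

/-- (4) smaller domains have larger tau. -/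
def S_dom : Prop := ∀ (D D' : Finset Pt), D ⊆ D' → ∀ f : Sp → ℝ, Monotone f → E1 D' f ≤ E1 D f

/-- (5) product structure of separated domains. -/
def S_prod : Prop := ∀ (D D' : Finset Pt), (∀ x ∈ D, ∀ y ∈ D', x ≠ y ∧ ¬ Adj x y) →
  ∀ f g : Sp → ℝ, Loc D f → Loc D' g → E1 (D ∪ D') (fun τ => f τ * g τ) = E1 D f * E1 D' g

/-- (6) local limits are measures (compactness). -/
def S_comp : Prop := ∀ (X : Type) [Fintype X] [TopologicalSpace X] [DiscreteTopology X]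
  [MeasurableSpace X] [BorelSpace X] (ν : Finset Pt → Measure (Pt → X)),
  (∀ D, IsProbabilityMeasure (ν D)) →
  (∀ (B : Finset Pt) (F : (Pt → X) → ℝ), Loc B F → ∃ l : ℝ, Tendsto (fun D => ∫ ω, F ω ∂(ν D))
    atTop (𝓝 l)) →
  ∃ μ : Measure (Pt → X), IsProbabilityMeasure μ ∧ ∀ (B : Finset Pt) (F : (Pt → X) → ℝ), Loc B F →
    Tendsto (fun D => ∫ ω, F ω ∂(ν D)) atTop (𝓝 (∫ ω, F ω ∂μ))

/-- (7) the limit law of tau exists. -/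
def S_mu : Prop := ∃ μ, IsMu μ

/-- (8) it is translation invariant. -/
def S_muInv : Prop := ∀ μ, IsMu μ → ∀ z, μ.map (tr z) = μ

/-- (9) it is mixing. -/
def S_muMix : Prop := ∀ μ, IsMu μ → ∀ (B : Finset Pt) (f g : Sp → ℝ), Loc B f → Loc B g →
  Tendsto (fun z => ∫ τ, f τ * g (tr z τ) ∂μ) cofinite (𝓝 ((∫ τ, f τ ∂μ) * ∫ τ, g τ ∂μ))

/-- (10) finite energy. -/
def S_muFlip : Prop := ∀ μ, IsMu μ → ∀ (x : Pt) (S : Set Sp), MeasurableSet S →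
  μ (flipAt x ⁻¹' S) ≤ 64 * μ S

/-- Two distinct infinite bichromatic clusters. -/
def TwoInf : Set Sp := {τ | ∃ x y, {u | Bich Set.univ τ x u}.Infinite ∧
  {u | Bich Set.univ τ y u}.Infinite ∧ ¬ Bich Set.univ τ x y}

/-- (11) Burton-Keane. -/
def S_bk : Prop := ∀ μ : Measure Sp, IsProbabilityMeasure μ → (∀ z, μ.map (tr z) = μ) →
  (∀ (B : Finset Pt) (f g : Sp → ℝ), Loc B f → Loc B g →
    Tendsto (fun z => ∫ τ, f τ * g (tr z τ) ∂μ) cofinite (𝓝 ((∫ τ, f τ ∂μ) * ∫ τ, g τ ∂μ))) →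
  (∀ (x : Pt) (S : Set Sp), MeasurableSet S → μ (flipAt x ⁻¹' S) ≤ 64 * μ S) → μ TwoInf = 0

/-- The output of (11) used below. -/
def FarLim (μ : Measure Sp) : Prop := ∀ x y, Tendsto (fun R => μ.real (Far R x y)) atTop (𝓝 0)

/-- (12) local form. -/
def S_far : Prop := ∀ μ : Measure Sp, IsProbabilityMeasure μ → μ TwoInf = 0 → FarLim μ

/-- (13) given tau, sigma is given by coins on the bichromatic clusters. -/
def S_coin : Prop := ∀ (D B : Finset Pt) (F : Om → ℝ) (τ : Sp), B ⊆ D → Loc B F → τ ∈ Adm D →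
  (∑ᶠ s ∈ (G D τ : Set Sp), F (pr τ s)) / (w D τ : ℝ) = coin B (Bich Set.univ τ) F τ

/-- (14) localisation of the coin average. -/
def S_coin2 : Prop := ∀ (R : ℕ) (B : Finset Pt) (F : Om → ℝ), B ⊆ bx R → Loc B F →
  Loc (bx (R + 1)) (fun τ => coin B (Bich (bx (R + 1)) τ) F τ) ∧
  ∀ τ : Sp, (∀ x ∈ B, ∀ y ∈ B, τ ∉ Far R x y) →
    coin B (Bich Set.univ τ) F τ = coin B (Bich (bx (R + 1)) τ) F τ

/-- (15) the limit law of (tau, sigma) exists. -/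
def S_q : Prop := (∃ μ, IsMu μ ∧ FarLim μ) → ∃ Q, IsQ Q ∧ FarLim (Q.map tau)

/-- (16) two distant even functions: the coin average factorises. -/
def S_coin3 : Prop := ∀ (R : ℕ) (B : Finset Pt) (F F' : Om → ℝ), B ⊆ bx R → Loc B F → Loc B F' →
  (∀ ω, F (neg ω) = F ω) → (∀ ω, F' (neg ω) = F' ω) → ∀ z : Pt, (2 * (R : ℤ) + 4 < |z.1| ∨
    2 * (R : ℤ) + 4 < |z.2|) → ∀ τ : Sp, (∀ x ∈ B, ∀ y ∈ B, τ ∉ Far R x y) →
    (∀ x ∈ B, ∀ y ∈ B, tr z τ ∉ Far R x y) →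
    coin (B ∪ B.image (· + z)) (Bich Set.univ τ) (fun ω => F ω * F' (tr z ω)) τ =
      coin B (Bich (bx (R + 1)) τ) F τ * coin B (Bich (bx (R + 1)) (tr z τ)) F' (tr z τ)

/-- (17) mixing of even functions. -/
def S_mixQ : Prop := ∀ Q, IsQ Q → FarLim (Q.map tau) → ∀ (B : Finset Pt) (F F' : Om → ℝ),
  Loc B F → Loc B F' → (∀ ω, F (neg ω) = F ω) → (∀ ω, F' (neg ω) = F' ω) →
  Tendsto (fun z => ∫ ω, F ω * F' (tr z ω) ∂Q) cofinite (𝓝 ((∫ ω, F ω ∂Q) * ∫ ω, F' ω ∂Q))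

/-- (18) symmetries. -/
def S_sym : Prop := ∀ Q, IsQ Q → (∀ θ : Pt ≃ Pt, (∀ v u, Adj v u ↔ Adj (θ v) (θ u)) →
  Q.map (fun ω x => ω (θ x)) = Q) ∧ Q.map neg = Q ∧ ∀ᵐ ω ∂Q, Comp ω

/-- (19) heights and pairs. -/
def S_rc : Prop :=
  (∀ ω, Comp ω → ∀ x y, Adj x y → rc ω y - rc ω x = inc (ω x) (ω y)) ∧
  (∀ ω, Comp ω → ∀ x, (rc ω x + cd (ω 0) - cd (ω x)) % 4 = 0) ∧
  (∀ φ : Pt → ℤ, (∀ x y, Adj x y → |φ x - φ y| ≤ 1) → Comp (fun x => enc (φ x)) ∧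
    ∀ x, rc (fun x => enc (φ x)) x = φ x - φ 0) ∧
  (∀ ω x, rc (neg ω) x = - rc ω x) ∧
  (∀ ω, Comp ω → ∀ z x, rc (tr z ω) x = rc ω (x + z) - rc ω z) ∧
  Measurable rc ∧ ∀ B : Finset Pt, ∃ B' : Finset Pt, ∀ ω ω' : Om, (∀ x ∈ B', ω x = ω' x) →
    ∀ x ∈ B, rc ω x = rc ω' x

/-- (20) bijection between heights and pairs. -/
def S_bij : Prop := ∀ D : Finset Pt, Cc D → Set.BijOn (fun φ x => enc (φ x)) (Ht D) (Cf D)

/-- (21) local limits along all exhausting sequences with connected complements. -/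
def S_loc : Prop := ∀ Q, IsQ Q → ∀ (B : Finset Pt) (a : Pt → ℤ), Tendsto
  (fun D : Finset Pt => ((Ht D ∩ Pat B a).ncard : ℝ) / (Ht D).ncard) (atTop ⊓ 𝓟 {D | Cc D})
    (𝓝 ((Q.map rc).real (Pat B a)))

/-- (22) domains used. -/
def S_cc : Prop := (∀ n, Cc (hexa n)) ∧ (∀ N H H', Cc (Fv.rect N H H')) ∧
  ∀ B : Finset Pt, ∃ n : ℕ, (∀ m, n ≤ m → B ⊆ hexa m) ∧ ∀ N H H', n ≤ N → n ≤ H → n ≤ H' →
    B ⊆ Fv.rect N H H'

/-- (23) finite volume reflection positivity, local functions of the recentred heights. -/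
def S_rp0 : Prop := ∀ (n : ℕ) (F : (Pt → ℤ) → ℝ),
  (∀ φ ψ, (∀ x : Pt, 0 ≤ x.2 → φ x = ψ x) → F φ = F ψ) →
  0 ≤ ∑ᶠ φ ∈ Ht (hexa n), F (fun x => φ x - φ 0) * F (fun x => φ (GFF.th x) - φ 0)

/-- (24) reflection positivity of the limit. -/
def S_rp : Prop := ∀ Q, IsQ Q → ∀ F : (Pt → ℤ) → ℝ, Measurable F → (∃ M, ∀ φ, |F φ| ≤ M) →
    (∀ φ ψ, (∀ x, 0 ≤ x.2 → φ x = ψ x) → F φ = F ψ) →
    0 ≤ ∫ φ, F φ * F (fun x => φ (GFF.th x)) ∂(Q.map rc)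

/-- (25) gradient Gibbs property. -/
def S_gibbs : Prop := ∀ P : Measure (Pt → ℤ), IsProbabilityMeasure P → LocLim P hexa → GFF.Gibbs P

/-- (26) mixing of even functions of the heights. -/
def S_mixP : Prop := ∀ Q, IsQ Q → FarLim (Q.map tau) → ∀ (B : Finset Pt) (W W' : (Pt → ℤ) → ℝ),
  (∃ M, ∀ φ, |W φ| ≤ M) → (∃ M, ∀ φ, |W' φ| ≤ M) →
  (∀ φ ψ, (∀ x ∈ B, φ x = ψ x) → W φ = W ψ) → (∀ φ ψ, (∀ x ∈ B, φ x = ψ x) → W' φ = W' ψ) →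
  (∀ φ, W (fun x => - φ x) = W φ) → (∀ φ, W' (fun x => - φ x) = W' φ) →
  Tendsto (fun t => ∫ φ, W φ * W' (GFF.shift t φ) ∂(Q.map rc)) cofinite
    (𝓝 ((∫ φ, W φ ∂(Q.map rc)) * ∫ φ, W' φ ∂(Q.map rc)))

end Vale.Agent.P153.A
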