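import Vale.Agent.P153.A.L1
import Vale.Agent.P153.A.Stmt

/-!
# P153, (1): supermodularity of the weight of tau
-/

namespace Vale.Agent.P153.A

open Vale.Agent.P153.GFF (Adj)

/-- a spin as a function with values in `ZMod 2` -/
def toZ (s : Sp) : ℤ × ℤ → ZMod 2 := fun x => if s x then 1 else 0

theorem w_eq_L1 (D : Finset Pt) (τ : Sp) : w D τ = L1.w D {x | τ x = true} := by
  classical
  rw [w, L1.w]
  have hA : ∀ x y : Pt, ¬ (x ∈ {x : Pt | τ x = true} ↔ y ∈ {x : Pt | τ x = true}) ↔ τ x ≠ τ y := by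
    intro x y
    simp only [Set.mem_setOf_eq]
    cases τ x <;> cases τ y <;> simp
  refine Nat.card_congr
    { toFun := fun s => ⟨toZ s.1, ?_, ?_⟩
      invFun := fun s => ⟨fun x => decide (s.1 x = 1), ?_, ?_⟩
      left_inv := ?_
      right_inv := ?_ }
  · intro x hx
    have := s.2.1 x hx
    simp [toZ, this]
  · intro x y hxy h
    have := s.2.2 x y hxy ((hA x y).1 h)
    simp [toZ, this]
  · intro x hx
    have := s.2.1 x hx
    simp [this]
  · intro x y hxy h
    have := s.2.2 x y hxy ((hA x y).2 h)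
    simp [this]
  · intro s
    apply Subtype.ext
    funext x
    show decide (toZ s.1 x = 1) = s.1 x
    unfold toZ
    cases s.1 x <;> simp
  · intro s
    apply Subtype.ext
    funext x
    show toZ (fun x => decide (s.1 x = 1)) x = s.1 x
    unfold toZ
    have h2 : ∀ a : ZMod 2, (if (decide (a = 1)) = true then (1 : ZMod 2) else 0) = a := by decide
    exact h2 _

theorem s_super : S_super := by
  intro D τ τ' hτ hτ'
  rw [w_eq_L1, w_eq_L1, w_eq_L1, w_eq_L1]
  have h1 : ∀ σ ∈ Adm D, ∀ x, x ∉ {x : Pt | σ x = true} → x ∈ inn D := by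
    intro σ hσ x hx
    by_contra h
    exact hx (hσ x h)
  have h2 : {x : Pt | (τ ⊔ τ') x = true} = {x | τ x = true} ∪ {x | τ' x = true} := by
    ext x
    simp only [Set.mem_setOf_eq, Set.mem_union, Pi.sup_apply]
    cases τ x <;> cases τ' x <;> simp
  have h3 : {x : Pt | (τ ⊓ τ') x = true} = {x | τ x = true} ∩ {x | τ' x = true} := by
    ext x
    simp only [Set.mem_setOf_eq, Set.mem_inter_iff, Pi.inf_apply]
    cases τ x <;> cases τ' x <;> simp
  rw [h2, h3]
  exact L1.w_mul_le (fun x hx => (h1 τ hτ x hx).1) (fun x hx => (h1 τ hτ x hx).2)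
    (fun x hx => (h1 τ' hτ' x hx).1) (fun x hx => (h1 τ' hτ' x hx).2)

end Vale.Agent.P153.A
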