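import Vale.Agent.P153.A.Stmt

/-!
P153, block A3, leaf (18): symmetries of the limit measure.
-/

namespace Vale.Agent.P153.A

open MeasureTheory Filter Topology
open Vale.Agent.P153.GFF (Adj)

/-- Two probability measures with the same integrals of local functions are equal. -/
theorem sym_ext {X : Type} [MeasurableSpace X] {μ ν : Measure (Pt → X)} [IsProbabilityMeasure μ]
    [IsProbabilityMeasure ν]
    (h : ∀ (B : Finset Pt) (F : (Pt → X) → ℝ), Loc B F → Measurable F →
      ∫ ω, F ω ∂μ = ∫ ω, F ω ∂ν) : μ = ν := by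
  refine ext_of_generate_finite (measurableCylinders fun _ : Pt => X)
    generateFrom_measurableCylinders.symm isPiSystem_measurableCylinders (fun S hS => ?_)
    (by simp)
  obtain ⟨s, T, hT, rfl⟩ := (mem_measurableCylinders _).1 hS
  have hm : MeasurableSet (cylinder s T : Set (Pt → X)) := hT.cylinder
  have h1 := h s ((cylinder s T : Set (Pt → X)).indicator fun _ => (1 : ℝ))
    (fun ω ω' hω => by
      have e : (ω ∈ (cylinder s T : Set (Pt → X))) ↔ ω' ∈ (cylinder s T : Set (Pt → X)) := by
        rw [mem_cylinder, mem_cylinder]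
        have : s.restrict ω = s.restrict ω' := funext fun x => hω x.1 x.2
        rw [this]
      by_cases h2 : ω ∈ (cylinder s T : Set (Pt → X))
      · rw [Set.indicator_of_mem h2, Set.indicator_of_mem (e.1 h2)]
      · rw [Set.indicator_of_notMem h2, Set.indicator_of_notMem (fun h3 => h2 (e.2 h3))])
    (measurable_const.indicator hm)
  rw [integral_indicator_const _ hm, integral_indicator_const _ hm, smul_eq_mul, smul_eq_mul,
    mul_one, mul_one] at h1
  exact (measureReal_eq_measureReal_iff (by finiteness) (by finiteness)).1 h1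

theorem sym_E2 {D D' : Finset Pt} {T : Om → Om} (h : Set.BijOn T (Cf D) (Cf D')) (F : Om → ℝ) :
    E2 D (fun ω => F (T ω)) = E2 D' F := by
  unfold E2
  rw [finsum_mem_eq_of_bijOn T h (fun _ _ => rfl), ← h.image_eq,
    Set.ncard_image_of_injOn h.injOn]

/-- automorphisms of the lattice -/
theorem sym_bij {θ : Pt ≃ Pt} (hθ : ∀ v u, Adj v u ↔ Adj (θ v) (θ u)) (D : Finset Pt) :
    Set.BijOn (fun (ω : Om) x => ω (θ x)) (Cf D) (Cf (D.image θ.symm)) := by
  have hD : ∀ x, x ∈ D.image θ.symm ↔ θ x ∈ D := by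
    intro x
    rw [Finset.mem_image]
    constructor
    · rintro ⟨y, hy, rfl⟩
      rwa [θ.apply_symm_apply]
    · intro h
      exact ⟨θ x, h, θ.symm_apply_apply x⟩
  have hi : ∀ x, x ∈ inn (D.image θ.symm) ↔ θ x ∈ inn D := by
    intro x
    unfold inn
    rw [Set.mem_setOf_eq, Set.mem_setOf_eq, hD]
    refine and_congr_right fun _ => ⟨fun h w hw => ?_, fun h w hw => ?_⟩
    · have h1 := h (θ.symm w) ((hθ _ _).2 (by rwa [θ.apply_symm_apply]))
      rwa [hD, θ.apply_symm_apply] at h1
    · rw [hD]
      exact h _ ((hθ _ _).1 hw)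
  have hC : ∀ ω : Om, (fun x => ω (θ x)) ∈ Cf (D.image θ.symm) ↔ ω ∈ Cf D := by
    intro ω
    unfold Cf Comp
    simp only [Set.mem_setOf_eq, hD, hi]
    refine and_congr ⟨fun h x y hxy => ?_, fun h x y hxy => h _ _ ((hθ _ _).1 hxy)⟩
      (and_congr ⟨fun h x hx => ?_, fun h x hx => h _ hx⟩ ⟨fun h x hx => ?_, fun h x hx => h _ hx⟩)
    · have := h (θ.symm x) (θ.symm y) ((hθ _ _).2 (by
        rwa [θ.apply_symm_apply, θ.apply_symm_apply]))
      rwa [θ.apply_symm_apply, θ.apply_symm_apply] at this
    · have := h (θ.symm x) (by rwa [θ.apply_symm_apply])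
      rwa [θ.apply_symm_apply] at this
    · have := h (θ.symm x) (by rwa [θ.apply_symm_apply])
      rwa [θ.apply_symm_apply] at this
  refine ⟨fun ω hω => (hC ω).2 hω, fun ω _ ω' _ h => ?_, fun ω' hω' => ?_⟩
  · funext x
    have := congrFun h (θ.symm x)
    simpa using this
  · refine ⟨fun x => ω' (θ.symm x), ?_, ?_⟩
    · rw [← hC]
      simpa using hω'
    · funext x
      simp

/-- flip sigma on `D` -/
def negOn (D : Finset Pt) (ω : Om) : Om := fun x =>
  ((ω x).1, if x ∈ D then !(ω x).2 else (ω x).2)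

theorem negOn_negOn (D : Finset Pt) (ω : Om) : negOn D (negOn D ω) = ω := by
  funext x
  unfold negOn
  by_cases h : x ∈ D <;> simp [h]

theorem negOn_mem {D : Finset Pt} {ω : Om} (h : ω ∈ Cf D) : negOn D ω ∈ Cf D := by
  obtain ⟨h1, h2, h3⟩ := h
  have hbd : ∀ x y, Adj x y → x ∈ D → y ∉ D → (ω x).1 = true ∧ (ω y).1 = true := by
    intro x y hxy hx hy
    exact ⟨h2 x fun h => hy (h.2 y hxy), h2 y fun h => hy h.1⟩
  have hsymm : ∀ x y, Adj x y → Adj y x := by
    intro x y hxy
    unfold Adj at hxy ⊢
    simp only [Set.mem_insert_iff, Set.mem_singleton_iff, Prod.mk.injEq] at hxy ⊢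
    omega
  refine ⟨fun x y hxy => ?_, fun x hx => h2 x hx, fun x hx => ?_⟩
  · unfold negOn
    by_cases hx : x ∈ D
    · by_cases hy : y ∈ D
      · rcases h1 x y hxy with h | h
        · exact Or.inl h
        · right
          simp [hx, hy, h]
      · left
        rw [(hbd x y hxy hx hy).1, (hbd x y hxy hx hy).2]
    · by_cases hy : y ∈ D
      · left
        have := hbd y x (hsymm x y hxy) hy hx
        rw [this.1, this.2]
      · rcases h1 x y hxy with h | h
        · exact Or.inl h
        · right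
          simp [hx, hy, h]
  · unfold negOn
    simp [hx, h3 x hx]

theorem negOn_bij (D : Finset Pt) : Set.BijOn (negOn D) (Cf D) (Cf D) :=
  ⟨fun _ h => negOn_mem h, fun ω _ ω' _ h => by
    rw [← negOn_negOn D ω, h, negOn_negOn], fun ω h => ⟨negOn D ω, negOn_mem h, negOn_negOn D ω⟩⟩

theorem sym_tendsto (θ : Pt ≃ Pt) :
    Tendsto (fun D : Finset Pt => D.image θ.symm) atTop atTop := by
  refine tendsto_atTop_atTop.2 fun B => ⟨B.image θ, fun D hD x hx => ?_⟩
  rw [Finset.mem_image]
  exact ⟨θ x, hD (Finset.mem_image_of_mem _ hx), θ.symm_apply_apply x⟩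

theorem s_sym : S_sym := by
  intro Q hQ
  haveI := hQ.prob
  refine ⟨fun θ hθ => ?_, ?_, ?_⟩
  · have hT : Measurable (fun (ω : Om) x => ω (θ x)) :=
      measurable_pi_lambda _ fun x => measurable_pi_apply (θ x)
    haveI : IsProbabilityMeasure (Q.map (fun (ω : Om) x => ω (θ x))) :=
      Measure.isProbabilityMeasure_map hT.aemeasurable
    refine sym_ext fun B F hF hFm => ?_
    rw [integral_map hT.aemeasurable hFm.aestronglyMeasurable]
    have hl : Loc (B.image θ) (fun ω : Om => F fun x => ω (θ x)) := fun ω ω' h =>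
      hF _ _ fun x hx => h _ (Finset.mem_image_of_mem _ hx)
    have h1 := hQ.lim _ _ hl
    have h2 := (hQ.lim _ _ hF).comp (sym_tendsto θ)
    refine tendsto_nhds_unique h1 (h2.congr fun D => ?_)
    exact (sym_E2 (sym_bij hθ D) F).symm
  · have hT : Measurable neg := by
      refine measurable_pi_lambda _ fun x => ?_
      have : (fun ω : Om => neg ω x) = (fun p : Bool × Bool => (p.1, !p.2)) ∘ fun ω : Om => ω x := rfl
      rw [this]
      exact (Measurable.of_discrete).comp (measurable_pi_apply x)
    haveI : IsProbabilityMeasure (Q.map neg) := Measure.isProbabilityMeasure_map hT.aemeasurable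
    refine sym_ext fun B F hF hFm => ?_
    rw [integral_map hT.aemeasurable hFm.aestronglyMeasurable]
    have hl : Loc B (fun ω : Om => F (neg ω)) := fun ω ω' h =>
      hF _ _ fun x hx => by unfold neg; rw [h x hx]
    have h1 := hQ.lim _ _ hl
    have h2 := hQ.lim _ _ hF
    refine tendsto_nhds_unique (h1.congr' ?_) h2
    filter_upwards [eventually_ge_atTop B] with D hD
    rw [← sym_E2 (negOn_bij D) F]
    congr 1
    funext ω
    refine hF _ _ fun x hx => ?_
    unfold neg negOn
    simp [hD hx]
  · unfold Comp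
    rw [ae_all_iff]
    intro x
    rw [ae_all_iff]
    intro y
    by_cases hxy : Adj x y
    swap
    · exact Eventually.of_forall fun ω h => absurd h hxy
    set S : Set Om := {ω | ¬ ((ω x).1 = (ω y).1 ∨ (ω x).2 = (ω y).2)} with hS
    have hSm : MeasurableSet S := by
      have e : S = (fun ω : Om => (ω x, ω y)) ⁻¹'
          {p : (Bool × Bool) × (Bool × Bool) | ¬ (p.1.1 = p.2.1 ∨ p.1.2 = p.2.2)} := rfl
      rw [e]
      exact ((measurable_pi_apply x).prodMk (measurable_pi_apply y)) (MeasurableSet.of_discrete)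
    have hl : Loc {x, y} (S.indicator fun _ => (1 : ℝ)) := by
      intro ω ω' h
      have hx := h x (by simp)
      have hy := h y (by simp)
      by_cases h1 : ω ∈ S
      · have h2 : ω' ∈ S := by
          rw [hS, Set.mem_setOf_eq] at h1 ⊢
          rwa [← hx, ← hy]
        rw [Set.indicator_of_mem h1, Set.indicator_of_mem h2]
      · have h2 : ω' ∉ S := by
          rw [hS, Set.mem_setOf_eq] at h1 ⊢
          rwa [← hx, ← hy]
        rw [Set.indicator_of_notMem h1, Set.indicator_of_notMem h2]
    have h1 := hQ.lim _ _ hl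
    have h0 : ∀ D : Finset Pt, E2 D (S.indicator fun _ => (1 : ℝ)) = 0 := by
      intro D
      unfold E2
      rw [div_eq_zero_iff]
      left
      refine finsum_mem_eq_zero_of_forall_eq_zero fun ω hω => ?_
      refine Set.indicator_of_notMem ?_ _
      rw [hS, Set.mem_setOf_eq, not_not]
      exact hω.1 x y hxy
    have h2 : ∫ ω, S.indicator (fun _ => (1 : ℝ)) ω ∂Q = 0 := by
      refine tendsto_nhds_unique h1 ?_
      simp only [h0]
      exact tendsto_const_nhds
    rw [integral_indicator_const _ hSm, smul_eq_mul, mul_one] at h2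
    have h3 : Q S = 0 := (measureReal_eq_zero_iff (by finiteness)).1 h2
    have h4 : ∀ᵐ ω ∂Q, ω ∉ S := measure_eq_zero_iff_ae_notMem.1 h3
    filter_upwards [h4] with ω hω _
    rw [hS, Set.mem_setOf_eq, not_not] at hω
    exact hω

end Vale.Agent.P153.A
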