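import Vale.Agent.P153.A.Bij
import Vale.Agent.P153.A.Bk
import Vale.Agent.P153.A.Cc
import Vale.Agent.P153.A.Coin
import Vale.Agent.P153.A.Coin2
import Vale.Agent.P153.A.Coin3
import Vale.Agent.P153.A.Comp
import Vale.Agent.P153.A.Dom
import Vale.Agent.P153.A.E1
import Vale.Agent.P153.A.FarLim
import Vale.Agent.P153.A.Fkg
import Vale.Agent.P153.A.Flip
import Vale.Agent.P153.A.Gibbs
import Vale.Agent.P153.A.LocAll
import Vale.Agent.P153.A.MixP
import Vale.Agent.P153.A.MixQ
import Vale.Agent.P153.A.Mu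
import Vale.Agent.P153.A.MuInv
import Vale.Agent.P153.A.MuMix
import Vale.Agent.P153.A.Plane
import Vale.Agent.P153.A.Prod
import Vale.Agent.P153.A.QLim
import Vale.Agent.P153.A.Rc
import Vale.Agent.P153.A.Rp
import Vale.Agent.P153.A.Rp0
import Vale.Agent.P153.A.Super
import Vale.Agent.P153.A.Sym

/-!
P153, block A: the plane limit exists.
-/

namespace Vale.Agent.P153.A

open MeasureTheory

theorem exists_plane_of (h6 : S_comp) : ∃ P : Measure (Pt → ℤ), GFF.Plane P ∧ Strip.EvLim P := by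
  have h3 : S_fkg := s_fkg s_super s_e1
  have h4 : S_dom := s_dom s_e1 h3
  have h9 : S_muMix := s_muMix h3 h4 s_prod
  exact exists_plane (s_mu s_e1 h4 h6) s_muInv h9 s_muFlip s_bk s_far
    (s_q s_e1 h6 s_coin s_coin2) s_sym s_rc (s_loc s_rc s_bij) s_cc
    (s_rp s_rc s_bij s_cc s_rp0) s_gibbs
    (s_mixP s_rc s_sym (s_mixQ s_e1 s_coin s_coin2 s_coin3 h9))

/-- The plane limit of the uniform Lipschitz model exists, with all its properties. -/
theorem exists_plane_all : ∃ P : Measure (Pt → ℤ), GFF.Plane P ∧ Strip.EvLim P :=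
  exists_plane_of s_comp

end Vale.Agent.P153.A
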