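import Vale.Agent.P153.A.Stmt
import Vale.Agent.P153.Tau.Lift

/-!
P153, block A3, step (20): the heights of a region with connected complement are in bijection
with the pairs (tau, sigma).
-/

namespace Vale.Agent.P153.A

open Relation
open Vale.Agent.P153.GFF (Ht)
open Vale.Agent.P153.Topo (Conn)
open Vale.Agent.P153.Tau (Coch pot stp code plus sg Pairs)

/-- The potential of a cochain vanishes off `D` if the cochain vanishes on the edges off `D` and
the complement of `D` is connected. -/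
theorem bij_pot_off {G : Type*} [AddCommGroup G] {η : ℤ × ℤ → ℤ × ℤ → G} {R : ℤ}
    (h : Coch η R) {D : Finset (ℤ × ℤ)} (hD : Cc D)
    (h0 : ∀ x y, Adj x y → x ∉ D → y ∉ D → η x y = 0) {x : ℤ × ℤ} (hx : x ∉ D) :
    pot η R x = 0 := by
  obtain ⟨R', hR'⟩ := Tau.exists_box D
  have hy1 : |R'| + |R| + 1 ≤ |(|R'| + |R| + 1)| := le_abs_self _
  have hy : ((|R'| + |R| + 1, 0) : ℤ × ℤ) ∉ D := by
    intro hy
    have h1 := (hR' _ hy).1
    have h2 := le_abs_self R'
    have h3 := abs_nonneg R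
    simp only at h1
    omega
  have hc := hD x _ hx hy
  have key : pot η R ((|R'| + |R| + 1, 0) : ℤ × ℤ) = pot η R x := by
    refine Conn.ind (S := ((D : Set (ℤ × ℤ))ᶜ)) (fun z => pot η R z = pot η R x) rfl ?_ hc
    intro u v hu huv hv ih
    have hu' : u ∉ D := fun h' => hu.right_mem (Finset.mem_coe.2 h')
    have hv' : v ∉ D := fun h' => hv (Finset.mem_coe.2 h')
    have h1 := h.sub huv
    rw [h0 u v huv hu' hv', sub_eq_zero] at h1
    show pot η R v = pot η R x
    rw [← h1, ih]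
  rw [← key]
  refine h.pot_far (Or.inl ?_)
  have h2 := le_abs_self R
  have h3 := abs_nonneg R'
  simp only
  omega

/-- Existence of the height function of a pair of spins. -/
theorem bij_lift {D : Finset (ℤ × ℤ)} (hD : Cc D) {A : Set (ℤ × ℤ)} {s : ℤ × ℤ → ZMod 2}
    (h : Pairs D A s) : ∃ g ∈ Fv.reg D, plus g = A ∧ sg g = s := by
  obtain ⟨R, hR⟩ := Tau.exists_box D
  have hc := h.2.2
  have hoff : ∀ x y, Adj x y → x ∉ D → y ∉ D → stp A s x y = 0 := by
    intro x y _ hx hy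
    unfold stp
    rw [Tau.code_off h hx, Tau.code_off h hy]
    rfl
  have hadj : ∀ x y : ℤ × ℤ, Adj x y → |x.1 - y.1| ≤ 1 ∧ |x.2 - y.2| ≤ 1 := by
    intro x y hxy
    rcases Fv.adj_iff.1 hxy with ⟨h1, h2⟩ | ⟨h1, h2⟩ | ⟨h1, h2⟩ | ⟨h1, h2⟩ | ⟨h1, h2⟩ | ⟨h1, h2⟩ <;>
      rw [h1, h2] <;> simp
  have hη : Coch (stp A s) (R + 1) := by
    refine ⟨fun x y hxy => hc.stp_anti hxy, fun x y z hxy hyz hxz => hc.stp_tri hxy hyz hxz,
      fun x y hxy hx => hoff x y hxy (fun hxD => ?_) fun hyD => ?_⟩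
    · have := hR x hxD
      omega
    · have h1 := hR y hyD
      obtain ⟨h2, h3⟩ := hadj x y hxy
      rw [abs_le] at h1 h2 h3
      rw [abs_le] at h1
      simp only [lt_abs] at hx
      omega
  set g := pot (stp A s) (R + 1) with hg
  have hsub : ∀ x y, Adj x y → g x - g y = stp A s x y := fun x y hxy => hη.sub hxy
  have hl : ∀ v w, Adj v w → |g v - g w| ≤ 1 := by
    intro v w hvw
    rw [hsub v w hvw]
    exact (hc.stp_spec hvw).1
  have h0 : ∀ x, x ∉ D → g x = 0 := fun x hx => bij_pot_off hη hD hoff hx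
  have hmod : ∀ v, g v % 4 = code A s v := by
    have e : (fun v => ((g v : ℤ) : ZMod 4)) = fun v => ((code A s v : ℤ) : ZMod 4) := by
      refine Tau.eq_of_sub (R := R) (fun x y hxy => ?_) fun x hx => ?_
      · rw [← Int.cast_sub, ← Int.cast_sub, hsub x y hxy]
        have h2 := (hc.stp_spec hxy).2
        exact (ZMod.intCast_eq_intCast_iff' _ _ 4).2 (by exact_mod_cast h2)
      · have hxD : x ∉ D := fun h3 => absurd (hR x h3).1 (not_le.2 hx)
        simp only [h0 x hxD, Tau.code_off h hxD]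
    intro v
    have h2 : ((g v : ℤ) : ZMod 4) = ((code A s v : ℤ) : ZMod 4) := congrFun e v
    have h3 := (ZMod.intCast_eq_intCast_iff' _ _ 4).1 h2
    rw [← Tau.code_mod A s v]
    exact_mod_cast h3
  refine ⟨g, Fv.mem_reg.2 ⟨h0, fun v hv hv' => ?_, hl⟩, Tau.of_code hmod⟩
  have h1 : v ∈ A := h.1 hv'
  have h2 : ∃ w, Adj v w ∧ w ∉ D := by
    by_contra hcon
    push Not at hcon
    exact hv' ⟨hv, hcon⟩
  obtain ⟨w, hw, hwD⟩ := h2
  have h3 := abs_le.1 (hl v w hw)
  rw [h0 w hwD, sub_zero] at h3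
  have h4 := hmod v
  unfold code at h4
  rw [if_pos h1] at h4
  split_ifs at h4 <;> omega

/-- The two descriptions of the height functions of a region agree. -/
theorem bij_mem_Ht {D : Finset Pt} {φ : Pt → ℤ} : φ ∈ Ht D ↔ φ ∈ Fv.reg D := by
  rw [Fv.mem_reg]
  constructor
  · rintro ⟨h1, h2⟩
    refine ⟨fun v hv => (h1 v).1 hv, fun v hv hv' => (h1 v).2 ?_, h2⟩
    by_contra hcon
    push Not at hcon
    exact hv' ⟨hv, hcon⟩
  · rintro ⟨h1, h2, h3⟩
    refine ⟨fun v => ⟨h1 v, ?_⟩, h3⟩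
    rintro ⟨w, hw, hwD⟩
    by_cases hv : v ∈ D
    · exact h2 v hv fun h => hwD (h.2 w hw)
    · exact Or.inl (h1 v hv)

/-- the first code -/
theorem bij_enc_fst {a : ℤ} : (enc a).1 = true ↔ a % 4 = 0 ∨ a % 4 = 1 := by
  simp [enc]

/-- the second code -/
theorem bij_enc_snd {a : ℤ} : (enc a).2 = true ↔ a % 4 = 1 ∨ a % 4 = 2 := by
  simp [enc]

theorem bij_sg {φ : Pt → ℤ} (x : Pt) : sg φ x = if (enc (φ x)).2 = true then 1 else 0 := by
  unfold sg
  by_cases h : φ x % 4 = 1 ∨ φ x % 4 = 2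
  · rw [if_pos h, if_pos (bij_enc_snd.2 h)]
  · rw [if_neg h, if_neg fun h' => h (bij_enc_snd.1 h')]

theorem bij_plus {φ : Pt → ℤ} (x : Pt) : x ∈ plus φ ↔ (enc (φ x)).1 = true := by
  rw [bij_enc_fst]
  exact Iff.rfl

/-- The codes of a Lipschitz function are compatible. -/
theorem bij_comp {φ : Pt → ℤ} (h : ∀ x y, Adj x y → |φ x - φ y| ≤ 1) :
    Comp fun x => enc (φ x) := by
  intro x y hxy
  have h1 := abs_le.1 (h x y hxy)
  by_contra hcon
  push Not at hcon
  obtain ⟨h2, h3⟩ := hcon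
  simp only [enc, ne_eq, decide_eq_decide] at h2 h3
  omega

/-- (20) -/
theorem s_bij : S_bij := by
  intro D hD
  refine ⟨?_, ?_, ?_⟩
  · intro φ hφ
    have hφ := bij_mem_Ht.1 hφ
    obtain ⟨h1, h2, h3⟩ := Fv.mem_reg.1 hφ
    refine ⟨bij_comp h3, fun x hx => ?_, fun x hx => ?_⟩
    · show (enc (φ x)).1 = true
      rw [bij_enc_fst]
      by_cases hD : x ∈ D
      · rcases h2 x hD hx with h4 | h4 <;> simp [h4]
      · simp [h1 x hD]
    · show (enc (φ x)).2 = false
      rw [h1 x hx]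
      rfl
  · intro φ hφ ψ hψ h
    have h' : ∀ x, enc (φ x) = enc (ψ x) := fun x => congrFun h x
    refine Tau.reg_inj (bij_mem_Ht.1 hφ) (bij_mem_Ht.1 hψ) ?_ ?_
    · ext x
      rw [bij_plus, bij_plus, h' x]
    · funext x
      rw [bij_sg, bij_sg, h' x]
  · intro ω hω
    obtain ⟨h1, h2, h3⟩ := hω
    have hP : Pairs D {v | (ω v).1 = true} (fun v => if (ω v).2 = true then 1 else 0) := by
      refine ⟨fun v hv => h2 v hv, fun v hv => ?_, fun x y hxy hx hy => ?_⟩
      · simp [h3 v hv]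
      · rcases h1 x y hxy with h4 | h4
        · have hx' : (ω x).1 = true := hx
          exact absurd (h4.symm.trans hx') hy
        · simp only [h4]
    obtain ⟨g, hg, hg1, hg2⟩ := bij_lift hD hP
    refine ⟨g, bij_mem_Ht.2 hg, ?_⟩
    funext x
    have e1 : (enc (g x)).1 = true ↔ (ω x).1 = true := by
      rw [← bij_plus, hg1]
      exact Iff.rfl
    have e2 : (enc (g x)).2 = true ↔ (ω x).2 = true := by
      have h4 := congrFun hg2 x
      rw [bij_sg] at h4
      by_cases h5 : (ω x).2 = true <;> by_cases h6 : (enc (g x)).2 = true <;>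
        simp [h5, h6] at h4 ⊢
    exact Prod.ext (Bool.eq_iff_iff.2 e1) (Bool.eq_iff_iff.2 e2)

end Vale.Agent.P153.A
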