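import Vale.Agent.P153.GFF.Interface
import Vale.Agent.P153.Model.Box
import Vale.Agent.P153.Topo.Conn

/-!
P153, block A3: the pair (tau, sigma) of the uniform Lipschitz model on the triangular lattice.

Height `h` modulo four is stored as a pair of booleans: first entry (tau) is `true` iff
`h mod 4 ∈ {0, 1}`, second entry (sigma) is `true` iff `h mod 4 ∈ {1, 2}`. Along an edge at most
one of the two changes. `h ↦ 1 - h` is the flip of sigma.
-/

namespace Vale.Agent.P153.A

open MeasureTheory Filter Topology Relation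
open Vale.Agent.P153.GFF (Adj Ht Pat LocLim hexa)
open Vale.Agent.P153.Topo (Conn)

/-- A vertex. -/
abbrev Pt : Type := ℤ × ℤ

/-- A spin configuration. -/
abbrev Sp : Type := Pt → Bool

/-- A configuration of pairs (tau, sigma). -/
abbrev Om : Type := Pt → Bool × Bool

/-- The vertices of `D` all of whose neighbours are in `D`. -/
def inn (D : Finset Pt) : Set Pt := {v | v ∈ D ∧ ∀ w, Adj v w → w ∈ D}

/-- At most one of the two spins changes along an edge. -/
def Comp (ω : Om) : Prop := ∀ x y, Adj x y → (ω x).1 = (ω y).1 ∨ (ω x).2 = (ω y).2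

/-- Configurations on `D`: tau is `true` off the interior, sigma is free on `D`, `false` off `D`. -/
def Cf (D : Finset Pt) : Set Om :=
  {ω | Comp ω ∧ (∀ x, x ∉ inn D → (ω x).1 = true) ∧ ∀ x, x ∉ D → (ω x).2 = false}

/-- `F` depends only on the values on `B`. -/
def Loc {X : Type} (B : Finset Pt) (F : (Pt → X) → ℝ) : Prop :=
  ∀ ω ω' : Pt → X, (∀ x ∈ B, ω x = ω' x) → F ω = F ω'

/-- Uniform expectation on `Cf D`. -/
noncomputable def E2 (D : Finset Pt) (F : Om → ℝ) : ℝ := (∑ᶠ ω ∈ Cf D, F ω) / (Cf D).ncard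

/-- The tau part. -/
def tau (ω : Om) : Sp := fun x => (ω x).1

/-- Pair two spin configurations. -/
def pr (τ σ : Sp) : Om := fun x => (τ x, σ x)

/-- Expectation of a function of tau. -/
noncomputable def E1 (D : Finset Pt) (f : Sp → ℝ) : ℝ := E2 D fun ω => f (tau ω)

/-- The group of the sigma compatible with `τ` on `D` (`+` on `Bool` is `xor`). -/
def G (D : Finset Pt) (τ : Sp) : AddSubgroup Sp where
  carrier := {s | (∀ x, x ∉ D → s x = false) ∧ ∀ x y, Adj x y → τ x ≠ τ y → s x = s y}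
  add_mem' := by
    rintro a b ⟨ha, ha'⟩ ⟨hb, hb'⟩
    refine ⟨fun x hx => ?_, fun x y hxy h => ?_⟩
    · show xor (a x) (b x) = false
      rw [ha x hx, hb x hx]; rfl
    · show xor (a x) (b x) = xor (a y) (b y)
      rw [ha' x y hxy h, hb' x y hxy h]
  zero_mem' := ⟨fun _ _ => rfl, fun _ _ _ _ => rfl⟩
  neg_mem' := fun {a} ha => ha

/-- Number of sigma compatible with `τ` on `D`. -/
noncomputable def w (D : Finset Pt) (τ : Sp) : ℕ := Nat.card (G D τ)

/-- The admissible tau: `true` off the interior of `D`. -/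
def Adm (D : Finset Pt) : Set Sp := {τ | ∀ x, x ∉ inn D → τ x = true}

/-- Translation of a configuration. -/
def tr {X : Type} (z : Pt) (ω : Pt → X) : Pt → X := fun x => ω (x + z)

/-- Flip tau at one vertex. -/
noncomputable def flipAt (x : Pt) (τ : Sp) : Sp := Function.update τ x (!τ x)

/-- Flip sigma everywhere. -/
def neg (ω : Om) : Om := fun x => ((ω x).1, !(ω x).2)

/-- The square box of radius `R`. -/
noncomputable def bx (R : ℕ) : Finset Pt := Finset.Icc (-(R : ℤ)) R ×ˢ Finset.Icc (-(R : ℤ)) R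

/-- `x` and `y` are joined by a path of bichromatic edges (for tau) inside `S`. -/
def Bich (S : Set Pt) (τ : Sp) (x y : Pt) : Prop :=
  ReflTransGen (fun u v => Adj u v ∧ τ u ≠ τ v ∧ u ∈ S ∧ v ∈ S) x y

/-- `x` and `y` both reach the outside of `bx R`, and are not joined inside `bx (R + 1)`. -/
def Far (R : ℕ) (x y : Pt) : Set Sp :=
  {τ | ¬ Bich (bx (R + 1)) τ x y ∧ (∃ u, u ∉ bx R ∧ Bich (bx (R + 1)) τ x u) ∧
    ∃ u, u ∉ bx R ∧ Bich (bx (R + 1)) τ y u}

/-- The complement of `D` is connected. -/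
def Cc (D : Finset Pt) : Prop := ∀ x y, x ∉ D → y ∉ D → Conn ((D : Set Pt)ᶜ) x y

/-! ### Heights -/

/-- Height modulo four, coded by two booleans. -/
def enc (a : ℤ) : Bool × Bool := (decide (a % 4 = 0 ∨ a % 4 = 1), decide (a % 4 = 1 ∨ a % 4 = 2))

/-- The representative in `{0, 1, 2, 3}`. -/
def cd (p : Bool × Bool) : ℤ := if p.1 then (if p.2 then 1 else 0) else (if p.2 then 2 else 3)

/-- The increment along an edge. -/
def inc (p q : Bool × Bool) : ℤ :=
  if (cd q - cd p) % 4 = 1 then 1 else if (cd q - cd p) % 4 = 3 then -1 else 0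

/-- Signed sum from `0` to `n`. -/
noncomputable def Sm (f : ℤ → ℤ) (n : ℤ) : ℤ := ∑ k ∈ Finset.Ico 0 n, f k - ∑ k ∈ Finset.Ico n 0, f k

/-- The height function with value `0` at the origin (sum of the increments, first along the row of
the origin, then along the other axis). -/
noncomputable def rc (ω : Om) (x : Pt) : ℤ :=
  Sm (fun k => inc (ω (k, 0)) (ω (k + 1, 0))) x.1 +
    Sm (fun k => inc (ω (x.1, k)) (ω (x.1, k + 1))) x.2

/-- Coin average: `σ` uniform among the functions on `B` which are constant on the classes of `r`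
(`false` off `B`). -/
noncomputable def coin (B : Finset Pt) (r : Pt → Pt → Prop) (F : Om → ℝ) (τ : Sp) : ℝ :=
  (∑ᶠ t ∈ {t : Sp | (∀ x, x ∉ B → t x = false) ∧ ∀ x ∈ B, ∀ y ∈ B, r x y → t x = t y},
    F (pr τ t)) /
  ({t : Sp | (∀ x, x ∉ B → t x = false) ∧ ∀ x ∈ B, ∀ y ∈ B, r x y → t x = t y}).ncard

/-! ### The limits -/

/-- `μ` is the local limit of the laws of tau. -/
structure IsMu (μ : Measure Sp) : Prop where
  prob : IsProbabilityMeasure μ
  lim : ∀ (B : Finset Pt) (f : Sp → ℝ), Loc B f → Tendsto (fun D => E1 D f) atTop (𝓝 (∫ τ, f τ ∂μ))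

/-- `Q` is the local limit of the laws of (tau, sigma). -/
structure IsQ (Q : Measure Om) : Prop where
  prob : IsProbabilityMeasure Q
  lim : ∀ (B : Finset Pt) (F : Om → ℝ), Loc B F → Tendsto (fun D => E2 D F) atTop (𝓝 (∫ ω, F ω ∂Q))

end Vale.Agent.P153.A
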