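import Vale.Agent.P153.Tau.Pot

/-!
# P153, L1: the weight of the spin `τ` is log-supermodular (linear algebra over `F₂`)

`G D A` = the spins `σ` (values in `ZMod 2`, zero off `D`) which do not disagree on the edges
between `A` and its complement, `A = {τ = +}`.
-/

namespace Vale.Agent.P153.L1

open Finset Vale.Agent.P153 Vale.Agent.P153.Tau

/-- the spins `σ` supported in `D` which are compatible with `A = {τ = +}` -/
def G (D : Finset (ℤ × ℤ)) (A : Set (ℤ × ℤ)) : Submodule (ZMod 2) (ℤ × ℤ → ZMod 2) where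
  carrier := {s | (∀ x, x ∉ D → s x = 0) ∧ ∀ x y, Adj x y → ¬ (x ∈ A ↔ y ∈ A) → s x = s y}
  add_mem' := by
    rintro s t ⟨h1, h2⟩ ⟨h3, h4⟩
    exact ⟨fun x hx => by rw [Pi.add_apply, h1 x hx, h3 x hx, add_zero],
      fun x y hxy hA => by rw [Pi.add_apply, Pi.add_apply, h2 x y hxy hA, h4 x y hxy hA]⟩
  zero_mem' := ⟨fun _ _ => rfl, fun _ _ _ _ => rfl⟩
  smul_mem' := by
    rintro c s ⟨h1, h2⟩
    exact ⟨fun x hx => by rw [Pi.smul_apply, h1 x hx, smul_zero],
      fun x y hxy hA => by rw [Pi.smul_apply, Pi.smul_apply, h2 x y hxy hA]⟩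

theorem mem_G {D : Finset (ℤ × ℤ)} {A : Set (ℤ × ℤ)} {s : ℤ × ℤ → ZMod 2} :
    s ∈ G D A ↔ (∀ x, x ∉ D → s x = 0) ∧ ∀ x y, Adj x y → ¬ (x ∈ A ↔ y ∈ A) → s x = s y :=
  Iff.rfl

/-- the number of compatible spins `σ` -/
noncomputable def w (D : Finset (ℤ × ℤ)) (A : Set (ℤ × ℤ)) : ℕ := Nat.card (G D A)

/-- functions supported in `D` whose coboundary lives on the edges inside `X` -/
def L (D : Finset (ℤ × ℤ)) (X : Set (ℤ × ℤ)) : Submodule (ZMod 2) (ℤ × ℤ → ZMod 2) where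
  carrier := {s | (∀ x, x ∉ D → s x = 0) ∧ ∀ x y, Adj x y → ¬ (x ∈ X ∧ y ∈ X) → s x = s y}
  add_mem' := by
    rintro s t ⟨h1, h2⟩ ⟨h3, h4⟩
    exact ⟨fun x hx => by rw [Pi.add_apply, h1 x hx, h3 x hx, add_zero],
      fun x y hxy hA => by rw [Pi.add_apply, Pi.add_apply, h2 x y hxy hA, h4 x y hxy hA]⟩
  zero_mem' := ⟨fun _ _ => rfl, fun _ _ _ _ => rfl⟩
  smul_mem' := by
    rintro c s ⟨h1, h2⟩
    exact ⟨fun x hx => by rw [Pi.smul_apply, h1 x hx, smul_zero],
      fun x y hxy hA => by rw [Pi.smul_apply, Pi.smul_apply, h2 x y hxy hA]⟩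

theorem mem_L {D : Finset (ℤ × ℤ)} {X : Set (ℤ × ℤ)} {s : ℤ × ℤ → ZMod 2} :
    s ∈ L D X ↔ (∀ x, x ∉ D → s x = 0) ∧ ∀ x y, Adj x y → ¬ (x ∈ X ∧ y ∈ X) → s x = s y :=
  Iff.rfl

variable {D : Finset (ℤ × ℤ)} {A B : Set (ℤ × ℤ)}

/-- functions supported in `D` -/
theorem finite_supp (D : Finset (ℤ × ℤ)) : {s : ℤ × ℤ → ZMod 2 | ∀ x, x ∉ D → s x = 0}.Finite := by
  classical
  apply Set.Finite.of_finite_image (f := fun s : ℤ × ℤ → ZMod 2 => fun x : D => s x)
  · exact Set.toFinite _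
  · intro s hs t ht hst
    funext x
    by_cases hx : x ∈ D
    · exact congrFun hst ⟨x, hx⟩
    · rw [hs x hx, ht x hx]

instance (D : Finset (ℤ × ℤ)) (A : Set (ℤ × ℤ)) : Finite (G D A) :=
  ((finite_supp D).subset fun _ hs => hs.1).to_subtype

instance (D : Finset (ℤ × ℤ)) (A : Set (ℤ × ℤ)) : Finite (L D A) :=
  ((finite_supp D).subset fun _ hs => hs.1).to_subtype

theorem L_le_G : L D A ≤ G D A := by
  rintro s ⟨h1, h2⟩
  exact ⟨h1, fun x y hxy hA => h2 x y hxy fun h => hA ⟨fun _ => h.2, fun _ => h.1⟩⟩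

theorem L_le_G' : L D Aᶜ ≤ G D A := by
  rintro s ⟨h1, h2⟩
  refine ⟨h1, fun x y hxy hA => h2 x y hxy fun h => hA ⟨fun h' => absurd h' h.1,
    fun h' => absurd h' h.2⟩⟩

theorem inf_eq : L D A ⊓ L D B = L D (A ∩ B) := by
  ext s
  rw [Submodule.mem_inf, mem_L, mem_L, mem_L]
  constructor
  · rintro ⟨⟨h1, h2⟩, -, h4⟩
    refine ⟨h1, fun x y hxy h => ?_⟩
    by_cases hA : x ∈ A ∧ y ∈ A
    · exact h4 x y hxy fun hB => h ⟨⟨hA.1, hB.1⟩, ⟨hA.2, hB.2⟩⟩
    · exact h2 x y hxy hA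
  · rintro ⟨h1, h2⟩
    exact ⟨⟨h1, fun x y hxy h => h2 x y hxy fun h' => h ⟨h'.1.1, h'.2.1⟩⟩,
      h1, fun x y hxy h => h2 x y hxy fun h' => h ⟨h'.1.2, h'.2.2⟩⟩

theorem sup_le_union : L D A ⊔ L D B ≤ L D (A ∪ B) := by
  refine sup_le ?_ ?_
  · rintro s ⟨h1, h2⟩
    exact ⟨h1, fun x y hxy h => h2 x y hxy fun h' => h ⟨Or.inl h'.1, Or.inl h'.2⟩⟩
  · rintro s ⟨h1, h2⟩
    exact ⟨h1, fun x y hxy h => h2 x y hxy fun h' => h ⟨Or.inr h'.1, Or.inr h'.2⟩⟩

/-- a bound for the coordinates of `D` -/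
theorem exists_box (D : Finset (ℤ × ℤ)) : ∃ R : ℤ, ∀ x ∈ D, |x.1| ≤ R ∧ |x.2| ≤ R := by
  classical
  refine ⟨∑ x ∈ D, (|x.1| + |x.2|), fun x hx => ?_⟩
  have h1 : |x.1| + |x.2| ≤ ∑ x ∈ D, (|x.1| + |x.2|) :=
    Finset.single_le_sum (f := fun x : ℤ × ℤ => |x.1| + |x.2|) (fun y _ => by positivity) hx
  have h2 := abs_nonneg x.1
  have h3 := abs_nonneg x.2
  constructor <;> linarith

theorem inf_bot : L D A ⊓ L D Aᶜ = ⊥ := by
  rw [inf_eq, Set.inter_compl_self, eq_bot_iff]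
  rintro s ⟨h1, h2⟩
  rw [Submodule.mem_bot]
  obtain ⟨R, hR⟩ := exists_box D
  refine eq_of_sub (R := R) (fun x y hxy => ?_) fun x hx => ?_
  · rw [h2 x y hxy fun h => h.1, sub_self]
    simp
  · exact h1 x fun hxD => absurd (hR x hxD).1 (not_le.2 hx)

open Classical in
/-- the part of the coboundary of `s` on the edges inside `A` -/
noncomputable def eta (A : Set (ℤ × ℤ)) (s : ℤ × ℤ → ZMod 2) (x y : ℤ × ℤ) : ZMod 2 :=
  if x ∈ A ∧ y ∈ A then s x - s y else 0

theorem coch_eta {s : ℤ × ℤ → ZMod 2} (hs : s ∈ G D A) {R : ℤ}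
    (hR : ∀ x ∈ D, |x.1| ≤ R ∧ |x.2| ≤ R) : Coch (eta A s) (R + 1) := by
  classical
  obtain ⟨h1, h2⟩ := hs
  refine ⟨?_, ?_, ?_⟩
  · intro x y _
    unfold eta
    by_cases h : x ∈ A ∧ y ∈ A
    · rw [if_pos h, if_pos ⟨h.2, h.1⟩]
      ring
    · rw [if_neg h, if_neg (fun h' => h ⟨h'.2, h'.1⟩), neg_zero]
  · intro x y z hxy hyz hxz
    unfold eta
    by_cases hx : x ∈ A <;> by_cases hy : y ∈ A <;> by_cases hz : z ∈ A
    · simp [hx, hy, hz]
    · have e1 := h2 x z hxz (by tauto)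
      have e2 := h2 y z hyz (by tauto)
      simp [hx, hy, hz, e1, e2]
    · have e1 := h2 x y hxy (by tauto)
      have e2 := h2 y z hyz (by tauto)
      simp [hx, hy, hz, e1, e2]
    · simp [hx, hy, hz]
    · have e1 := h2 x y hxy (by tauto)
      have e2 := h2 x z hxz (by tauto)
      simp [hx, hy, hz, ← e1, ← e2]
    · simp [hx, hy, hz]
    · simp [hx, hy, hz]
    · simp [hx, hy, hz]
  · intro x y hxy hx
    have h3 : x ∉ D := by
      intro hxD
      have := hR x hxD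
      omega
    have h4 : y ∉ D := by
      intro hyD
      have := hR y hyD
      rw [Fv.adj_iff] at hxy
      rcases hx with hx | hx
      · have h5 : |x.1| ≤ |y.1| + 1 := by
          have h6 : |x.1 - y.1| ≤ 1 := by rw [abs_le]; omega
          have h7 := abs_sub_abs_le_abs_sub x.1 y.1
          linarith
        omega
      · have h5 : |x.2| ≤ |y.2| + 1 := by
          have h6 : |x.2 - y.2| ≤ 1 := by rw [abs_le]; omega
          have h7 := abs_sub_abs_le_abs_sub x.2 y.2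
          linarith
        omega
    unfold eta
    rw [h1 x h3, h1 y h4, sub_self, ite_self]

theorem sup_eq (hD : Ray D) : L D A ⊔ L D Aᶜ = G D A := by
  classical
  apply le_antisymm (sup_le L_le_G L_le_G')
  intro s hs
  obtain ⟨R, hR⟩ := exists_box D
  have hc := coch_eta hs hR
  set p := pot (eta A s) (R + 1) with hp
  have hp1 : p ∈ L D A := by
    refine ⟨fun x hx => hc.pot_off hD (fun x y _ hxD hyD => ?_) hx, fun x y hxy h => ?_⟩
    · unfold eta
      rw [hs.1 x hxD, hs.1 y hyD, sub_self, ite_self]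
    · have h1 := hc.sub hxy
      rw [eta, if_neg h, sub_eq_zero] at h1
      exact h1
  have hp2 : s - p ∈ L D Aᶜ := by
    refine ⟨fun x hx => by rw [Pi.sub_apply, hs.1 x hx, hp1.1 x hx, sub_zero],
      fun x y hxy h => ?_⟩
    rw [Pi.sub_apply, Pi.sub_apply]
    have h1 := hc.sub hxy
    by_cases hA : x ∈ A ∧ y ∈ A
    · rw [eta, if_pos hA] at h1
      linear_combination -h1
    · rw [eta, if_neg hA] at h1
      have h2 : s x = s y := by
        refine hs.2 x y hxy fun hiff => ?_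
        by_cases hx : x ∈ A
        · exact hA ⟨hx, hiff.1 hx⟩
        · exact h ⟨hx, fun hy => hx (hiff.2 hy)⟩
      rw [h2]
      linear_combination -h1
  have : s = p + (s - p) := by abel
  rw [this]
  exact Submodule.add_mem_sup hp1 hp2

/-- cardinality of sum and intersection -/
theorem card_sup_inf {M : Type*} [AddCommGroup M] [Module (ZMod 2) M] (P Q : Submodule (ZMod 2) M)
    [Finite P] [Finite Q] :
    Nat.card P * Nat.card Q = Nat.card (P ⊔ Q : Submodule (ZMod 2) M) *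
      Nat.card (P ⊓ Q : Submodule (ZMod 2) M) := by
  have : Fact (Nat.Prime 2) := ⟨Nat.prime_two⟩
  have : Module.Finite (ZMod 2) P := Module.Finite.of_finite
  have : Module.Finite (ZMod 2) Q := Module.Finite.of_finite
  have : Finite (P ⊓ Q : Submodule (ZMod 2) M) :=
    Finite.of_injective (Submodule.inclusion (inf_le_left : P ⊓ Q ≤ P))
      (Submodule.inclusion_injective _)
  have : Module.Finite (ZMod 2) (P ⊔ Q : Submodule (ZMod 2) M) := inferInstance
  have : Module.Finite (ZMod 2) (P ⊓ Q : Submodule (ZMod 2) M) := Module.Finite.of_finite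
  rw [Module.natCard_eq_pow_finrank (K := ZMod 2) (V := P),
    Module.natCard_eq_pow_finrank (K := ZMod 2) (V := Q),
    Module.natCard_eq_pow_finrank (K := ZMod 2) (V := (P ⊔ Q : Submodule (ZMod 2) M)),
    Module.natCard_eq_pow_finrank (K := ZMod 2) (V := (P ⊓ Q : Submodule (ZMod 2) M)),
    ← pow_add, ← pow_add, Submodule.finrank_sup_add_finrank_inf_eq]

theorem card_le {P Q : Submodule (ZMod 2) (ℤ × ℤ → ZMod 2)} [Finite Q] (h : P ≤ Q) :
    Nat.card P ≤ Nat.card Q :=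
  Nat.card_le_card_of_injective (Submodule.inclusion h) (Submodule.inclusion_injective h)

theorem w_eq (hD : Ray D) (A : Set (ℤ × ℤ)) : w D A = Nat.card (L D A) * Nat.card (L D Aᶜ) := by
  rw [card_sup_inf, sup_eq hD, inf_bot, w]
  simp

theorem card_L_mul (A B : Set (ℤ × ℤ)) :
    Nat.card (L D A) * Nat.card (L D B) ≤ Nat.card (L D (A ∪ B)) * Nat.card (L D (A ∩ B)) := by
  rw [card_sup_inf, inf_eq]
  exact Nat.mul_le_mul_right _ (card_le sup_le_union)

/-- supermodularity for regions with rays -/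
theorem w_mul_le_of_ray (hD : Ray D) (A B : Set (ℤ × ℤ)) :
    w D A * w D B ≤ w D (A ∪ B) * w D (A ∩ B) := by
  rw [w_eq hD, w_eq hD, w_eq hD, w_eq hD]
  have h1 := card_L_mul (D := D) A B
  have h2 := card_L_mul (D := D) Aᶜ Bᶜ
  rw [← Set.compl_inter, ← Set.compl_union] at h2
  calc Nat.card (L D A) * Nat.card (L D Aᶜ) * (Nat.card (L D B) * Nat.card (L D Bᶜ))
      = (Nat.card (L D A) * Nat.card (L D B)) * (Nat.card (L D Aᶜ) * Nat.card (L D Bᶜ)) := by ring
    _ ≤ (Nat.card (L D (A ∪ B)) * Nat.card (L D (A ∩ B))) *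
        (Nat.card (L D (A ∩ B)ᶜ) * Nat.card (L D (A ∪ B)ᶜ)) := Nat.mul_le_mul h1 h2
    _ = _ := by ring

/-! ### Arbitrary finite regions -/

/-- extension by the free spins of `X \ D` -/
theorem card_mul {D X : Finset (ℤ × ℤ)} (hDX : D ⊆ X) (hA : ∀ x, x ∉ A → x ∈ D)
    (hA' : ∀ x, x ∉ A → ∀ y, Adj x y → y ∈ D) :
    w X A = w D A * Nat.card {t : ℤ × ℤ → ZMod 2 // ∀ x, x ∉ X \ D → t x = 0} := by
  classical
  rw [w, w, ← Nat.card_prod]
  have key : ∀ x y, Adj x y → ¬ (x ∈ A ↔ y ∈ A) → x ∈ D ∧ y ∈ D := by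
    intro x y hxy h
    by_cases hx : x ∈ A
    · have hy : y ∉ A := fun hy => h ⟨fun _ => hy, fun _ => hx⟩
      exact ⟨hA' y hy x (Fv.adj_comm'.1 hxy), hA y hy⟩
    · exact ⟨hA x hx, hA' x hx y hxy⟩
  refine Nat.card_congr
    { toFun := fun s => (⟨fun x => if x ∈ D then s.1 x else 0, ?_, ?_⟩,
        ⟨fun x => if x ∈ D then 0 else s.1 x, ?_⟩)
      invFun := fun p => ⟨fun x => if x ∈ D then p.1.1 x else p.2.1 x, ?_, ?_⟩
      left_inv := ?_
      right_inv := ?_ }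
  · intro x hx
    simp only [if_neg hx]
  · intro x y hxy h
    obtain ⟨hx, hy⟩ := key x y hxy h
    simp only [if_pos hx, if_pos hy]
    exact s.2.2 x y hxy h
  · intro x hx
    by_cases hxD : x ∈ D
    · simp only [if_pos hxD]
    · simp only [if_neg hxD]
      exact s.2.1 x fun hxX => hx (Finset.mem_sdiff.2 ⟨hxX, hxD⟩)
  · intro x hx
    have hxD : x ∉ D := fun h => hx (hDX h)
    simp only [if_neg hxD]
    exact p.2.2 x fun h => hx (Finset.mem_sdiff.1 h).1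
  · intro x y hxy h
    obtain ⟨hx, hy⟩ := key x y hxy h
    simp only [if_pos hx, if_pos hy]
    exact p.1.2.2 x y hxy h
  · intro s
    apply Subtype.ext
    funext x
    by_cases hx : x ∈ D <;> simp [hx]
  · rintro ⟨⟨s, hs⟩, ⟨t, ht⟩⟩
    apply Prod.ext
    · apply Subtype.ext
      funext x
      by_cases hx : x ∈ D
      · simp [hx]
      · simp [hx, hs.1 x hx]
    · apply Subtype.ext
      funext x
      by_cases hx : x ∈ D
      · have := ht x (by simp [hx])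
        simp [hx, this]
      · simp [hx]

/-- every finite set is contained in a region with rays -/
theorem exists_ray (D : Finset (ℤ × ℤ)) : ∃ X, D ⊆ X ∧ Ray X := by
  obtain ⟨R, hR⟩ := exists_box D
  refine ⟨Finset.Icc (-R) R ×ˢ Finset.Icc (-R) R, fun x hx => ?_, fun x hx => ?_⟩
  · have h := hR x hx
    rw [abs_le, abs_le] at h
    simp only [Finset.mem_product, Finset.mem_Icc]
    exact h
  · simp only [Finset.mem_product, Finset.mem_Icc] at hx
    have h4 : x.1 < -R ∨ R < x.1 ∨ x.2 < -R ∨ R < x.2 := by omega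
    rcases h4 with h | h | h | h
    · refine ⟨(-1, 0), adj_zero.2 (by simp), fun k => ?_⟩
      simp only [Finset.mem_product, Finset.mem_Icc]
      omega
    · refine ⟨(1, 0), adj_zero.2 (by simp), fun k => ?_⟩
      simp only [Finset.mem_product, Finset.mem_Icc]
      omega
    · refine ⟨(0, -1), adj_zero.2 (by simp), fun k => ?_⟩
      simp only [Finset.mem_product, Finset.mem_Icc]
      omega
    · refine ⟨(0, 1), adj_zero.2 (by simp), fun k => ?_⟩
      simp only [Finset.mem_product, Finset.mem_Icc]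
      omega

/-- supermodularity for arbitrary finite regions: `A` and `B` contain everything off the interior
of `D` -/
theorem w_mul_le {D : Finset (ℤ × ℤ)} {A B : Set (ℤ × ℤ)} (hA : ∀ x, x ∉ A → x ∈ D)
    (hA' : ∀ x, x ∉ A → ∀ y, Adj x y → y ∈ D) (hB : ∀ x, x ∉ B → x ∈ D)
    (hB' : ∀ x, x ∉ B → ∀ y, Adj x y → y ∈ D) :
    w D A * w D B ≤ w D (A ∪ B) * w D (A ∩ B) := by
  obtain ⟨X, hDX, hX⟩ := exists_ray D
  have h1 := w_mul_le_of_ray hX A B
  have hU : ∀ x, x ∉ A ∪ B → x ∈ D := fun x hx => hA x fun h => hx (Or.inl h)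
  have hU' : ∀ x, x ∉ A ∪ B → ∀ y, Adj x y → y ∈ D := fun x hx => hA' x fun h => hx (Or.inl h)
  have hI : ∀ x, x ∉ A ∩ B → x ∈ D := fun x hx => by
    by_cases h : x ∈ A
    · exact hB x fun h' => hx ⟨h, h'⟩
    · exact hA x h
  have hI' : ∀ x, x ∉ A ∩ B → ∀ y, Adj x y → y ∈ D := fun x hx => by
    by_cases h : x ∈ A
    · exact hB' x fun h' => hx ⟨h, h'⟩
    · exact hA' x h
  rw [card_mul hDX hA hA', card_mul hDX hB hB', card_mul hDX hU hU', card_mul hDX hI hI'] at h1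
  have hfin : Finite {t : ℤ × ℤ → ZMod 2 // ∀ x, x ∉ X \ D → t x = 0} :=
    (finite_supp (X \ D)).to_subtype
  have hne : Nonempty {t : ℤ × ℤ → ZMod 2 // ∀ x, x ∉ X \ D → t x = 0} := ⟨⟨0, fun _ _ => rfl⟩⟩
  have hc : 0 < Nat.card {t : ℤ × ℤ → ZMod 2 // ∀ x, x ∉ X \ D → t x = 0} := Nat.card_pos
  set c := Nat.card {t : ℤ × ℤ → ZMod 2 // ∀ x, x ∉ X \ D → t x = 0}
  have h2 : (w D A * w D B) * (c * c) ≤ (w D (A ∪ B) * w D (A ∩ B)) * (c * c) := by
    calc (w D A * w D B) * (c * c) = w D A * c * (w D B * c) := by ring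
      _ ≤ w D (A ∪ B) * c * (w D (A ∩ B) * c) := h1
      _ = _ := by ring
  exact Nat.le_of_mul_le_mul_right h2 (Nat.mul_pos hc hc)

end Vale.Agent.P153.L1
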