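import Vale.Agent.P153.A.Stmt

/-!
P153, block A3, leaves (7), (8), (9): the limit law of tau, its translation invariance and mixing.
-/

namespace Vale.Agent.P153.A

open MeasureTheory Filter Topology Relation
open Vale.Agent.P153.GFF (Adj)

/-! ### local functions on a product of finite sets -/

theorem Loc.mono {X : Type} {B B' : Finset Pt} (h : B ⊆ B') {F : (Pt → X) → ℝ} (hF : Loc B F) :
    Loc B' F := fun ω ω' h' => hF ω ω' fun x hx => h' x (h hx)

theorem Loc.tr {X : Type} {B : Finset Pt} {F : (Pt → X) → ℝ} (hF : Loc B F) (z : Pt) :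
    Loc (B.image (· + z)) (fun ω => F (tr z ω)) := by
  intro ω ω' h
  apply hF
  intro x hx
  exact h _ (Finset.mem_image_of_mem _ hx)

theorem Loc.measurable {X : Type} [Fintype X] [MeasurableSpace X] [MeasurableSingletonClass X]
    {B : Finset Pt} {F : (Pt → X) → ℝ} (hF : Loc B F) : Measurable F := by
  classical
  by_cases hX : Nonempty X
  · obtain ⟨x0⟩ := hX
    let r : (Pt → X) → (B → X) := fun ω x => ω x
    let e : (B → X) → (Pt → X) := fun u x => if h : x ∈ B then u ⟨x, h⟩ else x0
    have hr : Measurable r := measurable_pi_lambda _ fun x => measurable_pi_apply _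
    have h1 : F = (fun u => F (e u)) ∘ r := by
      funext ω
      apply hF
      intro x hx
      simp [e, r, hx]
    rw [h1]
    exact (measurable_of_finite _).comp hr
  · have : IsEmpty (Pt → X) := ⟨fun f => hX ⟨f 0⟩⟩
    exact measurable_of_empty _

theorem Loc.bdd {X : Type} [Fintype X] {B : Finset Pt} {F : (Pt → X) → ℝ} (hF : Loc B F) :
    ∃ C : ℝ, 0 ≤ C ∧ ∀ ω, |F ω| ≤ C := by
  classical
  by_cases hX : Nonempty X
  · obtain ⟨x0⟩ := hX
    let e : (B → X) → (Pt → X) := fun u x => if h : x ∈ B then u ⟨x, h⟩ else x0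
    refine ⟨∑ u : B → X, |F (e u)|, Finset.sum_nonneg fun _ _ => abs_nonneg _, fun ω => ?_⟩
    have h1 : F ω = F (e fun x => ω x) := by
      apply hF
      intro x hx
      simp [e, hx]
    rw [h1]
    exact Finset.single_le_sum (f := fun u : B → X => |F (e u)|) (fun _ _ => abs_nonneg _)
      (Finset.mem_univ (fun x : B => ω x))
  · have : IsEmpty (Pt → X) := ⟨fun f => hX ⟨f 0⟩⟩
    exact ⟨0, le_rfl, fun ω => this.elim ω⟩

theorem Loc.integrable {X : Type} [Fintype X] [MeasurableSpace X] [MeasurableSingletonClass X]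
    {B : Finset Pt} {F : (Pt → X) → ℝ} (hF : Loc B F) (P : Measure (Pt → X))
    [IsProbabilityMeasure P] : Integrable F P := by
  obtain ⟨C, _, hC⟩ := hF.bdd
  exact Integrable.of_bound hF.measurable.aestronglyMeasurable C (Eventually.of_forall hC)

/-- two laws which agree on local functions are equal -/
theorem ext_loc {X : Type} [Fintype X] [MeasurableSpace X] [MeasurableSingletonClass X]
    {P Q : Measure (Pt → X)} [IsProbabilityMeasure P] [IsProbabilityMeasure Q]
    (h : ∀ (B : Finset Pt) (F : (Pt → X) → ℝ), Loc B F → ∫ ω, F ω ∂P = ∫ ω, F ω ∂Q) : P = Q := by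
  classical
  refine ext_of_generate_finite (measurableCylinders fun _ : Pt => X)
    generateFrom_measurableCylinders.symm isPiSystem_measurableCylinders ?_ ?_
  · intro S hS
    obtain ⟨B, T, hT, rfl⟩ := (mem_measurableCylinders S).1 hS
    have hm : MeasurableSet (cylinder B T) := MeasurableSet.cylinder (α := fun _ : Pt => X) B hT
    have h1 := h B ((cylinder B T).indicator fun _ => (1 : ℝ)) (by
      intro ω ω' hω
      have : B.restrict ω = B.restrict ω' := by
        funext x
        exact hω x x.2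
      simp only [Set.indicator, mem_cylinder, this])
    rw [integral_indicator hm, integral_indicator hm] at h1
    simp only [integral_const, MeasurableSet.univ, measureReal_restrict_apply, Set.univ_inter,
      smul_eq_mul, mul_one] at h1
    have h2 : (P (cylinder B T)).toReal = (Q (cylinder B T)).toReal := h1
    exact (ENNReal.toReal_eq_toReal_iff' (measure_ne_top _ _) (measure_ne_top _ _)).1 h2
  · simp

/-! ### uniform laws on finite sets -/

section unif

variable {α : Type*} [MeasurableSpace α] [MeasurableSingletonClass α]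

/-- uniform probability on a finite set -/
noncomputable def uM {S : Set α} (hS : S.Finite) : Measure α :=
  ∑ x ∈ hS.toFinset, ((S.ncard : ENNReal)⁻¹) • Measure.dirac x

omit [MeasurableSingletonClass α] in
theorem uM_prob {S : Set α} (hS : S.Finite) (hne : S.Nonempty) :
    IsProbabilityMeasure (uM hS) := by
  constructor
  have h0 : (S.ncard : ENNReal) ≠ 0 := by
    have := (Set.ncard_pos hS).2 hne
    exact_mod_cast this.ne'
  simp only [uM, Measure.coe_finsetSum, Finset.sum_apply, Measure.smul_apply, measure_univ,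
    smul_eq_mul, mul_one, Finset.sum_const, nsmul_eq_mul]
  rw [← Set.ncard_eq_toFinset_card S hS]
  exact ENNReal.mul_inv_cancel h0 (ENNReal.natCast_ne_top _)

theorem uM_integral {S : Set α} (hS : S.Finite) (hne : S.Nonempty) (F : α → ℝ) :
    ∫ x, F x ∂(uM hS) = (∑ᶠ x ∈ S, F x) / S.ncard := by
  have h0 : (S.ncard : ENNReal) ≠ 0 := by
    have := (Set.ncard_pos hS).2 hne
    exact_mod_cast this.ne'
  have h1 : (S.ncard : ENNReal)⁻¹ ≠ ⊤ := ENNReal.inv_ne_top.2 h0
  unfold uM
  rw [integral_finsetSum_measure]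
  · rw [finsum_mem_eq_finite_toFinset_sum _ hS, Finset.sum_div]
    refine Finset.sum_congr rfl fun x _ => ?_
    rw [integral_smul_measure, integral_dirac]
    simp [div_eq_inv_mul]
  · intro x _
    exact (integrable_dirac (by simp)).smul_measure h1

end unif

/-! ### the expectations -/

variable {D : Finset Pt}

/-- the law of the pair on `D` -/
noncomputable def nu2 (h : S_e1) (D : Finset Pt) : Measure Om := uM (h D).2.1

theorem nu2_prob (h : S_e1) (D : Finset Pt) : IsProbabilityMeasure (nu2 h D) :=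
  uM_prob _ (h D).2.2.1

theorem nu2_integral (h : S_e1) (D : Finset Pt) (F : Om → ℝ) : ∫ ω, F ω ∂(nu2 h D) = E2 D F :=
  uM_integral _ (h D).2.2.1 F

theorem measurable_tau : Measurable tau :=
  measurable_pi_lambda _ fun x => measurable_fst.comp (measurable_pi_apply x)

/-- the law of tau on `D` -/
noncomputable def nu1 (h : S_e1) (D : Finset Pt) : Measure Sp := (nu2 h D).map tau

theorem nu1_prob (h : S_e1) (D : Finset Pt) : IsProbabilityMeasure (nu1 h D) := by
  have := nu2_prob h D
  exact Measure.isProbabilityMeasure_map measurable_tau.aemeasurable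

theorem nu1_integral (h : S_e1) (D : Finset Pt) {B : Finset Pt} {f : Sp → ℝ} (hf : Loc B f) :
    ∫ τ, f τ ∂(nu1 h D) = E1 D f := by
  rw [nu1, integral_map measurable_tau.aemeasurable hf.measurable.aestronglyMeasurable,
    nu2_integral, E1]

theorem E1_sub (h : S_e1) (D : Finset Pt) {B : Finset Pt} {f g : Sp → ℝ} (hf : Loc B f)
    (hg : Loc B g) : E1 D (fun τ => f τ - g τ) = E1 D f - E1 D g := by
  have := nu1_prob h D
  rw [← nu1_integral h D hf, ← nu1_integral h D hg, ← nu1_integral h D (B := B),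
    integral_sub (hf.integrable _) (hg.integrable _)]
  intro τ τ' hh
  simp only [hf τ τ' hh, hg τ τ' hh]

/-- number of plus spins in `B` -/
noncomputable def cnt (B : Finset Pt) (τ : Sp) : ℝ := ∑ x ∈ B, if τ x then 1 else 0

theorem cnt_loc (B : Finset Pt) : Loc B (cnt B) := by
  intro τ τ' h
  exact Finset.sum_congr rfl fun x hx => by rw [h x hx]

theorem cnt_mono (B : Finset Pt) : Monotone (cnt B) := by
  intro τ τ' h
  refine Finset.sum_le_sum fun x _ => ?_
  have := h x
  revert this
  cases τ x <;> cases τ' x <;> simp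

theorem cnt_nonneg (B : Finset Pt) (τ : Sp) : 0 ≤ cnt B τ :=
  Finset.sum_nonneg fun x _ => by split_ifs <;> simp

/-- a strict increase of tau somewhere in `B` increases the number of plus spins -/
theorem cnt_lt {B : Finset Pt} {τ τ' : Sp} (h : τ ≤ τ') {x : Pt} (hx : x ∈ B)
    (hne : τ x ≠ τ' x) : cnt B τ + 1 ≤ cnt B τ' := by
  classical
  unfold cnt
  rw [← Finset.add_sum_erase _ _ hx, ← Finset.add_sum_erase B (fun x => if τ' x then (1 : ℝ) else 0) hx]
  have h1 : ∑ y ∈ B.erase x, (if τ y then (1 : ℝ) else 0) ≤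
      ∑ y ∈ B.erase x, (if τ' y then (1 : ℝ) else 0) := by
    refine Finset.sum_le_sum fun y _ => ?_
    have := h y
    revert this
    cases τ y <;> cases τ' y <;> simp
  have h2 : (if τ x then (1 : ℝ) else 0) + 1 ≤ (if τ' x then (1 : ℝ) else 0) := by
    have h3 := h x
    revert h3 hne
    cases τ x <;> cases τ' x <;> simp
  linarith

/-- every local function is a difference of nonnegative monotone local functions -/
theorem Loc.split {B : Finset Pt} {f : Sp → ℝ} (hf : Loc B f) :
    ∃ f1 f2 : Sp → ℝ, Loc B f1 ∧ Loc B f2 ∧ Monotone f1 ∧ Monotone f2 ∧ (∀ τ, 0 ≤ f1 τ) ∧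
      (∀ τ, 0 ≤ f2 τ) ∧ ∀ τ, f τ = f1 τ - f2 τ := by
  obtain ⟨C, hC0, hC⟩ := hf.bdd
  refine ⟨fun τ => f τ + (2 * C * cnt B τ + C), fun τ => 2 * C * cnt B τ + C, ?_, ?_, ?_, ?_, ?_,
    ?_, ?_⟩
  · intro τ τ' h
    simp only [hf τ τ' h, cnt_loc B τ τ' h]
  · intro τ τ' h
    simp only [cnt_loc B τ τ' h]
  · intro τ τ' h
    by_cases h1 : ∀ x ∈ B, τ x = τ' x
    · simp only [hf τ τ' h1, cnt_loc B τ τ' h1, le_refl]
    · push Not at h1
      obtain ⟨x, hx, hne⟩ := h1
      have h2 := cnt_lt h hx hne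
      have h3 := (abs_le.1 (hC τ)).2
      have h4 := (abs_le.1 (hC τ')).1
      show f τ + (2 * C * cnt B τ + C) ≤ f τ' + (2 * C * cnt B τ' + C)
      nlinarith
  · intro τ τ' h
    have := cnt_mono B h
    show 2 * C * cnt B τ + C ≤ 2 * C * cnt B τ' + C
    nlinarith
  · intro τ
    have h1 := (abs_le.1 (hC τ)).1
    have h2 := mul_nonneg (mul_nonneg zero_le_two hC0) (cnt_nonneg B τ)
    linarith
  · intro τ
    have h2 := mul_nonneg (mul_nonneg zero_le_two hC0) (cnt_nonneg B τ)
    show 0 ≤ 2 * C * cnt B τ + C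
    linarith
  · intro τ
    ring

theorem E1_nonneg (h : S_e1) (D : Finset Pt) {B : Finset Pt} {f : Sp → ℝ} (hf : Loc B f)
    (h0 : ∀ τ, 0 ≤ f τ) : 0 ≤ E1 D f := by
  rw [← nu1_integral h D hf]
  exact integral_nonneg h0

/-- existence of the limits -/
theorem E1_lim (h1 : S_e1) (h4 : S_dom) {B : Finset Pt} {f : Sp → ℝ} (hf : Loc B f) :
    ∃ l : ℝ, Tendsto (fun D => E1 D f) atTop (𝓝 l) := by
  obtain ⟨f1, f2, l1, l2, m1, m2, p1, p2, he⟩ := hf.split
  have key : ∀ g : Sp → ℝ, Loc B g → Monotone g → (∀ τ, 0 ≤ g τ) →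
      ∃ l : ℝ, Tendsto (fun D => E1 D g) atTop (𝓝 l) := by
    intro g hg hm hp
    refine ⟨_, tendsto_atTop_ciInf (fun D D' hD => h4 D D' hD g hm) ⟨0, ?_⟩⟩
    rintro _ ⟨D, rfl⟩
    exact E1_nonneg h1 D hg hp
  obtain ⟨a, ha⟩ := key f1 l1 m1 p1
  obtain ⟨b, hb⟩ := key f2 l2 m2 p2
  refine ⟨a - b, (ha.sub hb).congr fun D => ?_⟩
  rw [← E1_sub h1 D l1 l2]
  congr 1
  funext τ
  exact (he τ).symm

/-- (7) -/
theorem s_mu (h1 : S_e1) (h4 : S_dom) (h6 : S_comp) : S_mu := by
  obtain ⟨μ, hμ, hlim⟩ := h6 Bool (nu1 h1) (nu1_prob h1) (fun B F hF => by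
    obtain ⟨l, hl⟩ := E1_lim h1 h4 hF
    exact ⟨l, hl.congr fun D => (nu1_integral h1 D hF).symm⟩)
  exact ⟨μ, hμ, fun B f hf => (hlim B f hf).congr fun D => nu1_integral h1 D hf⟩

end Vale.Agent.P153.A
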